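import Vale.Agent.N147X.B1
import Vale.Agent.P147.MathlibUsed

set_option linter.all false

section

open MeasureTheory
open scoped ENNReal

namespace Vale.Agent.N147X.Z.Cr

variable {d : ℕ} [Steps d] (μ : Measure (Row d)) {L : Site d →+ ℝ}

lemma En_mono (n : ℕ) {Φ Ψ : List (Dir d) → ℝ≥0∞} (h : ∀ l, Φ l ≤ Ψ l) :
    En μ L n Φ ≤ En μ L n Ψ := by
  induction n generalizing Φ Ψ with
  | zero => exact h []
  | succ n ih =>
    rw [En, En]
    exact ENNReal.tsum_le_tsum fun b => mul_le_mul_right (ih fun l => h _) _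

lemma En_add_fun (n : ℕ) (Φ Ψ : List (Dir d) → ℝ≥0∞) :
    En μ L n (fun l => Φ l + Ψ l) = En μ L n Φ + En μ L n Ψ := by
  induction n generalizing Φ Ψ with
  | zero => rfl
  | succ n ih =>
    rw [En, En, En, ← ENNReal.tsum_add]
    refine tsum_congr fun b => ?_
    rw [ih, mul_add]

lemma En_const_mul (n : ℕ) (c : ℝ≥0∞) (Φ : List (Dir d) → ℝ≥0∞) :
    En μ L n (fun l => c * Φ l) = c * En μ L n Φ := by
  induction n generalizing Φ with
  | zero => rfl
  | succ n ih =>
    rw [En, En, ← ENNReal.tsum_mul_left]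
    refine tsum_congr fun b => ?_
    rw [ih]
    ring

lemma En_const (h1 : ∑' b : Ir L, wt μ b.1 = 1) (n : ℕ) (c : ℝ≥0∞) :
    En μ L n (fun _ => c) = c := by
  induction n with
  | zero => rfl
  | succ n ih =>
    rw [En]
    simp only [ih]
    rw [ENNReal.tsum_mul_right, h1, one_mul]

lemma En_tsum {ι : Type*} (n : ℕ) (Φ : ι → List (Dir d) → ℝ≥0∞) :
    En μ L n (fun l => ∑' i, Φ i l) = ∑' i, En μ L n (Φ i) := by
  induction n generalizing Φ with
  | zero => rfl
  | succ n ih =>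
    simp only [En]
    rw [ENNReal.tsum_comm]
    refine tsum_congr fun b => ?_
    rw [ih, ENNReal.tsum_mul_left]

/-- Laplace transform. -/
lemma En_exp (n : ℕ) :
    En μ L n (fun l => ENNReal.ofReal (Real.exp (-L (dsp l)))) =
      (∑' b : Ir L, wt μ b.1 * ENNReal.ofReal (Real.exp (-L (dsp b.1)))) ^ n := by
  induction n with
  | zero => simp [En]
  | succ n ih =>
    rw [En, pow_succ', ← ENNReal.tsum_mul_right]
    refine tsum_congr fun b => ?_
    rw [mul_assoc, ← ih, ← En_const_mul μ n (ENNReal.ofReal (Real.exp (-L (dsp b.1))))]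
    congr 2
    funext l
    rw [← ENNReal.ofReal_mul (Real.exp_nonneg _), ← Real.exp_add, dsp_append, map_add]
    congr 2
    ring

open Classical in
/-- Few blocks reach a given height slowly. -/
lemma En_low (n : ℕ) (h : ℝ) :
    En μ L n (fun l => if L (dsp l) < h then 1 else 0) ≤ ENNReal.ofReal (Real.exp h) *
      (∑' b : Ir L, wt μ b.1 * ENNReal.ofReal (Real.exp (-L (dsp b.1)))) ^ n := by
  rw [← En_exp, ← En_const_mul]
  refine En_mono μ n fun l => ?_
  split_ifs with hl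
  · rw [← ENNReal.ofReal_mul (Real.exp_nonneg _), ← Real.exp_add, ← ENNReal.ofReal_one]
    apply ENNReal.ofReal_le_ofReal
    rw [← Real.exp_zero]
    apply Real.exp_le_exp.2
    linarith
  · exact zero_le

lemma En_height (h1 : ∑' b : Ir L, wt μ b.1 = 1) (n : ℕ) :
    En μ L n (fun l => ENNReal.ofReal (L (dsp l))) ≤
      n * ∑' b : Ir L, wt μ b.1 * ENNReal.ofReal (L (dsp b.1)) := by
  induction n with
  | zero => simp [En]
  | succ n ih =>
    rw [En]
    calc ∑' b : Ir L, wt μ b.1 * En μ L n (fun l => ENNReal.ofReal (L (dsp (b.1 ++ l))))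
        ≤ ∑' b : Ir L, (wt μ b.1 * ENNReal.ofReal (L (dsp b.1)) + wt μ b.1 *
            En μ L n (fun l => ENNReal.ofReal (L (dsp l)))) := by
          refine ENNReal.tsum_le_tsum fun b => ?_
          rw [← mul_add]
          refine mul_le_mul_right ?_ _
          calc _ ≤ En μ L n (fun l => ENNReal.ofReal (L (dsp b.1)) +
                ENNReal.ofReal (L (dsp l))) := by
                refine En_mono μ n fun l => ?_
                rw [dsp_append, map_add]
                exact ENNReal.ofReal_add_le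
            _ = _ := by rw [En_add_fun, En_const μ h1]
      _ = (∑' b : Ir L, wt μ b.1 * ENNReal.ofReal (L (dsp b.1))) +
            En μ L n (fun l => ENNReal.ofReal (L (dsp l))) := by
          rw [ENNReal.tsum_add, ENNReal.tsum_mul_right, h1, one_mul]
      _ ≤ _ := by
          push_cast
          rw [add_mul, one_mul, add_comm]
          gcongr

open Classical in
lemma En_high (h1 : ∑' b : Ir L, wt μ b.1 = 1) (n : ℕ) {M : ℝ} (hM : 0 < M) :
    En μ L n (fun l => if M < L (dsp l) then 1 else 0) ≤ (ENNReal.ofReal M)⁻¹ *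
      (n * ∑' b : Ir L, wt μ b.1 * ENNReal.ofReal (L (dsp b.1))) := by
  have hM' : ENNReal.ofReal M ≠ 0 := by simpa using hM
  calc _ ≤ En μ L n (fun l => (ENNReal.ofReal M)⁻¹ * ENNReal.ofReal (L (dsp l))) := by
        refine En_mono μ n fun l => ?_
        split_ifs with hl
        · rw [← ENNReal.div_eq_inv_mul, ENNReal.le_div_iff_mul_le (Or.inl hM')
            (Or.inl ENNReal.ofReal_ne_top), one_mul]
          exact ENNReal.ofReal_le_ofReal hl.le
        · exact zero_le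
    _ = (ENNReal.ofReal M)⁻¹ * En μ L n (fun l => ENNReal.ofReal (L (dsp l))) :=
        En_const_mul μ n _ _
    _ ≤ _ := by
        gcongr
        exact En_height μ h1 n

lemma kap_mass : (kap μ L).mass = ∑' b : Ir L, wt μ b.1 := by
  classical
  rw [Cv.mass]
  simp only [kap]
  rw [ENNReal.tsum_comm]
  refine tsum_congr fun b => ?_
  rw [tsum_eq_single (dsp b.1)]
  · simp
  · intro x hx
    rw [if_neg (Ne.symm hx)]

lemma tsum_kap_mul (g : Site d → ℝ≥0∞) :
    ∑' y, (kap μ L).v y * g y = ∑' b : Ir L, wt μ b.1 * g (dsp b.1) := by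
  classical
  simp only [kap, ← ENNReal.tsum_mul_right]
  rw [ENNReal.tsum_comm]
  refine tsum_congr fun b => ?_
  rw [tsum_eq_single (dsp b.1)]
  · rw [if_pos rfl]
  · intro x hx
    rw [if_neg (Ne.symm hx), zero_mul]

lemma En_dsp' (n : ℕ) (f : Site d → ℝ≥0∞) :
    En μ L n (fun l => f (dsp l)) = ∑' x, ((kap μ L) ^ n).v x * f x := by
  classical
  induction n generalizing f with
  | zero =>
    rw [pow_zero, tsum_eq_single (0 : Site d)]
    · simp [En, Cv.one_def]
    · intro x hx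
      rw [Cv.one_def, Cv.pt_v_ne hx, zero_mul]
  | succ n ih =>
    rw [En, pow_succ']
    simp only [Cv.mul_v]
    calc ∑' b : Ir L, wt μ b.1 * En μ L n (fun l => f (dsp (b.1 ++ l)))
        = ∑' b : Ir L, wt μ b.1 * ∑' x, ((kap μ L) ^ n).v x * f (dsp b.1 + x) := by
          refine tsum_congr fun b => ?_
          rw [← ih (fun x => f (dsp b.1 + x))]
          simp only [dsp_append]
      _ = ∑' y, (kap μ L).v y * ∑' x, ((kap μ L) ^ n).v x * f (y + x) :=
          (tsum_kap_mul μ (fun y => ∑' x, ((kap μ L) ^ n).v x * f (y + x))).symm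
      _ = ∑' y, ∑' x, (kap μ L).v y * (((kap μ L) ^ n).v (x - y) * f x) := by
          refine tsum_congr fun y => ?_
          rw [ENNReal.tsum_mul_left, ← (Equiv.subRight y).tsum_eq
            (fun x => ((kap μ L) ^ n).v x * f (y + x))]
          congr 2
          funext x
          simp
      _ = _ := by
          rw [ENNReal.tsum_comm]
          refine tsum_congr fun x => ?_
          rw [← ENNReal.tsum_mul_right]
          refine tsum_congr fun y => ?_
          ring

end Vale.Agent.N147X.Z.Cr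
end

section

/-!
# Words of blocks: concatenation and the law of the displacement
-/

open MeasureTheory
open scoped ENNReal

namespace Vale.Agent.N147X.Z

variable {d : ℕ} [Steps d] (μ : Measure (Row d)) [IsProbabilityMeasure μ]

omit [IsProbabilityMeasure μ] in
theorem En_add {L : Site d →+ ℝ} (m n : ℕ) (Φ : List (Dir d) → ℝ≥0∞) :
    En μ L (m + n) Φ = En μ L m (fun l => En μ L n (fun l' => Φ (l ++ l'))) := by
  induction m generalizing Φ with
  | zero => simp [En]
  | succ m ih =>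
    rw [Nat.add_right_comm, En, En]
    refine tsum_congr fun b => ?_
    rw [ih]
    simp only [List.append_assoc]

omit [IsProbabilityMeasure μ] in
/-- Expectation of a function of the displacement of one block. -/
lemma kap_sum {L : Site d →+ ℝ} (g : Site d → ℝ≥0∞) :
    ∑' y, (kap μ L).v y * g y = ∑' b : Ir L, wt μ b.1 * g (dsp b.1) := by
  classical
  simp only [kap]
  calc ∑' y, (∑' b : Ir L, if dsp b.1 = y then wt μ b.1 else 0) * g y
      = ∑' y, ∑' b : Ir L, (if dsp b.1 = y then wt μ b.1 else 0) * g y := by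
        refine tsum_congr fun y => ?_
        rw [ENNReal.tsum_mul_right]
    _ = ∑' b : Ir L, ∑' y, (if dsp b.1 = y then wt μ b.1 else 0) * g y := ENNReal.tsum_comm
    _ = ∑' b : Ir L, wt μ b.1 * g (dsp b.1) := by
        refine tsum_congr fun b => ?_
        rw [tsum_eq_single (dsp b.1)]
        · simp
        · intro y hy
          rw [if_neg (Ne.symm hy), zero_mul]

omit [IsProbabilityMeasure μ] in
theorem En_dsp {L : Site d →+ ℝ} (n : ℕ) (f : Site d → ℝ≥0∞) :
    En μ L n (fun l => f (dsp l)) = ∑' x, ((kap μ L) ^ n).v x * f x := by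
  induction n generalizing f with
  | zero =>
    rw [pow_zero, Cv.one_def, tsum_eq_single 0]
    · simp [En]
    · intro x hx
      rw [Cv.pt_v_ne hx, zero_mul]
  | succ n ih =>
    rw [En, pow_succ']
    calc ∑' b : Ir L, wt μ b.1 * En μ L n (fun l => f (dsp (b.1 ++ l)))
        = ∑' b : Ir L, wt μ b.1 * ∑' x, ((kap μ L) ^ n).v x * f (dsp b.1 + x) := by
          refine tsum_congr fun b => ?_
          rw [← ih (fun x => f (dsp b.1 + x))]
          simp only [dsp_append]
      _ = ∑' y, (kap μ L).v y * ∑' x, ((kap μ L) ^ n).v x * f (y + x) :=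
          (kap_sum μ (fun y => ∑' x, ((kap μ L) ^ n).v x * f (y + x))).symm
      _ = ∑' y, ∑' x, (kap μ L).v y * ((kap μ L) ^ n).v (x - y) * f x := by
          refine tsum_congr fun y => ?_
          rw [← ENNReal.tsum_mul_left, ← (Equiv.subRight y).tsum_eq]
          refine tsum_congr fun x => ?_
          simp only [Equiv.subRight_apply, add_sub_cancel]
          ring
      _ = ∑' x, ∑' y, (kap μ L).v y * ((kap μ L) ^ n).v (x - y) * f x := ENNReal.tsum_comm
      _ = ∑' x, (kap μ L * (kap μ L) ^ n).v x * f x := by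
          refine tsum_congr fun x => ?_
          rw [Cv.mul_v, ENNReal.tsum_mul_right]

end Vale.Agent.N147X.Z
end

section

/-!
# Summability of the backtrack probabilities over dyadic scales
-/

open MeasureTheory
open scoped ENNReal

namespace Vale.Agent.N147X.Z

variable {d : ℕ} [Steps d] (μ : Measure (Row d)) [IsProbabilityMeasure μ]

/-- Paths that reach level at most `-1` for the first time at their end. -/
def DjDn (L : Site d →+ ℝ) : Set (List (Dir d)) :=
  {l | (∀ x ∈ exits 0 l, -1 < L x) ∧ L (dsp l) ≤ -1}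

lemma dj_mem_exits_append {a b : List (Dir d)} (hb : b ≠ []) : dsp a ∈ exits 0 (a ++ b) := by
  rw [mem_exits]
  exact ⟨a, b, rfl, hb, by simp⟩

lemma DjDn_free (L : Site d →+ ℝ) : Free (DjDn L) := by
  intro a ha b hb
  by_contra hb0
  have h1 := hb.1 (dsp a) (dj_mem_exits_append hb0)
  exact absurd ha.2 (not_le.2 h1)

lemma dj_Fp_free (L : Site d →+ ℝ) (a : ℝ) : Free (Fp L a) := by
  intro l hl b hb
  by_contra hb0
  have h1 := hb.1 (dsp l) (dj_mem_exits_append hb0)
  exact absurd hl.2 (not_le.2 h1.2)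

/-- The path first reaches level `a` and then leaves the slab through the bottom. -/
def DjE (L : Site d →+ ℝ) (a t : ℝ) (l : List (Dir d)) : Prop :=
  ∃ γ ∈ Fp L a, ∃ ρ ∈ Ds L t (dsp γ), l = γ ++ ρ

lemma dj_mem_DjDn {L : Site d →+ ℝ} {a t : ℝ} {γ ρ : List (Dir d)} (hγ : γ ∈ Fp L a)
    (hρ : ρ ∈ Ds L t (dsp γ)) : γ ++ ρ ∈ DjDn L := by
  refine ⟨fun x hx => ?_, ?_⟩
  · rw [exits_append, Finset.mem_union, zero_add] at hx
    rcases hx with hx | hx
    · have := (hγ.1 x hx).1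
      linarith only [this]
    · exact (hρ.1 x hx).1
  · rw [dsp_append]
    exact hρ.2

omit [IsProbabilityMeasure μ] in
open Classical in
lemma dj_single {L : Site d →+ ℝ} (a t : ℝ) :
    ∑' γ : Fp L a, Eb μ L t γ.1 ≤ ∑' l : DjDn L, if DjE L a t l.1 then wt μ l.1 else 0 := by
  simp only [Eb]
  rw [← ENNReal.tsum_sigma' (fun p : (γ : Fp L a) × Ds L t (dsp γ.1) => wt μ (p.1.1 ++ p.2.1))]
  let φ : ((γ : Fp L a) × Ds L t (dsp γ.1)) → DjDn L :=
    fun p => ⟨p.1.1 ++ p.2.1, dj_mem_DjDn p.1.2 p.2.2⟩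
  have hφ : Function.Injective φ := by
    rintro ⟨⟨γ, hγ⟩, ⟨ρ, hρ⟩⟩ ⟨⟨γ', hγ'⟩, ⟨ρ', hρ'⟩⟩ heq
    have heq' : γ ++ ρ = γ' ++ ρ' := congrArg Subtype.val heq
    have h0 : γ = γ' := by
      rcases List.append_eq_append_iff.1 heq' with ⟨c, h1, -⟩ | ⟨c, h1, -⟩
      · have := dj_Fp_free L a γ hγ c (h1 ▸ hγ')
        rw [h1, this, List.append_nil]
      · have := dj_Fp_free L a γ' hγ' c (h1 ▸ hγ)
        rw [h1, this, List.append_nil]
    subst h0
    have h1 : ρ = ρ' := List.append_cancel_left heq'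
    subst h1
    rfl
  calc ∑' p : (γ : Fp L a) × Ds L t (dsp γ.1), wt μ (p.1.1 ++ p.2.1)
      = ∑' p : (γ : Fp L a) × Ds L t (dsp γ.1),
          (if DjE L a t (φ p).1 then wt μ (φ p).1 else 0) := by
        refine tsum_congr fun p => ?_
        rw [if_pos ⟨p.1.1, p.1.2, p.2.1, p.2.2, rfl⟩]
    _ ≤ _ := ENNReal.tsum_comp_le_tsum_of_injective hφ
        (fun l : DjDn L => if DjE L a t l.1 then wt μ l.1 else 0)

lemma dj_bounds {L : Site d →+ ℝ} {a t : ℝ} {l : List (Dir d)} (ha : 0 ≤ a) (h : DjE L a t l) :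
    (∃ x ∈ exits 0 l, a ≤ L x) ∧ ∀ x ∈ exits 0 l, L x < t := by
  obtain ⟨γ, hγ, ρ, hρ, rfl⟩ := h
  have hne : ρ ≠ [] := by
    rintro rfl
    have h1 := hρ.2
    have h2 := hγ.2
    simp only [dsp_nil, add_zero] at h1
    linarith only [ha, h2, h1]
  have hin : dsp γ ∈ exits (dsp γ) ρ := by
    rw [mem_exits]
    exact ⟨[], ρ, rfl, hne, by simp⟩
  have hat : a < t := lt_of_le_of_lt hγ.2 (hρ.1 _ hin).2
  refine ⟨⟨dsp γ, dj_mem_exits_append hne, hγ.2⟩, fun x hx => ?_⟩
  rw [exits_append, Finset.mem_union, zero_add] at hx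
  rcases hx with hx | hx
  · exact (hγ.1 x hx).2.trans hat
  · exact (hρ.1 x hx).2

lemma dj_diff {L : Site d →+ ℝ} {c : ℝ} (hc : 0 < c) {K : ℕ} (hK : 4 ≤ c * 2 ^ K)
    {l : List (Dir d)} {i j : ℕ} (hi : DjE L (c * 2 ^ i) (2 ^ (i + 1) + 2) l)
    (hj : DjE L (c * 2 ^ j) (2 ^ (j + 1) + 2) l) : j < i + K := by
  obtain ⟨⟨x, hx, h1⟩, -⟩ := dj_bounds (by positivity) hj
  have h2 := (dj_bounds (by positivity) hi).2 x hx
  by_contra hcon
  push Not at hcon
  have h3 : c * 2 ^ (i + K) ≤ c * (2 : ℝ) ^ j := by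
    gcongr
    norm_num
  have h4 : (1 : ℝ) ≤ 2 ^ i := one_le_pow₀ (by norm_num)
  have h5 : 4 * (2 : ℝ) ^ i ≤ c * 2 ^ (i + K) := by
    rw [pow_add]
    linarith only [mul_nonneg (sub_nonneg.2 hK) (sub_nonneg.2 h4), hK]
  rw [pow_succ] at h2
  linarith only [h1, h2, h3, h4, h5]

open Classical in
lemma dj_count {L : Site d →+ ℝ} {c : ℝ} (hc : 0 < c) {K : ℕ} (hK : 4 ≤ c * 2 ^ K)
    (l : List (Dir d)) (w : ℝ≥0∞) :
    ∑' j : ℕ, (if DjE L (c * 2 ^ j) (2 ^ (j + 1) + 2) l then w else 0) ≤ K * w := by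
  by_cases hex : ∃ j, DjE L (c * 2 ^ j) (2 ^ (j + 1) + 2) l
  · set i := Nat.find hex with hi
    have hi1 := Nat.find_spec hex
    rw [← hi] at hi1
    rw [tsum_eq_sum (s := Finset.Ico i (i + K))]
    · calc _ ≤ ∑ _j ∈ Finset.Ico i (i + K), w := by
            refine Finset.sum_le_sum fun j _ => ?_
            split_ifs
            · exact le_rfl
            · exact zero_le
        _ = _ := by simp only [Finset.sum_const, Nat.card_Ico, add_tsub_cancel_left, nsmul_eq_mul]
    · intro j hj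
      rw [if_neg]
      intro hE
      apply hj
      rw [Finset.mem_Ico]
      exact ⟨Nat.find_min' hex hE, dj_diff hc hK hi1 hE⟩
  · push Not at hex
    simp only [hex, ↓reduceIte, tsum_zero, zero_le]

theorem dj_sum {L : Site d →+ ℝ} (hL : Lvl L) {c : ℝ} (hc : 0 < c) :
    ∑' j : ℕ, ∑' γ : Fp L (c * 2 ^ j), Eb μ L (2 ^ (j + 1) + 2) γ.1 ≠ ⊤ := by
  classical
  obtain ⟨K, hK⟩ : ∃ K : ℕ, 4 ≤ c * 2 ^ K := by
    obtain ⟨K, hK⟩ := pow_unbounded_of_one_lt (4 / c) (by norm_num : (1 : ℝ) < 2)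
    refine ⟨K, ?_⟩
    rw [div_lt_iff₀ hc] at hK
    linarith
  have hle : ∑' j : ℕ, ∑' γ : Fp L (c * 2 ^ j), Eb μ L (2 ^ (j + 1) + 2) γ.1 ≤ K := by
    calc _ ≤ ∑' j : ℕ, ∑' l : DjDn L,
          (if DjE L (c * 2 ^ j) (2 ^ (j + 1) + 2) l.1 then wt μ l.1 else 0) :=
          ENNReal.tsum_le_tsum fun j => dj_single μ _ _
      _ = ∑' l : DjDn L, ∑' j : ℕ,
          (if DjE L (c * 2 ^ j) (2 ^ (j + 1) + 2) l.1 then wt μ l.1 else 0) := ENNReal.tsum_comm
      _ ≤ ∑' l : DjDn L, K * wt μ l.1 := ENNReal.tsum_le_tsum fun l => dj_count hc hK _ _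
      _ = K * ∑' l : DjDn L, wt μ l.1 := ENNReal.tsum_mul_left
      _ ≤ K * 1 := by gcongr; exact tsum_wt_le_one μ (DjDn_free L)
      _ = K := mul_one _
  exact ne_top_of_le_ne_top (ENNReal.natCast_ne_top K) hle

end Vale.Agent.N147X.Z
end

section
attribute [-instance] ProperSMul.toContinuousSMul IsTopologicalTorsor.toContinuousSMul IdemSemiring.toCanonicallyOrderedAdd IdemSemiring.toMulLeftMono IdemSemiring.toMulRightMono AddQuantale.instAddLeftMono AddQuantale.instAddRightMono Quantale.instMulLeftMono Quantale.instMulRightMono FiniteDimensional.rclike_to_real IsScalarTower.complexToReal FiniteDimensional.complexToReal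

set_option linter.all false

/-!
# Entropy, total variation and telescoping over scales

For a probability mass function `κ` on an abelian group with convolution powers `κ ^ n` (law of
`S_n`): the total variation cost of forgetting `S_m` when looking at `S_n` is controlled by the
entropy increment `H (S_n) - H (S_{n-m})`, and entropy grows at most logarithmically, so at most
scales this cost is small.
-/

open scoped ENNReal
open Real

namespace Vale.Agent.N147X.Z
namespace Ent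

section general

variable {G : Type*} [AddCommGroup G]

/-- The total variation cost: mean over `S_m` of the positive part of
`law (S_n | S_m) - law (S_n)`. -/
noncomputable def tvg (κ : Cv G) (n m : ℕ) : ℝ≥0∞ :=
  ∑' w, (κ ^ m).v w * ∑' z, ((κ ^ (n - m)).v (z - w) - (κ ^ n).v z)

/-- Convolution powers as real functions. -/
noncomputable def pr (κ : Cv G) (n : ℕ) (z : G) : ℝ := ((κ ^ n).v z).toReal

/-- Entropy of the convolution power. -/
noncomputable def He (κ : Cv G) (n : ℕ) : ℝ≥0∞ := ∑' z, ENNReal.ofReal (negMulLog (pr κ n z))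

variable {κ : Cv G} (hκ : Cv.mass κ = 1)

include hκ

lemma mass_pw (n : ℕ) : ∑' z, (κ ^ n).v z = 1 := by
  have := Cv.mass_pow κ n
  rw [hκ, one_pow] at this
  exact this

lemma v_le_one (n : ℕ) (z : G) : (κ ^ n).v z ≤ 1 := by
  rw [← mass_pw hκ n]; exact ENNReal.le_tsum z

lemma v_ne_top (n : ℕ) (z : G) : (κ ^ n).v z ≠ ∞ :=
  ne_top_of_le_ne_top ENNReal.one_ne_top (v_le_one hκ n z)

lemma ofReal_pr (n : ℕ) (z : G) : ENNReal.ofReal (pr κ n z) = (κ ^ n).v z :=
  ENNReal.ofReal_toReal (v_ne_top hκ n z)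

omit hκ in
lemma pr_nonneg (n : ℕ) (z : G) : 0 ≤ pr κ n z := ENNReal.toReal_nonneg

lemma pr_le_one (n : ℕ) (z : G) : pr κ n z ≤ 1 := by
  have := ENNReal.toReal_mono ENNReal.one_ne_top (v_le_one hκ n z)
  simpa only [pr, ge_iff_le, ENNReal.toReal_one] using this

omit hκ in
lemma conv_v (m k : ℕ) (z : G) : ∑' w, (κ ^ m).v w * (κ ^ k).v (z - w) = (κ ^ (m + k)).v z := by
  rw [pow_add, Cv.mul_v]

omit hκ in
lemma ptw {Q R η : ℝ} (hQ : 0 ≤ Q) (hR : 0 ≤ R) (hη : 0 < η) (h : R = 0 → Q = 0) :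
    max (Q - R) 0 + η⁻¹ * (negMulLog Q + Q) ≤ η * Q + η⁻¹ * (Q * (-Real.log R) + R) := by
  rcases hR.eq_or_lt with h0 | hR
  · have := h h0.symm
    subst this
    subst h0
    simp
  rcases hQ.eq_or_lt with h0 | hQ
  · subst h0
    simp only [zero_sub, negMulLog_zero, zero_add, mul_zero, zero_mul, add_zero]
    rw [max_eq_right (by linarith)]
    positivity
  -- KL integrand
  set s := Real.sqrt Q with hs
  set t := Real.sqrt R with ht
  have hs0 : 0 < s := Real.sqrt_pos.2 hQ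
  have ht0 : 0 < t := Real.sqrt_pos.2 hR
  have hsQ : s ^ 2 = Q := Real.sq_sqrt hQ.le
  have htR : t ^ 2 = R := Real.sq_sqrt hR.le
  have hlogQ : Real.log Q = 2 * Real.log s := by rw [← hsQ, Real.log_pow]; norm_num
  have hlogR : Real.log R = 2 * Real.log t := by rw [← htR, Real.log_pow]; norm_num
  have hlog : Real.log t - Real.log s ≤ t / s - 1 := by
    rw [← Real.log_div ht0.ne' hs0.ne']
    exact Real.log_le_sub_one_of_pos (by positivity)
  have h1 : s ^ 2 * (Real.log t - Real.log s) ≤ s * t - s ^ 2 := by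
    have := mul_le_mul_of_nonneg_left hlog (sq_nonneg s)
    have e : s ^ 2 * (t / s - 1) = s * t - s ^ 2 := by (clear * - hs0; field_simp)
    linarith only [this, e]
  have hKL : (s - t) ^ 2 ≤ -negMulLog Q - Q * Real.log R - Q + R := by
    rw [negMulLog, hlogQ, hlogR, ← hsQ, ← htR]
    linarith
  -- positive part
  have hpos : max (Q - R) 0 ≤ η * Q + η⁻¹ * (s - t) ^ 2 := by
    refine max_le ?_ (by (clear * - hη hQ; positivity))
    have e1 : Q - R = (s - t) * (s + t) := by rw [← hsQ, ← htR]; ring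
    rcases le_total s t with hst | hst
    · have : Q - R ≤ 0 := by rw [e1]; nlinarith only [hs0, hst]
      have : 0 ≤ η * Q + η⁻¹ * (s - t) ^ 2 := by (clear * - hη hQ; positivity)
      (clear h hs ht ht0 hlogQ hlogR hlog h1 hKL; linarith)
    · have h2 : Q - R ≤ 2 * s * (s - t) := by rw [e1]; (by_contra nlg; linarith only [nlg, mul_pos (sub_pos.2 (not_le.1 nlg)) (sub_pos.2 ht0), mul_nonneg (sq_nonneg (s - t : ℝ)) (le_of_lt (sub_pos.2 ht0))])
      have h3 : 2 * s * (s - t) ≤ η * s ^ 2 + η⁻¹ * (s - t) ^ 2 := by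
        have h4 : 0 ≤ η⁻¹ * (η * s - (s - t)) ^ 2 := by (clear * - hη; positivity)
        have e2 : η⁻¹ * (η * s - (s - t)) ^ 2 =
            η * s ^ 2 - 2 * s * (s - t) + η⁻¹ * (s - t) ^ 2 := by
          field_simp
          ring
        linarith only [h4, e2]
      rw [hsQ] at h3
      linarith only [h2, h3]
  have h5 : η⁻¹ * (s - t) ^ 2 ≤ η⁻¹ * (-negMulLog Q - Q * Real.log R - Q + R) :=
    mul_le_mul_of_nonneg_left hKL (by positivity)
  have e3 : η⁻¹ * (-negMulLog Q - Q * Real.log R - Q + R) =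
      η⁻¹ * (Q * (-Real.log R) + R) - η⁻¹ * (negMulLog Q + Q) := by ring
  linarith only [hpos, h5]

lemma negMulLog_pr_nonneg (n : ℕ) (z : G) : 0 ≤ negMulLog (pr κ n z) :=
  negMulLog_nonneg (pr_nonneg n z) (pr_le_one hκ n z)

lemma neg_log_pr_nonneg (n : ℕ) (z : G) : 0 ≤ -Real.log (pr κ n z) := by
  have := Real.log_nonpos (pr_nonneg n z) (pr_le_one hκ n z)
  linarith only [this]

/-- The basic inequality, in extended nonnegative reals. -/
lemma basic {n m : ℕ} (hmn : m ≤ n) {η : ℝ} (hη : 0 < η) :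
    tvg κ n m + ENNReal.ofReal η⁻¹ * (He κ (n - m) + 1) ≤
      ENNReal.ofReal η + ENNReal.ofReal η⁻¹ * (He κ n + 1) := by
  have hcv : ∀ z, ∑' w, (κ ^ m).v w * (κ ^ (n - m)).v (z - w) = (κ ^ n).v z := by
    intro z
    rw [conv_v, Nat.add_sub_cancel' hmn]
  have hshift : ∀ (f : G → ℝ≥0∞) (w : G), ∑' z, f (z - w) = ∑' z, f z := by
    intro f w
    exact (Equiv.subRight w).tsum_eq f
  -- pointwise inequality
  have hp : ∀ w z, (κ ^ m).v w * ((κ ^ (n - m)).v (z - w) - (κ ^ n).v z) +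
      ENNReal.ofReal η⁻¹ * ((κ ^ m).v w * ENNReal.ofReal (negMulLog (pr κ (n - m) (z - w))) +
        (κ ^ m).v w * (κ ^ (n - m)).v (z - w)) ≤
      ENNReal.ofReal η * ((κ ^ m).v w * (κ ^ (n - m)).v (z - w)) +
      ENNReal.ofReal η⁻¹ * ((κ ^ m).v w * (κ ^ (n - m)).v (z - w) *
        ENNReal.ofReal (-Real.log (pr κ n z)) + (κ ^ m).v w * (κ ^ n).v z) := by
    intro w z
    by_cases hP : (κ ^ m).v w = 0
    · rw [hP]; simp only [zero_mul, add_zero, mul_zero, Std.le_refl]
    set Q := pr κ (n - m) (z - w) with hQ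
    set R := pr κ n z with hR
    have hQ0 : 0 ≤ Q := pr_nonneg _ _
    have hR0 : 0 ≤ R := pr_nonneg _ _
    have hQR : R = 0 → Q = 0 := by
      intro h0
      have h1 : (κ ^ n).v z = 0 := by rw [← ofReal_pr hκ, ← hR, h0, ENNReal.ofReal_zero]
      have h2 : (κ ^ m).v w * (κ ^ (n - m)).v (z - w) ≤ 0 := by
        rw [← h1, ← hcv z]; exact ENNReal.le_tsum w
      have h3 := mul_eq_zero.1 (nonpos_iff_eq_zero.1 h2)
      have h4 : (κ ^ (n - m)).v (z - w) = 0 := h3.resolve_left hP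
      rw [hQ, pr, h4]; simp
    have key := ptw hQ0 hR0 hη hQR
    have keyE := ENNReal.ofReal_le_ofReal key
    have hnm := negMulLog_pr_nonneg hκ (n - m) (z - w)
    rw [← hQ] at hnm
    have hlr := neg_log_pr_nonneg hκ n z
    rw [← hR] at hlr
    rw [ENNReal.ofReal_add (le_max_right _ _) (by (clear * - hη hnm hQ0; positivity)),
      ENNReal.ofReal_mul (by positivity), ENNReal.ofReal_add hnm hQ0,
      ENNReal.ofReal_add (by (clear * - hη hQ0; positivity)) (by (clear * - hη hQ0 hlr hR0; positivity)),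
      ENNReal.ofReal_mul hη.le, ENNReal.ofReal_mul (inv_nonneg.2 hη.le),
      ENNReal.ofReal_add (by (clear * - hQ0 hlr; positivity)) hR0, ENNReal.ofReal_mul hQ0,
      ENNReal.ofReal_max, ENNReal.ofReal_zero, max_eq_left zero_le',
      ENNReal.ofReal_sub _ hR0] at keyE
    rw [hQ, hR, ofReal_pr hκ, ofReal_pr hκ, ← hQ, ← hR] at keyE
    calc _ = (κ ^ m).v w * ((κ ^ (n - m)).v (z - w) - (κ ^ n).v z +
          ENNReal.ofReal η⁻¹ * (ENNReal.ofReal (negMulLog Q) + (κ ^ (n - m)).v (z - w))) := by ring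
      _ ≤ (κ ^ m).v w * (ENNReal.ofReal η * (κ ^ (n - m)).v (z - w) +
          ENNReal.ofReal η⁻¹ * ((κ ^ (n - m)).v (z - w) * ENNReal.ofReal (-Real.log R) +
            (κ ^ n).v z)) := by (clear * - keyE; gcongr)
      _ = _ := by ring
  have hsum := ENNReal.tsum_le_tsum fun w => ENNReal.tsum_le_tsum fun z => hp w z
  simp only [ENNReal.tsum_add, ENNReal.tsum_mul_left] at hsum
  -- evaluate the sums
  have e1 : ∀ w, ∑' z, (κ ^ (n - m)).v (z - w) = 1 := fun w => by
    rw [hshift (κ ^ (n - m)).v w]; exact mass_pw hκ _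
  have e2 : ∀ w, ∑' z, ENNReal.ofReal (negMulLog (pr κ (n - m) (z - w))) = He κ (n - m) :=
    fun w => hshift (fun z => ENNReal.ofReal (negMulLog (pr κ (n - m) z))) w
  have e3 : ∑' w, ∑' z, (κ ^ m).v w * (κ ^ (n - m)).v (z - w) *
        ENNReal.ofReal (-Real.log (pr κ n z)) = He κ n := by
    rw [ENNReal.tsum_comm, He]
    refine tsum_congr fun z => ?_
    rw [ENNReal.tsum_mul_right, hcv z, negMulLog, neg_mul, ← mul_neg,
      ENNReal.ofReal_mul (pr_nonneg n z), ofReal_pr hκ]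
  have e4 : ∑' w, (κ ^ m).v w = 1 := mass_pw hκ m
  have e5 : ∑' z, (κ ^ n).v z = 1 := mass_pw hκ n
  simp only [e1, e2, e3, e5, mul_one] at hsum
  rw [e4, ENNReal.tsum_mul_right, e4, one_mul, mul_one] at hsum
  exact hsum

/-- Entropy is nondecreasing. -/
lemma He_mono {n k : ℕ} (hkn : k ≤ n) : He κ k ≤ He κ n := by
  refine ENNReal.le_of_forall_pos_le_add fun ε hε htop => ?_
  have hε' : (0 : ℝ) < ε := by exact_mod_cast hε
  set η : ℝ := Real.sqrt ε with hη
  have hη0 : 0 < η := Real.sqrt_pos.2 hε'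
  have hsq : η * η = ε := Real.mul_self_sqrt hε'.le
  have h := basic hκ (n := n) (m := n - k) (Nat.sub_le _ _) hη0
  rw [Nat.sub_sub_self hkn] at h
  have h1 : ENNReal.ofReal η⁻¹ * (He κ k + 1) ≤
      ENNReal.ofReal η + ENNReal.ofReal η⁻¹ * (He κ n + 1) := le_trans le_add_self h
  have hinv : ENNReal.ofReal η * ENNReal.ofReal η⁻¹ = 1 := by
    rw [← ENNReal.ofReal_mul hη0.le, mul_inv_cancel₀ hη0.ne', ENNReal.ofReal_one]
  have h3 : He κ k + 1 ≤ (He κ n + ε) + 1 := by
    calc He κ k + 1 = ENNReal.ofReal η * (ENNReal.ofReal η⁻¹ * (He κ k + 1)) := by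
          rw [← mul_assoc, hinv, one_mul]
      _ ≤ ENNReal.ofReal η * (ENNReal.ofReal η + ENNReal.ofReal η⁻¹ * (He κ n + 1)) := by (clear * - h1; gcongr)
      _ = ENNReal.ofReal η * ENNReal.ofReal η + (He κ n + 1) := by
          rw [mul_add, ← mul_assoc (ENNReal.ofReal η) (ENNReal.ofReal η⁻¹), hinv, one_mul]
      _ = (He κ n + ε) + 1 := by
          rw [← ENNReal.ofReal_mul hη0.le, hsq, ENNReal.ofReal_coe_nnreal]
          ring
  exact (ENNReal.add_le_add_iff_right ENNReal.one_ne_top).1 h3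

/-- The entropy as a real number. -/
noncomputable def Hr (κ : Cv G) (n : ℕ) : ℝ := (He κ n).toReal

omit hκ in
lemma Hr_nonneg (n : ℕ) : 0 ≤ Hr κ n := ENNReal.toReal_nonneg

lemma Hr_mono (hfin : ∀ n, He κ n ≠ ∞) {n k : ℕ} (hkn : k ≤ n) : Hr κ k ≤ Hr κ n :=
  ENNReal.toReal_mono (hfin n) (He_mono hκ hkn)

lemma tvg_le (hfin : ∀ n, He κ n ≠ ∞) {n m : ℕ} (hmn : m ≤ n) {η : ℝ} (hη : 0 < η) :
    tvg κ n m ≤ ENNReal.ofReal (η + η⁻¹ * (Hr κ n - Hr κ (n - m))) := by
  have h := basic hκ hmn hη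
  have e : ∀ k, He κ k + 1 = ENNReal.ofReal (Hr κ k + 1) := fun k => by
    rw [ENNReal.ofReal_add (Hr_nonneg k) zero_le_one, Hr, ENNReal.ofReal_toReal (hfin k),
      ENNReal.ofReal_one]
  rw [e, e, ← ENNReal.ofReal_mul (by positivity), ← ENNReal.ofReal_mul (by positivity),
    ← ENNReal.ofReal_add hη.le (by have := Hr_nonneg (κ := κ) n; positivity)] at h
  have h2 : tvg κ n m ≤ ENNReal.ofReal (η + η⁻¹ * (Hr κ n + 1)) -
      ENNReal.ofReal (η⁻¹ * (Hr κ (n - m) + 1)) :=
    ENNReal.le_sub_of_add_le_right ENNReal.ofReal_ne_top h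
  rw [← ENNReal.ofReal_sub _ (by have := Hr_nonneg (κ := κ) (n - m); positivity)] at h2
  refine h2.trans (le_of_eq ?_)
  congr 1
  ring

omit hκ in
lemma tele (H : ℕ → ℝ) (hH : Monotone H) (m : ℕ) {A B : ℕ} (hmA : m ≤ A) (hAB : A ≤ B) :
    ∑ n ∈ Finset.Ico A B, (H n - H (n - m)) ≤ m * (H (B - 1) - H (A - m)) := by
  induction m with
  | zero => simp only [tsub_zero, sub_self, Finset.sum_const_zero, CharP.cast_eq_zero, zero_mul, Std.le_refl]
  | succ m ih =>
    have h1 := ih (by omega)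
    have h2 : ∀ B, A ≤ B → ∑ n ∈ Finset.Ico A B, (H (n - m) - H (n - (m + 1))) =
        H (B - 1 - m) - H (A - 1 - m) := by
      intro B hB
      induction B, hB using Nat.le_induction with
      | base => simp only [Std.le_refl, Finset.Ico_eq_empty_of_le, Finset.sum_sub_distrib, Finset.sum_empty, sub_self]
      | succ B hB ihB =>
        rw [Finset.sum_Ico_succ_top hB, ihB]
        have e1 : B + 1 - 1 - m = B - m := by omega
        have e2 : B - 1 - m = B - (m + 1) := by omega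
        rw [e1, e2]
        ring
    have h3 : ∑ n ∈ Finset.Ico A B, (H n - H (n - (m + 1))) =
        ∑ n ∈ Finset.Ico A B, (H n - H (n - m)) +
          ∑ n ∈ Finset.Ico A B, (H (n - m) - H (n - (m + 1))) := by
      rw [← Finset.sum_add_distrib]
      exact Finset.sum_congr rfl fun n _ => by ring
    rw [h3, h2 B hAB]
    have h4 : H (B - 1 - m) ≤ H (B - 1) := hH (by omega)
    have h5 : H (A - (m + 1)) ≤ H (A - m) := hH (by omega)
    have h6 : H (A - 1 - m) = H (A - (m + 1)) := by congr 1; omega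
    rw [h6]
    have h7 : (m : ℝ) * (H (B - 1) - H (A - m)) ≤ m * (H (B - 1) - H (A - (m + 1))) := by
      (clear * - h5; gcongr)
    push_cast
    linarith only [h1, h4, h7]

/-- Good scales: most scales have a bounded entropy bracket, and there the total variation cost
is small, once the forgotten part is a small fraction. -/
theorem scales (hfin : ∀ n, He κ n ≠ ∞) {C₅ : ℝ} (hC₅ : 0 ≤ C₅)
    (hgrow : ∀ i : ℕ, Hr κ (2 ^ i) ≤ C₅ * (1 + i)) (a b : ℕ) {ε : ℝ} (hε : 0 < ε) :
    ∃ (e₀ : ℕ) (GS : Set ℕ), b < e₀ ∧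
      (∀ J, 8 * (Set.ncard {j | b + 1 ≤ j ∧ j < J ∧ j ∉ GS}) ≤ J) ∧
      ∀ e ≥ e₀, ∀ j ∈ GS, e ≤ j →
        ∑ n ∈ Finset.Icc (2 ^ (j - b)) (2 ^ (j + a)), tvg κ n (2 ^ (j - e)) ≤
          ENNReal.ofReal (ε * 2 ^ j) := by
  classical
  set F : ℕ → ℝ := fun i => Hr κ (2 ^ i) with hF
  have hFm : Monotone F := fun i k hik =>
    Hr_mono hκ hfin (Nat.pow_le_pow_right (by norm_num) hik)
  have hF0 : ∀ i, 0 ≤ F i := fun i => Hr_nonneg _
  set br : ℕ → ℝ := fun j => F (j + a) - F (j - (b + 1)) with hbr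
  have hbr0 : ∀ j, 0 ≤ br j := fun j => sub_nonneg.2 (hFm (by omega))
  set C₆ : ℝ := ((a + b + 1 : ℕ) : ℝ) * (C₅ * (2 + a)) + 1 with hC₆
  have hC₆0 : 0 < C₆ := by (clear * - hC₅; positivity)
  have hsumbr : ∀ J, 1 ≤ J → ∑ j ∈ Finset.Ico (b + 1) J, br j ≤ C₆ * J := by
    intro J hJ
    rcases lt_or_ge J (b + 1) with h | h
    · rw [Finset.Ico_eq_empty (by omega), Finset.sum_empty]; (clear * - hC₅ hJ; positivity)
    have h1 : ∑ j ∈ Finset.Ico (b + 1) J, br j =
        ∑ n ∈ Finset.Ico (b + 1 + a) (J + a), (F n - F (n - (a + b + 1))) := by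
      rw [← Finset.sum_Ico_add' (fun n => F n - F (n - (a + b + 1))) (b + 1) J a]
      refine Finset.sum_congr rfl fun j hj => ?_
      rw [hbr]
      simp only
      congr 2
      omega
    rw [h1]
    have h2 := tele F hFm (a + b + 1) (A := b + 1 + a) (B := J + a) (by omega) (by omega)
    refine h2.trans ?_
    have h3 : F (J + a - 1) ≤ C₅ * (1 + (J + a : ℕ)) := (hFm (by omega)).trans (hgrow _)
    have h4 := hF0 (b + 1 + a - (a + b + 1))
    have h5 : F (J + a - 1) - F (b + 1 + a - (a + b + 1)) ≤ C₅ * (2 + a) * J := by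
      have hJ' : (1 : ℝ) ≤ J := by exact_mod_cast hJ
      have h6 : C₅ * (1 + ((J + a : ℕ) : ℝ)) ≤ C₅ * (2 + a) * J := by
        rw [mul_assoc]
        refine mul_le_mul_of_nonneg_left ?_ hC₅
        push_cast
        have : (a : ℝ) ≤ a * J := by
          have ha : (0 : ℝ) ≤ a := by (clear * -; positivity)
          nlinarith only [hJ']
        nlinarith only [hJ']
      linarith only [h3, h4, h6]
    have h7 : ((a + b + 1 : ℕ) : ℝ) * (F (J + a - 1) - F (b + 1 + a - (a + b + 1))) ≤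
        ((a + b + 1 : ℕ) : ℝ) * (C₅ * (2 + a) * J) := by (clear * - h5; gcongr)
    refine h7.trans ?_
    rw [hC₆]
    have : (0 : ℝ) ≤ J := by positivity
    linarith only []
  set C₂ : ℝ := 8 * C₆ with hC₂
  have hC₂0 : 0 < C₂ := by (clear * - hC₅; positivity)
  set GS : Set ℕ := {j | b + 1 ≤ j ∧ br j ≤ C₂} with hGS
  set η : ℝ := ε / (2 * (2 ^ a + 1)) with hη
  have hη0 : 0 < η := by positivity
  obtain ⟨e₁, he₁⟩ := pow_unbounded_of_one_lt (2 * C₂ / (ε * η)) (one_lt_two : (1 : ℝ) < 2)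
  refine ⟨max e₁ (b + 1), GS, lt_of_lt_of_le (Nat.lt_succ_self b) (le_max_right _ _), ?_, ?_⟩
  · intro J
    set Bad : Finset ℕ := {j ∈ Finset.Ico (b + 1) J | ¬ br j ≤ C₂} with hBad
    have hset : {j | b + 1 ≤ j ∧ j < J ∧ j ∉ GS} = (Bad : Set ℕ) := by
      ext j
      simp only [hBad, hGS, Finset.coe_filter, Finset.mem_Ico, Set.mem_ofPred_eq]
      constructor
      · rintro ⟨h1, h2, h3⟩
        exact ⟨⟨h1, h2⟩, fun h4 => h3 ⟨h1, h4⟩⟩
      · rintro ⟨⟨h1, h2⟩, h3⟩
        exact ⟨h1, h2, fun h4 => h3 h4.2⟩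
    rw [hset, Set.ncard_coe_finset]
    rcases Nat.eq_zero_or_pos J with hJ0 | hJ0
    · subst hJ0
      simp only [hBad, not_le, le_add_iff_nonneg_left, zero_le, Finset.Ico_eq_empty_of_le, Finset.filter_empty, Finset.card_empty, mul_zero, Std.le_refl]
    have h1 : (Bad.card : ℝ) * C₂ ≤ C₆ * J := by
      calc (Bad.card : ℝ) * C₂ = ∑ _j ∈ Bad, C₂ := by rw [Finset.sum_const, nsmul_eq_mul]
        _ ≤ ∑ j ∈ Bad, br j := by
            refine Finset.sum_le_sum fun j hj => ?_
            rw [hBad, Finset.mem_filter] at hj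
            exact (not_le.1 hj.2).le
        _ ≤ ∑ j ∈ Finset.Ico (b + 1) J, br j :=
            Finset.sum_le_sum_of_subset_of_nonneg (Finset.filter_subset _ _)
              fun j _ _ => hbr0 j
        _ ≤ C₆ * J := hsumbr J hJ0
    have h2 : (8 * Bad.card : ℝ) ≤ J := by
      rw [hC₂] at h1
      have : C₆ * (8 * Bad.card : ℝ) ≤ C₆ * J := by linarith only [h1]
      exact le_of_mul_le_mul_left this hC₆0
    exact_mod_cast h2
  · intro e he j hj hej
    have he1 : e₁ ≤ e := le_trans (le_max_left _ _) he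
    have heb : b + 1 ≤ e := le_trans (le_max_right _ _) he
    obtain ⟨hj1, hj2⟩ := hj
    set m := 2 ^ (j - e) with hm
    set A := 2 ^ (j - b) with hA
    set B := 2 ^ (j + a) with hB
    have hmA : m ≤ 2 ^ (j - (b + 1)) := Nat.pow_le_pow_right (by norm_num) (by omega)
    have hA2 : A = 2 * 2 ^ (j - (b + 1)) := by
      rw [hA, ← pow_succ']; congr 1; omega
    have hAB : A ≤ B := Nat.pow_le_pow_right (by norm_num) (by omega)
    have hHm : Monotone (Hr κ) := fun i k hik => Hr_mono hκ hfin hik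
    calc ∑ n ∈ Finset.Icc A B, tvg κ n m
        ≤ ∑ n ∈ Finset.Icc A B, ENNReal.ofReal (η + η⁻¹ * (Hr κ n - Hr κ (n - m))) := by
          refine Finset.sum_le_sum fun n hn => tvg_le hκ hfin ?_ hη0
          rw [Finset.mem_Icc] at hn
          omega
      _ = ENNReal.ofReal (∑ n ∈ Finset.Icc A B, (η + η⁻¹ * (Hr κ n - Hr κ (n - m)))) := by
          rw [ENNReal.ofReal_sum_of_nonneg]
          intro n hn
          have : 0 ≤ Hr κ n - Hr κ (n - m) := sub_nonneg.2 (hHm (Nat.sub_le _ _))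
          (clear * - hε this; positivity)
      _ ≤ ENNReal.ofReal (ε * 2 ^ j) := by
          apply ENNReal.ofReal_le_ofReal
          have hIcc : Finset.Icc A B = Finset.Ico A (B + 1) := by
            ext n; simp only [Finset.mem_Icc, Finset.mem_Ico]; omega
          rw [Finset.sum_add_distrib, ← Finset.mul_sum, Finset.sum_const, nsmul_eq_mul, hIcc,
            Nat.card_Ico]
          have h1 := tele (Hr κ) hHm m (A := A) (B := B + 1) (by omega) (by omega)
          rw [Nat.add_sub_cancel] at h1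
          have h2 : Hr κ (2 ^ (j - (b + 1))) ≤ Hr κ (A - m) := hHm (by omega)
          have h3 : Hr κ B - Hr κ (A - m) ≤ C₂ := by
            have : br j = Hr κ B - Hr κ (2 ^ (j - (b + 1))) := rfl
            rw [this] at hj2
            linarith only [hj2, h2]
          have h4 : ((B + 1 - A : ℕ) : ℝ) ≤ (2 ^ a + 1) * 2 ^ j := by
            have h41 : B + 1 - A ≤ 2 ^ a * 2 ^ j + 2 ^ j := by
              have : B = 2 ^ a * 2 ^ j := by rw [hB, pow_add]; ring
              have h42 : 1 ≤ 2 ^ j := Nat.one_le_two_pow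
              omega
            calc ((B + 1 - A : ℕ) : ℝ) ≤ ((2 ^ a * 2 ^ j + 2 ^ j : ℕ) : ℝ) := by exact_mod_cast h41
              _ = _ := by push_cast; ring
          have h5 : ((B + 1 - A : ℕ) : ℝ) * η ≤ ε * 2 ^ j / 2 := by
            calc ((B + 1 - A : ℕ) : ℝ) * η ≤ ((2 ^ a + 1) * 2 ^ j) * η := by (clear * - h4 hε; gcongr)
              _ = ε * 2 ^ j / 2 := by rw [hη]; field_simp
          have h6 : (m : ℝ) * 2 ^ e = 2 ^ j := by
            rw [hm]
            push_cast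
            rw [← pow_add, Nat.sub_add_cancel hej]
          have h7 : (2 : ℝ) ^ e₁ ≤ 2 ^ e := pow_le_pow_right₀ (by norm_num) he1
          have h8 : 2 * C₂ / (ε * η) ≤ 2 ^ e := he₁.le.trans h7
          have h9 : η⁻¹ * ((m : ℝ) * C₂) ≤ ε * 2 ^ j / 2 := by
            rw [← h6]
            rw [div_le_iff₀ (by positivity)] at h8
            have h10 : (m : ℝ) * (2 * C₂) ≤ m * (2 ^ e * (ε * η)) :=
              mul_le_mul_of_nonneg_left h8 (by positivity)
            have h11 : η⁻¹ * ((m : ℝ) * (2 * C₂)) ≤ η⁻¹ * (m * (2 ^ e * (ε * η))) :=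
              mul_le_mul_of_nonneg_left h10 (by positivity)
            have h12 : η⁻¹ * (m * (2 ^ e * (ε * η))) = ε * (m * 2 ^ e) := by
              (clear * - hη0 hε; field_simp)
            have h13 : η⁻¹ * ((m : ℝ) * (2 * C₂)) = 2 * (η⁻¹ * (m * C₂)) := by ring
            linarith only [h12, h11]
          have h14 : η⁻¹ * ∑ n ∈ Finset.Ico A (B + 1), (Hr κ n - Hr κ (n - m)) ≤
              η⁻¹ * ((m : ℝ) * C₂) := by
            refine mul_le_mul_of_nonneg_left (h1.trans ?_) (by positivity)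
            (clear * - h3; gcongr)
          linarith only [h14, h9, h5]

end general

section lattice

variable {d : ℕ} [Steps d]

lemma summable_w1 : Summable (fun k : ℤ => ((1 + |(k : ℝ)|) ^ 2)⁻¹) := by
  have h : Summable (fun n : ℕ => ((1 + |((n : ℤ) : ℝ)|) ^ 2)⁻¹) := by
    have h0 := (summable_nat_add_iff 1).2 (Real.summable_nat_pow_inv.2 one_lt_two)
    refine h0.congr fun n => ?_
    have : |((n : ℤ) : ℝ)| = n := by simp
    rw [this]
    push_cast
    ring
  refine Summable.of_nat_of_neg h ?_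
  refine h.congr fun n => ?_
  simp

/-- Normalising constant. -/
noncomputable def Z1 : ℝ := ∑' k : ℤ, ((1 + |(k : ℝ)|) ^ 2)⁻¹

lemma one_le_Z1 : 1 ≤ Z1 := by
  have h := summable_w1.le_tsum 0 (fun k _ => by positivity)
  simpa only [Z1, ge_iff_le, Int.cast_zero, abs_zero, add_zero, one_pow, inv_one] using h

/-- One-dimensional reference weights. -/
noncomputable def w1 (k : ℤ) : ℝ := ((1 + |(k : ℝ)|) ^ 2)⁻¹ / Z1

lemma w1_pos (k : ℤ) : 0 < w1 k := by
  have := one_le_Z1
  unfold w1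
  positivity

lemma tsum_w1 : ∑' k : ℤ, ENNReal.ofReal (w1 k) = 1 := by
  rw [← ENNReal.ofReal_tsum_of_nonneg (fun k => (w1_pos k).le) (summable_w1.div_const _)]
  unfold w1
  rw [tsum_div_const]
  have := one_le_Z1
  rw [show (∑' k : ℤ, ((1 + |(k : ℝ)|) ^ 2)⁻¹) = Z1 from rfl, div_self (by positivity),
    ENNReal.ofReal_one]

/-- Reference weights. -/
noncomputable def nu (z : Site d) : ℝ := ∏ i, w1 (z i)

lemma nu_pos (z : Site d) : 0 < nu z := Finset.prod_pos fun i _ => w1_pos _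

lemma ofReal_nu (z : Site d) : ENNReal.ofReal (nu z) = ∏ i, ENNReal.ofReal (w1 (z i)) := by
  rw [nu, ENNReal.ofReal_prod_of_nonneg fun i _ => (w1_pos _).le]

lemma sum_nu_le (s : Finset (Site d)) : ∑ z ∈ s, ENNReal.ofReal (nu z) ≤ 1 := by
  classical
  simp only [ofReal_nu]
  have hsub : s ⊆ Fintype.piFinset (fun i => s.image fun z => z i) := by
    intro z hz
    rw [Fintype.mem_piFinset]
    exact fun i => Finset.mem_image_of_mem _ hz
  refine (Finset.sum_le_sum_of_subset hsub).trans ?_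
  have h2 := Finset.prod_univ_sum (fun i => s.image fun z : Site d => z i)
    (fun _ k => ENNReal.ofReal (w1 k))
  rw [← h2]
  refine Finset.prod_le_one' fun i _ => ?_
  rw [← tsum_w1]
  exact ENNReal.sum_le_tsum _

lemma tsum_nu : ∑' z : Site d, ENNReal.ofReal (nu z) ≤ 1 := by
  rw [ENNReal.tsum_eq_iSup_sum]
  exact iSup_le fun s => sum_nu_le s

lemma neg_log_nu (z : Site d) :
    -Real.log (nu z) ≤ d * Real.log Z1 + 2 * d * Real.log (1 + ‖z‖) := by
  have hZ := one_le_Z1
  rw [nu, Real.log_prod (fun i _ => (w1_pos _).ne'), ← Finset.sum_neg_distrib]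
  calc ∑ i, -Real.log (w1 (z i)) ≤ ∑ _i : Fin d, (Real.log Z1 + 2 * Real.log (1 + ‖z‖)) := by
        refine Finset.sum_le_sum fun i _ => ?_
        unfold w1
        rw [Real.log_div (by positivity) (by positivity), Real.log_inv, Real.log_pow]
        have h1 : |(z i : ℝ)| ≤ ‖z‖ := by
          have := norm_le_pi_norm z i
          rwa [Int.norm_eq_abs] at this
        have h2 : Real.log (1 + |(z i : ℝ)|) ≤ Real.log (1 + ‖z‖) :=
          Real.log_le_log (by positivity) (by linarith)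
        push_cast
        linarith only [h2]
    _ = _ := by
        rw [Finset.sum_const, Finset.card_univ, Fintype.card_fin, nsmul_eq_mul]
        ring

/-- Upper bound for the entropy by the cross entropy with the reference weights. -/
lemma He_le_cross {κ : Cv (Site d)} (hκ : Cv.mass κ = 1) (n : ℕ) :
    He κ n ≤ ∑' z, (κ ^ n).v z * ENNReal.ofReal (-Real.log (nu z)) := by
  have hw1le : ∀ z : Site d, nu z ≤ 1 := by
    intro z
    have h := (ENNReal.le_tsum z).trans (tsum_nu (d := d))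
    exact ENNReal.ofReal_le_one.1 h
  have hpt : ∀ z, ENNReal.ofReal (negMulLog (pr κ n z)) + (κ ^ n).v z ≤
      (κ ^ n).v z * ENNReal.ofReal (-Real.log (nu z)) + ENNReal.ofReal (nu z) := by
    intro z
    have h0 := pr_nonneg (κ := κ) n z
    have hnu := nu_pos z
    have hln : 0 ≤ -Real.log (nu z) := by
      have := Real.log_nonpos hnu.le (hw1le z); linarith only [this]
    have key : negMulLog (pr κ n z) + pr κ n z ≤ pr κ n z * (-Real.log (nu z)) + nu z := by
      rcases h0.eq_or_lt with h | h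
      · rw [← h]; simp only [negMulLog_zero, add_zero, mul_neg, zero_mul, neg_zero, zero_add]; exact hnu.le
      · have h1 : Real.log (nu z) - Real.log (pr κ n z) ≤ nu z / pr κ n z - 1 := by
          rw [← Real.log_div hnu.ne' h.ne']
          exact Real.log_le_sub_one_of_pos (by positivity)
        have h2 := mul_le_mul_of_nonneg_left h1 h.le
        have e : pr κ n z * (nu z / pr κ n z - 1) = nu z - pr κ n z := by (clear * - h; field_simp)
        rw [negMulLog]
        linarith only [e, h2]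
    have h3 := ENNReal.ofReal_le_ofReal key
    rw [ENNReal.ofReal_add (negMulLog_pr_nonneg hκ n z) h0, ENNReal.ofReal_add (by positivity)
      hnu.le, ENNReal.ofReal_mul h0, ofReal_pr hκ] at h3
    exact h3
  have hs := ENNReal.tsum_le_tsum hpt
  rw [ENNReal.tsum_add, ENNReal.tsum_add, mass_pw hκ n] at hs
  have h4 := hs.trans (add_le_add_right (tsum_nu (d := d)) _)
  exact (ENNReal.add_le_add_iff_right ENNReal.one_ne_top).1 h4

/-- Concave weight. -/
noncomputable def wth (θ : ℝ) (z : Site d) : ℝ := (1 + ‖z‖) ^ θ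

lemma wth_pos (θ : ℝ) (z : Site d) : 0 < wth θ z := Real.rpow_pos_of_pos (by positivity) _

lemma wth_add {θ : ℝ} (h0 : 0 ≤ θ) (h1 : θ ≤ 1) (y z : Site d) :
    wth θ (y + z) ≤ wth θ y + wth θ z := by
  unfold wth
  calc (1 + ‖y + z‖) ^ θ ≤ ((1 + ‖y‖) + (1 + ‖z‖)) ^ θ := by
        refine Real.rpow_le_rpow (by positivity) ?_ h0
        have := norm_add_le y z
        linarith
    _ ≤ _ := Real.rpow_add_le_add_rpow (by positivity) (by positivity) h0 h1

lemma mean_wth {κ : Cv (Site d)} (hκ : Cv.mass κ = 1) {θ : ℝ} (h0 : 0 ≤ θ) (h1 : θ ≤ 1)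
    {A : ℝ≥0∞} (hA : ∑' z, κ.v z * ENNReal.ofReal (wth θ z) ≤ A) (n : ℕ) :
    ∑' z, (κ ^ n).v z * ENNReal.ofReal (wth θ z) ≤ 1 + n * A := by
  induction n with
  | zero =>
    rw [pow_zero, tsum_eq_single 0]
    · simp [Cv.one_def, wth]
    · intro z hz
      rw [Cv.one_def, Cv.pt_v_ne hz, zero_mul]
  | succ n ih =>
    have hsub : ∀ y z : Site d, ENNReal.ofReal (wth θ z) ≤
        ENNReal.ofReal (wth θ y) + ENNReal.ofReal (wth θ (z - y)) := by
      intro y z
      rw [← ENNReal.ofReal_add (wth_pos _ _).le (wth_pos _ _).le]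
      refine ENNReal.ofReal_le_ofReal ?_
      have := wth_add h0 h1 y (z - y)
      rwa [add_sub_cancel] at this
    calc ∑' z, (κ ^ (n + 1)).v z * ENNReal.ofReal (wth θ z)
        = ∑' z, ∑' y, (κ ^ n).v y * κ.v (z - y) * ENNReal.ofReal (wth θ z) := by
          refine tsum_congr fun z => ?_
          rw [pow_succ, Cv.mul_v, ENNReal.tsum_mul_right]
      _ ≤ ∑' z, ∑' y, ((κ ^ n).v y * ENNReal.ofReal (wth θ y) * κ.v (z - y) +
            (κ ^ n).v y * (κ.v (z - y) * ENNReal.ofReal (wth θ (z - y)))) := by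
          refine ENNReal.tsum_le_tsum fun z => ENNReal.tsum_le_tsum fun y => ?_
          calc _ ≤ (κ ^ n).v y * κ.v (z - y) *
                (ENNReal.ofReal (wth θ y) + ENNReal.ofReal (wth θ (z - y))) := by
                gcongr; exact hsub y z
            _ = _ := by ring
      _ = ∑' y, ∑' z, ((κ ^ n).v y * ENNReal.ofReal (wth θ y) * κ.v (z - y) +
            (κ ^ n).v y * (κ.v (z - y) * ENNReal.ofReal (wth θ (z - y)))) := ENNReal.tsum_comm
      _ = ∑' y, ((κ ^ n).v y * ENNReal.ofReal (wth θ y) +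
            (κ ^ n).v y * ∑' z, κ.v z * ENNReal.ofReal (wth θ z)) := by
          refine tsum_congr fun y => ?_
          have hs1 : ∑' z, κ.v (z - y) = 1 := ((Equiv.subRight y).tsum_eq κ.v).trans hκ
          have hs2 : ∑' z, κ.v (z - y) * ENNReal.ofReal (wth θ (z - y)) =
              ∑' z, κ.v z * ENNReal.ofReal (wth θ z) :=
            (Equiv.subRight y).tsum_eq (fun z => κ.v z * ENNReal.ofReal (wth θ z))
          rw [ENNReal.tsum_add, ENNReal.tsum_mul_left, ENNReal.tsum_mul_left, hs1, hs2, mul_one]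
      _ ≤ (1 + n * A) + 1 * A := by
          rw [ENNReal.tsum_add, ENNReal.tsum_mul_right, mass_pw hκ n]
          (clear * - ih hA; gcongr)
      _ = 1 + (n + 1 : ℕ) * A := by push_cast; ring

lemma norm_le_of_mem_bx {R : ℕ} {x : Site d} (hx : x ∈ bx d R) : ‖x‖ ≤ R := by
  rw [bx, Fintype.mem_piFinset] at hx
  rw [pi_norm_le_iff_of_nonneg (by positivity)]
  intro i
  have := hx i
  rw [Finset.mem_Icc] at this
  rw [Int.norm_eq_abs, abs_le]
  constructor
  · have h := this.1; exact_mod_cast h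
  · have h := this.2; exact_mod_cast h

lemma wth_le_count (K : ℕ) (x : Site d) :
    ENNReal.ofReal (wth (1 / (K + 1 : ℝ)) x) ≤
      2 + ∑' n : ℕ, (if x ∈ bx d (n ^ K) then 0 else 1 : ℝ≥0∞) := by
  classical
  by_cases hex : ∃ n : ℕ, x ∈ bx d (n ^ K)
  · set m := Nat.find hex with hm
    have hmem : x ∈ bx d (m ^ K) := Nat.find_spec hex
    have h1 : (m : ℝ≥0∞) ≤ ∑' n : ℕ, (if x ∈ bx d (n ^ K) then 0 else 1 : ℝ≥0∞) := by
      calc (m : ℝ≥0∞) = ∑ n ∈ Finset.range m, 1 := by simp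
        _ = ∑ n ∈ Finset.range m, (if x ∈ bx d (n ^ K) then 0 else 1 : ℝ≥0∞) := by
            refine Finset.sum_congr rfl fun n hn => ?_
            rw [if_neg (Nat.find_min hex (Finset.mem_range.1 hn))]
        _ ≤ _ := ENNReal.sum_le_tsum _
    have h2 : wth (1 / (K + 1 : ℝ)) x ≤ 2 + m := by
      have hn := norm_le_of_mem_bx hmem
      unfold wth
      have h3 : 1 + ‖x‖ ≤ (2 + (m : ℝ)) ^ (K + 1) := by
        have h4 : (m : ℝ) ^ K ≤ (2 + (m : ℝ)) ^ K := by gcongr; linarith only []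
        have h5 : (1 : ℝ) ≤ (2 + (m : ℝ)) ^ K := one_le_pow₀ (by
          have : (0 : ℝ) ≤ m := by positivity
          linarith only [])
        have h6 : (2 : ℝ) * (2 + (m : ℝ)) ^ K ≤ (2 + (m : ℝ)) ^ (K + 1) := by
          rw [pow_succ, mul_comm]
          gcongr
          have : (0 : ℝ) ≤ m := by positivity
          linarith only []
        push_cast at hn
        linarith only [h4, h5, h6, hn]
      calc (1 + ‖x‖) ^ (1 / (K + 1 : ℝ)) ≤ ((2 + (m : ℝ)) ^ (K + 1)) ^ (1 / (K + 1 : ℝ)) :=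
            Real.rpow_le_rpow (by positivity) h3 (by positivity)
        _ = 2 + m := by
            rw [← Real.rpow_natCast, ← Real.rpow_mul (by positivity)]
            have : ((K + 1 : ℕ) : ℝ) * (1 / (K + 1 : ℝ)) = 1 := by
              push_cast; (clear * -; field_simp)
            rw [this, Real.rpow_one]
    calc ENNReal.ofReal (wth (1 / (K + 1 : ℝ)) x) ≤ ENNReal.ofReal (2 + m) :=
          ENNReal.ofReal_le_ofReal h2
      _ = 2 + m := by
          rw [ENNReal.ofReal_add (by norm_num) (by positivity), ENNReal.ofReal_natCast]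
          norm_num
      _ ≤ _ := by gcongr
  · have : ∑' n : ℕ, (if x ∈ bx d (n ^ K) then 0 else 1 : ℝ≥0∞) = ⊤ := by
      have h : ∀ n : ℕ, (if x ∈ bx d (n ^ K) then 0 else 1 : ℝ≥0∞) = 1 := fun n =>
        if_neg fun hn => hex ⟨n, hn⟩
      simp only [h]
      exact ENNReal.tsum_const_eq_top_of_ne_zero one_ne_zero
    rw [this]
    simp

lemma mean_wth_ne_top {κ : Cv (Site d)} (hκ : Cv.mass κ = 1) (ht : PolyTail κ) :
    ∃ K : ℕ, ∑' z, κ.v z * ENNReal.ofReal (wth (1 / (K + 1 : ℝ)) z) ≠ ⊤ := by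
  classical
  obtain ⟨K, n0, hK⟩ := ht
  refine ⟨K, ?_⟩
  have hb : ∑' z, κ.v z * ENNReal.ofReal (wth (1 / (K + 1 : ℝ)) z) ≤
      2 + ∑' n : ℕ, ∑' x, (if x ∈ bx d (n ^ K) then 0 else κ.v x) := by
    calc ∑' z, κ.v z * ENNReal.ofReal (wth (1 / (K + 1 : ℝ)) z)
        ≤ ∑' z, κ.v z * (2 + ∑' n : ℕ, (if z ∈ bx d (n ^ K) then 0 else 1 : ℝ≥0∞)) := by
          refine ENNReal.tsum_le_tsum fun z => ?_
          gcongr
          exact wth_le_count K z
      _ = ∑' z, (κ.v z * 2 + ∑' n : ℕ, (if z ∈ bx d (n ^ K) then 0 else κ.v z)) := by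
          refine tsum_congr fun z => ?_
          rw [mul_add, ← ENNReal.tsum_mul_left]
          congr 1
          refine tsum_congr fun n => ?_
          split_ifs <;> simp
      _ = 2 + ∑' n : ℕ, ∑' x, (if x ∈ bx d (n ^ K) then 0 else κ.v x) := by
          rw [ENNReal.tsum_add, ENNReal.tsum_mul_right, show ∑' z, κ.v z = 1 from hκ, one_mul,
            ENNReal.tsum_comm]
  refine ne_top_of_le_ne_top ?_ hb
  have h1 : ∀ n : ℕ, ∑' x, (if x ∈ bx d (n ^ K) then 0 else κ.v x) ≤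
      (if n < n0 + 1 then 1 else 0) + ENNReal.ofReal (((n : ℝ) ^ 2)⁻¹) := by
    intro n
    by_cases hn : n < n0 + 1
    · rw [if_pos hn]
      refine le_add_right ?_
      calc _ ≤ ∑' x, κ.v x := ENNReal.tsum_le_tsum fun x => by split_ifs <;> simp
        _ = 1 := hκ
    · rw [if_neg hn, zero_add]
      refine (hK n (by omega)).trans (le_of_eq ?_)
      have hn0 : (0 : ℝ) < n := by
        have : 0 < n := by omega
        exact_mod_cast this
      rw [ENNReal.ofReal_inv_of_pos (by positivity), ENNReal.ofReal_pow hn0.le,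
        ENNReal.ofReal_natCast]
  have h2 : ∑' n : ℕ, ∑' x, (if x ∈ bx d (n ^ K) then 0 else κ.v x) ≤
      (∑' n : ℕ, (if n < n0 + 1 then 1 else 0 : ℝ≥0∞)) +
        ∑' n : ℕ, ENNReal.ofReal (((n : ℝ) ^ 2)⁻¹) := by
    rw [← ENNReal.tsum_add]
    exact ENNReal.tsum_le_tsum h1
  have h3 : ∑' n : ℕ, (if n < n0 + 1 then 1 else 0 : ℝ≥0∞) ≠ ⊤ := by
    rw [tsum_eq_sum (s := Finset.range (n0 + 1))]
    · refine ENNReal.sum_ne_top.2 fun n _ => ?_
      split_ifs <;> simp
    · intro n hn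
      rw [if_neg (by simpa only [Order.lt_add_one_iff, not_le, Finset.mem_range] using hn)]
  have h4 : ∑' n : ℕ, ENNReal.ofReal (((n : ℝ) ^ 2)⁻¹) ≠ ⊤ :=
    (Real.summable_nat_pow_inv.2 one_lt_two).tsum_ofReal_ne_top
  exact ENNReal.add_ne_top.2 ⟨by norm_num, ne_top_of_le_ne_top (ENNReal.add_ne_top.2 ⟨h3, h4⟩) h2⟩

/-- Logarithmic growth of the entropy. -/
lemma He_growth {κ : Cv (Site d)} (hκ : Cv.mass κ = 1) (ht : PolyTail κ) :
    (∀ n, He κ n ≠ ∞) ∧ ∃ C₅ : ℝ, 0 ≤ C₅ ∧ ∀ i : ℕ, Hr κ (2 ^ i) ≤ C₅ * (1 + i) := by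
  obtain ⟨K, hK⟩ := mean_wth_ne_top hκ ht
  set θ : ℝ := 1 / (K + 1 : ℝ) with hθ
  have hθ0 : 0 < θ := by (clear * -; positivity)
  have hθ1 : θ ≤ 1 := by
    rw [hθ, div_le_one (by positivity)]
    have : (0 : ℝ) ≤ K := by positivity
    linarith only []
  set A : ℝ := max (∑' z, κ.v z * ENNReal.ofReal (wth θ z)).toReal 1 with hA
  have hA1 : 1 ≤ A := le_max_right _ _
  have hAle : ∑' z, κ.v z * ENNReal.ofReal (wth θ z) ≤ ENNReal.ofReal A := by
    rw [← ENNReal.ofReal_toReal hK]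
    exact ENNReal.ofReal_le_ofReal (le_max_left _ _)
  set c₁ : ℝ := d * Real.log Z1 with hc₁
  have hc₁0 : 0 ≤ c₁ := by
    have := Real.log_nonneg one_le_Z1
    (clear * - this; positivity)
  set c₂ : ℝ := 2 * d / θ with hc₂
  have hc₂0 : 0 ≤ c₂ := by (clear * -; positivity)
  have hlogA : 0 ≤ Real.log A := Real.log_nonneg hA1
  have main : ∀ n : ℕ, He κ n ≤
      ENNReal.ofReal (c₁ + c₂ + c₂ * Real.log A + c₂ * Real.log (n + 1)) := by
    intro n
    set N : ℝ := (n + 1) * A with hN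
    have hN0 : 0 < N := by (clear * -; positivity)
    have hN1 : 1 ≤ N := by
      rw [hN]
      have : (0 : ℝ) ≤ n := by positivity
      nlinarith only [hA1]
    have hlogN : Real.log N = Real.log (n + 1) + Real.log A :=
      Real.log_mul (by (clear * -; positivity)) (by positivity)
    have hlogN0 : 0 ≤ Real.log N := Real.log_nonneg hN1
    have hpt : ∀ z : Site d, -Real.log (nu z) ≤ (c₁ + c₂ * Real.log N) + c₂ / N * wth θ z := by
      intro z
      refine (neg_log_nu z).trans ?_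
      have h1 : Real.log (1 + ‖z‖) = (1 / θ) * Real.log (wth θ z) := by
        rw [wth, Real.log_rpow (by (clear * -; positivity))]
        (clear * - hθ0; field_simp)
      have h2 : Real.log (wth θ z) ≤ wth θ z / N + Real.log N := by
        have h3 := Real.log_le_sub_one_of_pos (div_pos (wth_pos θ z) hN0)
        rw [Real.log_div (wth_pos θ z).ne' hN0.ne'] at h3
        linarith only [h3]
      rw [h1]
      have h4 : 2 * (d : ℝ) * (1 / θ * Real.log (wth θ z)) ≤
          c₂ * (wth θ z / N + Real.log N) := by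
        have : 2 * (d : ℝ) * (1 / θ * Real.log (wth θ z)) = c₂ * Real.log (wth θ z) := by
          rw [hc₂]; (clear * - hθ0; field_simp)
        rw [this]
        (clear * - h2; gcongr)
      have h5 : c₂ * (wth θ z / N + Real.log N) = c₂ / N * wth θ z + c₂ * Real.log N := by
        (clear * - hN0; field_simp)
      rw [← hc₁]
      linarith only [h4, h5]
    calc He κ n ≤ ∑' z, (κ ^ n).v z * ENNReal.ofReal (-Real.log (nu z)) := He_le_cross hκ n
      _ ≤ ∑' z, ((κ ^ n).v z * ENNReal.ofReal (c₁ + c₂ * Real.log N) +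
            (κ ^ n).v z * ENNReal.ofReal (wth θ z) * ENNReal.ofReal (c₂ / N)) := by
          refine ENNReal.tsum_le_tsum fun z => ?_
          calc _ ≤ (κ ^ n).v z * ENNReal.ofReal ((c₁ + c₂ * Real.log N) + c₂ / N * wth θ z) := by
                gcongr; exact hpt z
            _ = _ := by
                rw [ENNReal.ofReal_add (by (clear * - hc₁0 hlogN0; positivity))
                  (mul_nonneg (by (clear * -; positivity)) (wth_pos θ z).le),
                  ENNReal.ofReal_mul (by (clear * -; positivity))]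
                ring
      _ = ENNReal.ofReal (c₁ + c₂ * Real.log N) +
            (∑' z, (κ ^ n).v z * ENNReal.ofReal (wth θ z)) * ENNReal.ofReal (c₂ / N) := by
          rw [ENNReal.tsum_add, ENNReal.tsum_mul_right, ENNReal.tsum_mul_right, mass_pw hκ n,
            one_mul]
      _ ≤ ENNReal.ofReal (c₁ + c₂ * Real.log N) + ENNReal.ofReal N * ENNReal.ofReal (c₂ / N) := by
          gcongr
          refine (mean_wth hκ hθ0.le hθ1 hAle n).trans ?_
          rw [hN, add_mul, one_mul, ENNReal.ofReal_add (by (clear * -; positivity)) (by positivity),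
            ENNReal.ofReal_mul (by (clear * -; positivity)), ENNReal.ofReal_natCast, add_comm]
          gcongr
          exact ENNReal.one_le_ofReal.2 hA1
      _ = ENNReal.ofReal (c₁ + c₂ + c₂ * Real.log A + c₂ * Real.log (n + 1)) := by
          rw [← ENNReal.ofReal_mul hN0.le, ← ENNReal.ofReal_add (by (clear * - hc₁0 hlogN0; positivity)) (by (clear * -; positivity))]
          congr 1
          rw [hlogN]
          field_simp
          ring
  have hfin : ∀ n, He κ n ≠ ∞ := fun n => ne_top_of_le_ne_top ENNReal.ofReal_ne_top (main n)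
  refine ⟨hfin, c₁ + c₂ + c₂ * Real.log A + c₂, by (clear * - hc₁0 hlogA; positivity), fun i => ?_⟩
  have h1 := ENNReal.toReal_mono ENNReal.ofReal_ne_top (main (2 ^ i))
  have hl : Real.log (((2 ^ i : ℕ) : ℝ) + 1) ≤ i + 1 := by
    have h2 : (((2 ^ i : ℕ) : ℝ) + 1) ≤ 2 ^ (i + 1) := by
      push_cast
      have : (1 : ℝ) ≤ 2 ^ i := one_le_pow₀ (by norm_num)
      rw [pow_succ]
      linarith only [this]
    calc Real.log (((2 ^ i : ℕ) : ℝ) + 1) ≤ Real.log (2 ^ (i + 1)) :=
          Real.log_le_log (by positivity) h2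
      _ = (i + 1) * Real.log 2 := by rw [Real.log_pow]; push_cast; ring
      _ ≤ (i + 1) * 1 := by
          gcongr
          have := Real.log_two_lt_d9
          linarith only [this]
      _ = i + 1 := by ring
  have hl0 : 0 ≤ Real.log (((2 ^ i : ℕ) : ℝ) + 1) := Real.log_nonneg (by
    have : (0 : ℝ) ≤ ((2 ^ i : ℕ) : ℝ) := by positivity
    linarith only [])
  rw [ENNReal.toReal_ofReal (by (clear * - hc₁0 hlogA hl0; positivity))] at h1
  calc Hr κ (2 ^ i) ≤ c₁ + c₂ + c₂ * Real.log A + c₂ * Real.log (((2 ^ i : ℕ) : ℝ) + 1) := h1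
    _ ≤ c₁ + c₂ + c₂ * Real.log A + c₂ * (i + 1) := by (clear * - hl; gcongr)
    _ ≤ (c₁ + c₂ + c₂ * Real.log A + c₂) * (1 + i) := by
        have : 0 ≤ (c₁ + c₂ + c₂ * Real.log A) * i := by (clear * - hc₁0 hlogA; positivity)
        linarith only [this]

end lattice

end Ent

variable {d : ℕ} [Steps d]

open Classical in
theorem good_scales (κ : Cv (Site d)) (hκ : κ.mass = 1) (ht : PolyTail κ) (kc C k0 : ℕ)
    (ε : ℝ≥0∞) (hε : ε ≠ 0) :
    ∃ k, k0 ≤ k ∧ kc < k ∧ ∃ J0, ∀ J, J0 ≤ J → 4 * ((Finset.range J).filter (fun j =>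
      ¬ (∑ n ∈ Finset.Icc (2 ^ (j - kc)) (C * 2 ^ j), tv κ n (2 ^ (j - k)) ≤ ε * 2 ^ j))).card
        ≤ J := by
  obtain ⟨hfin, C₅, hC₅, hgrow⟩ := Ent.He_growth hκ ht
  obtain ⟨ε', hε', hεε⟩ : ∃ ε' : ℝ, 0 < ε' ∧ ENNReal.ofReal ε' ≤ ε := by
    rcases eq_or_ne ε ⊤ with h | h
    · exact ⟨1, one_pos, by rw [h]; exact le_top⟩
    · exact ⟨ε.toReal, ENNReal.toReal_pos hε h, by rw [ENNReal.ofReal_toReal h]⟩
  obtain ⟨a, ha⟩ : ∃ a : ℕ, C ≤ 2 ^ a := ⟨C, Nat.lt_two_pow_self.le⟩
  obtain ⟨e₀, GS, hbe, hdens, hGS⟩ := Ent.scales hκ hfin hC₅ hgrow a kc hε'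
  set k := max e₀ k0 with hk
  refine ⟨k, le_max_right _ _, lt_of_lt_of_le hbe (le_max_left _ _), 8 * k, fun J hJ => ?_⟩
  set Bd := (Finset.range J).filter (fun j =>
      ¬ (∑ n ∈ Finset.Icc (2 ^ (j - kc)) (C * 2 ^ j), tv κ n (2 ^ (j - k)) ≤ ε * 2 ^ j)) with hBd
  have hsub : Bd ⊆ Finset.range k ∪ ((Finset.range J).filter
      (fun j => kc + 1 ≤ j ∧ j ∉ GS)) := by
    intro j hj
    rw [hBd, Finset.mem_filter, Finset.mem_range] at hj
    rw [Finset.mem_union, Finset.mem_range, Finset.mem_filter, Finset.mem_range]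
    by_contra hcon
    push Not at hcon
    obtain ⟨h1, h2⟩ := hcon
    have hbe' : kc < k := lt_of_lt_of_le hbe (le_max_left _ _)
    have hjG : j ∈ GS := h2 hj.1 (by omega)
    have h3 := hGS k (le_max_left _ _) j hjG h1
    apply hj.2
    calc ∑ n ∈ Finset.Icc (2 ^ (j - kc)) (C * 2 ^ j), tv κ n (2 ^ (j - k))
        ≤ ∑ n ∈ Finset.Icc (2 ^ (j - kc)) (2 ^ (j + a)), tv κ n (2 ^ (j - k)) := by
          refine Finset.sum_le_sum_of_subset (Finset.Icc_subset_Icc le_rfl ?_)
          rw [pow_add, mul_comm]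
          (clear * - ha; gcongr)
      _ ≤ ENNReal.ofReal (ε' * 2 ^ j) := h3
      _ = ENNReal.ofReal ε' * 2 ^ j := by
          rw [ENNReal.ofReal_mul hε'.le, ENNReal.ofReal_pow (by norm_num)]
          norm_num
      _ ≤ ε * 2 ^ j := by (clear * - hεε; gcongr)
  have h1 := Finset.card_le_card hsub
  have h2 := Finset.card_union_le (Finset.range k) ((Finset.range J).filter
      (fun j => kc + 1 ≤ j ∧ j ∉ GS))
  have h3 := hdens J
  have h4 : ({j | kc + 1 ≤ j ∧ j < J ∧ j ∉ GS} : Set ℕ) =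
      (((Finset.range J).filter (fun j => kc + 1 ≤ j ∧ j ∉ GS) : Finset ℕ) : Set ℕ) := by
    ext j
    simp only [Finset.coe_filter, Finset.mem_range, Set.mem_ofPred_eq]
    (clear * -; tauto)
  rw [h4, Set.ncard_coe_finset] at h3
  rw [Finset.card_range] at h2
  omega

end Vale.Agent.N147X.Z
end

section

/-!
# Choice of scales

A summable sequence `dp` meets the bound `c / (j log j)` at arbitrarily large `j` outside every
set of upper density at most `1 / 4`.
-/

namespace Vale.Agent.N147X.Z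

/-- A summable sequence is small compared with `1 / (j log j)` at some point of every family of
dense dyadic blocks. -/
theorem exists_scale {D : ℕ → ℝ} (hD : ∀ j, 0 ≤ D j) {K : ℝ}
    (hK : ∀ J, ∑ j ∈ Finset.range J, D j ≤ K) {C : ℕ → Finset ℕ} {k0 : ℕ}
    (hsub : ∀ k, k0 ≤ k → C k ⊆ Finset.Ioc (2 ^ k) (2 ^ (k + 1)))
    (hcard : ∀ k, k0 ≤ k → 2 ^ k ≤ 2 * (C k).card) {ε : ℝ} (hε : 0 < ε) (k1 : ℕ) :
    ∃ k, k1 ≤ k ∧ ∃ j ∈ C k, D j * (j * Real.log j) ≤ ε := by
  by_contra hcon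
  push Not at hcon
  set k2 := max k0 k1 with hk2
  -- lower bound for one block
  have hblock : ∀ k, k2 ≤ k →
      ε / (4 * Real.log 2) * (1 / ((k : ℝ) + 1)) ≤ ∑ j ∈ C k, D j := by
    intro k hk
    have hk0 : k0 ≤ k := le_trans (le_max_left _ _) hk
    have hk1 : k1 ≤ k := le_trans (le_max_right _ _) hk
    have hlog2 : 0 < Real.log 2 := Real.log_pos (by norm_num)
    have hterm : ∀ j ∈ C k, ε / (2 ^ (k + 1) * ((k + 1) * Real.log 2)) ≤ D j := by
      intro j hj
      have hj1 := Finset.mem_Ioc.1 (hsub k hk0 hj)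
      have hj2 := hcon k hk1 j hj
      have hjpos : 1 < j := lt_of_le_of_lt (Nat.one_le_two_pow) hj1.1
      have hjr : (1 : ℝ) < j := by exact_mod_cast hjpos
      have hle : (j : ℝ) ≤ 2 ^ (k + 1) := by exact_mod_cast hj1.2
      have hlog : Real.log j ≤ (k + 1) * Real.log 2 := by
        have := Real.log_le_log (by linarith only [hjr]) hle
        rw [Real.log_pow] at this
        push_cast at this
        exact this
      have hlogpos : 0 < Real.log j := Real.log_pos hjr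
      rw [div_le_iff₀ (by positivity)]
      calc ε ≤ D j * (j * Real.log j) := hj2.le
        _ ≤ D j * (2 ^ (k + 1) * ((k + 1) * Real.log 2)) := by
            refine mul_le_mul_of_nonneg_left ?_ (hD j)
            gcongr
    calc ε / (4 * Real.log 2) * (1 / ((k : ℝ) + 1))
        = (2 ^ k / 2) * (ε / (2 ^ (k + 1) * ((k + 1) * Real.log 2))) := by
          rw [pow_succ]
          field_simp
          ring
      _ ≤ ((C k).card : ℝ) * (ε / (2 ^ (k + 1) * ((k + 1) * Real.log 2))) := by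
          gcongr
          have : (2 : ℝ) ^ k ≤ 2 * (C k).card := by exact_mod_cast hcard k hk0
          linarith
      _ = ∑ _j ∈ C k, ε / (2 ^ (k + 1) * ((k + 1) * Real.log 2)) := by
          rw [Finset.sum_const, nsmul_eq_mul]
      _ ≤ ∑ j ∈ C k, D j := Finset.sum_le_sum hterm
  -- disjointness of the blocks
  have hdisj : ∀ n, ∑ k ∈ Finset.Ico k2 n, ∑ j ∈ C k, D j ≤ K := by
    intro n
    rw [← Finset.sum_biUnion]
    · refine le_trans (Finset.sum_le_sum_of_subset_of_nonneg (t := Finset.range (2 ^ n + 1)) ?_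
        (fun j _ _ => hD j)) (hK _)
      intro j hj
      simp only [Finset.mem_biUnion, Finset.mem_Ico] at hj
      obtain ⟨k, ⟨hk, hkn⟩, hj⟩ := hj
      have := Finset.mem_Ioc.1 (hsub k (le_trans (le_max_left _ _) hk) hj)
      rw [Finset.mem_range]
      have h2 : 2 ^ (k + 1) ≤ 2 ^ n := Nat.pow_le_pow_right (by norm_num) hkn
      omega
    · intro k hk l hl hkl
      have hk' := (Finset.mem_Ico.1 (Finset.mem_coe.1 hk)).1
      have hl' := (Finset.mem_Ico.1 (Finset.mem_coe.1 hl)).1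
      rw [Function.onFun, Finset.disjoint_left]
      intro j hj1 hj2
      have e1 := Finset.mem_Ioc.1 (hsub k (le_trans (le_max_left _ _) hk') hj1)
      have e2 := Finset.mem_Ioc.1 (hsub l (le_trans (le_max_left _ _) hl') hj2)
      rcases lt_or_gt_of_ne hkl with h | h
      · have : 2 ^ (k + 1) ≤ 2 ^ l := Nat.pow_le_pow_right (by norm_num) h
        omega
      · have : 2 ^ (l + 1) ≤ 2 ^ k := Nat.pow_le_pow_right (by norm_num) h
        omega
  have hlog2 : 0 < Real.log 2 := Real.log_pos (by norm_num)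
  set c := ε / (4 * Real.log 2) with hc
  have hcpos : 0 < c := by positivity
  have hbound : ∀ n, c * ∑ k ∈ Finset.Ico k2 n, (1 / ((k : ℝ) + 1)) ≤ K := by
    intro n
    rw [Finset.mul_sum]
    refine le_trans (Finset.sum_le_sum fun k hk => ?_) (hdisj n)
    exact hblock k (Finset.mem_Ico.1 hk).1
  have hdiv := Real.tendsto_sum_range_one_div_nat_succ_atTop
  rw [Filter.tendsto_atTop] at hdiv
  obtain ⟨n, hn1, hn2⟩ := ((hdiv (K / c + 1 + ∑ k ∈ Finset.range k2, (1 / ((k : ℝ) + 1)))).and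
    (Filter.eventually_ge_atTop k2)).exists
  have h3 := hbound n
  have h4 : ∑ k ∈ Finset.range n, (1 / ((k : ℝ) + 1)) =
      ∑ k ∈ Finset.range k2, (1 / ((k : ℝ) + 1)) +
        ∑ k ∈ Finset.Ico k2 n, (1 / ((k : ℝ) + 1)) :=
    (Finset.sum_range_add_sum_Ico _ hn2).symm
  rw [h4] at hn1
  have h5 : K / c + 1 ≤ ∑ k ∈ Finset.Ico k2 n, (1 / ((k : ℝ) + 1)) := by linarith only [hn1]
  have h6 : c * (K / c + 1) ≤ K := le_trans (by gcongr) h3
  have h7 : c * (K / c + 1) = K + c := by field_simp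
  linarith only [h7, h6, hcpos]


open Classical in
theorem scales_meet (dp : ℕ → ℝ) (h0 : ∀ j, 0 ≤ dp j) (hs : Summable dp) (B : Set ℕ)
    (hB : ∃ J0, ∀ J, J0 ≤ J → 4 * ((Finset.range J).filter (fun j => j ∈ B)).card ≤ J)
    {c : ℝ} (hc : 0 < c) (N : ℕ) :
    ∃ j, N ≤ j ∧ j ∉ B ∧ dp j ≤ c / ((j : ℝ) * Real.log j) := by
  obtain ⟨J0, hJ0⟩ := hB
  set C : ℕ → Finset ℕ := fun k => (Finset.Ioc (2 ^ k) (2 ^ (k + 1))).filter (fun j => j ∉ B)
    with hC
  have hK : ∀ J, ∑ j ∈ Finset.range J, dp j ≤ ∑' j, dp j := fun J =>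
    hs.sum_le_tsum _ (fun j _ => h0 j)
  have hsub : ∀ k, J0 + 1 ≤ k → C k ⊆ Finset.Ioc (2 ^ k) (2 ^ (k + 1)) := fun k _ =>
    Finset.filter_subset _ _
  have hcard : ∀ k, J0 + 1 ≤ k → 2 ^ k ≤ 2 * (C k).card := by
    intro k hk
    have h1 : (C k).card + ((Finset.Ioc (2 ^ k) (2 ^ (k + 1))).filter (fun j => j ∈ B)).card
        = 2 ^ k := by
      have := Finset.card_filter_add_card_filter_not (s := Finset.Ioc (2 ^ k) (2 ^ (k + 1)))
        (fun j => j ∈ B)
      rw [Nat.card_Ioc, pow_succ] at this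
      rw [hC, add_comm]
      simp only [pow_succ]
      omega
    have h2 : ((Finset.Ioc (2 ^ k) (2 ^ (k + 1))).filter (fun j => j ∈ B)).card ≤
        ((Finset.range (2 ^ (k + 1) + 1)).filter (fun j => j ∈ B)).card := by
      refine Finset.card_le_card (Finset.filter_subset_filter _ ?_)
      intro j hj
      rw [Finset.mem_Ioc] at hj
      rw [Finset.mem_range]
      omega
    have h3 : J0 ≤ 2 ^ (k + 1) + 1 := by
      have : k < 2 ^ k := Nat.lt_two_pow_self
      rw [pow_succ]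
      omega
    have h4 := hJ0 _ h3
    obtain ⟨m, rfl⟩ : ∃ m, k = m + 1 := ⟨k - 1, by omega⟩
    have h5 : 2 ^ (m + 1 + 1) = 4 * 2 ^ m := by ring
    have h6 : 2 ^ (m + 1) = 2 * 2 ^ m := by ring
    rw [h5] at h2 h4
    rw [h5, h6] at h1
    rw [h6]
    rw [h6] at h2
    omega
  obtain ⟨k, hk, j, hj, hle⟩ := exists_scale h0 hK hsub hcard hc (N + 1)
  rw [hC, Finset.mem_filter, Finset.mem_Ioc] at hj
  have hkk : k < 2 ^ k := Nat.lt_two_pow_self
  have hj1 : 1 < j := by omega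
  have hj2 : (1 : ℝ) < j := by exact_mod_cast hj1
  have hpos : 0 < (j : ℝ) * Real.log j := mul_pos (by linarith only [hj2]) (Real.log_pos hj2)
  refine ⟨j, by omega, hj.2, ?_⟩
  rw [le_div_iff₀ hpos]
  exact hle

end Vale.Agent.N147X.Z
end

section

/-!
The renewal function of a law with two non-parallel displacements tends to zero.
-/

open scoped ENNReal

namespace Vale.Agent.N147X.Z.Atm

open Cv

variable {V : Type*} [AddCommGroup V]

/-- the renewal function -/
noncomputable def Gr (κ : Cv V) (z : V) : ℝ≥0∞ := ∑' k : ℕ, (κ ^ k).v z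

lemma Gr_eq (κ : Cv V) (k : ℕ) (z : V) :
    Gr κ z = ∑ i ∈ Finset.range k, (κ ^ i).v z + (κ ^ k * (⟨Gr κ⟩ : Cv V)).v z := by
  have h : (κ ^ k * (⟨Gr κ⟩ : Cv V)).v z = ∑' i : ℕ, (κ ^ (i + k)).v z := by
    rw [mul_v]
    have e : ∀ y, (κ ^ k).v y * (⟨Gr κ⟩ : Cv V).v (z - y) =
        ∑' i : ℕ, (κ ^ k).v y * (κ ^ i).v (z - y) := fun y => ENNReal.tsum_mul_left.symm
    rw [tsum_congr e, ENNReal.tsum_comm]
    refine tsum_congr fun i => ?_
    rw [add_comm, pow_add, mul_v]
  rw [h, Gr]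
  exact (ENNReal.summable.sum_add_tsum_nat_add' (f := fun i => (κ ^ i).v z) (k := k)).symm

lemma tail_small (L : V → ℝ) (f : V → ℝ≥0∞) (hf : ∑' z, f z ≠ ∞) {ε : ℝ≥0∞} (hε : ε ≠ 0) :
    ∃ l : ℝ, ∀ l', l ≤ l' → ∑' w, (if l' ≤ L w then f w else 0) ≤ ε := by
  classical
  obtain ⟨s, hs⟩ : ∃ s : Finset V, ∑' w : {x // x ∉ s}, f w < ε := by
    have h1 := ENNReal.tendsto_tsum_compl_atTop_zero hf
    exact ((h1.eventually (gt_mem_nhds (pos_iff_ne_zero.2 hε))).exists)
  obtain ⟨l, hl⟩ : ∃ l : ℝ, ∀ w ∈ s, L w < l := by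
    refine ⟨∑ w ∈ s, |L w| + 1, fun w hw => ?_⟩
    have h1 : |L w| ≤ ∑ w ∈ s, |L w| := Finset.single_le_sum (f := fun w => |L w|)
      (fun w _ => abs_nonneg _) hw
    have h2 := le_abs_self (L w)
    linarith
  refine ⟨l, fun l' hl' => le_trans ?_ hs.le⟩
  have h3 : ∑' w : {x // x ∉ s}, f w = ∑' w, Set.indicator {x | x ∉ s} f w :=
    tsum_subtype {x | x ∉ s} f
  rw [h3]
  refine ENNReal.tsum_le_tsum fun w => ?_
  by_cases hw : w ∈ s
  · rw [if_neg (not_le.2 ((hl w hw).trans_le hl'))]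
    exact zero_le
  · rw [Set.indicator_of_mem (show w ∈ {x | x ∉ s} from hw)]
    split_ifs
    · exact le_rfl
    · exact zero_le

section window
variable (L : V →+ ℝ) (κ : Cv V) {C1 : ℝ≥0∞}

lemma Gr_le (hwin : ∀ t : ℝ, ∑' z, (if t ≤ L z ∧ L z < t + 1 then Gr κ z else 0) ≤ C1) (z : V) :
    Gr κ z ≤ C1 := by
  refine le_trans ?_ (hwin (L z))
  refine le_trans ?_ (ENNReal.le_tsum z)
  rw [if_pos ⟨le_rfl, by linarith only []⟩]

/-- one step of the maximum principle -/
lemma step_le (hm : mass κ ≤ 1) (hC1 : C1 ≠ ∞)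
    (hwin : ∀ t : ℝ, ∑' z, (if t ≤ L z ∧ L z < t + 1 then Gr κ z else 0) ≤ C1)
    {A : ℝ≥0∞} {l₀ : ℝ} (hA : ∀ z, l₀ ≤ L z → Gr κ z ≤ A) (k : ℕ) (w₀ : V) {ε : ℝ≥0∞}
    (hε : ε ≠ 0) :
    ∃ l : ℝ, ∀ z, l ≤ L z →
      Gr κ z + (κ ^ k).v w₀ * A ≤ (κ ^ k).v w₀ * Gr κ (z - w₀) + A + ε := by
  classical
  have hmk : ∀ i, mass (κ ^ i) ≤ 1 := fun i => by
    rw [mass_pow]
    exact pow_le_one' hm i
  have hmk' : ∀ i, ∑' z, (κ ^ i).v z ≠ ∞ := fun i =>
    ne_top_of_le_ne_top ENNReal.one_ne_top (hmk i)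
  -- tails
  obtain ⟨η, hη0, hη⟩ : ∃ η : ℝ≥0∞, η ≠ 0 ∧ (k : ℝ≥0∞) * η + C1 * η ≤ ε := by
    have h1 : (k : ℝ≥0∞) + C1 ≠ ∞ := ENNReal.add_ne_top.2 ⟨ENNReal.natCast_ne_top k, hC1⟩
    rcases eq_or_ne ε ∞ with rfl | hεt
    · exact ⟨1, one_ne_zero, le_top⟩
    refine ⟨ε / ((k : ℝ≥0∞) + C1 + 1), ?_, ?_⟩
    · exact (ENNReal.div_pos hε (ENNReal.add_ne_top.2 ⟨h1, ENNReal.one_ne_top⟩)).ne'
    · rw [← add_mul]
      calc ((k : ℝ≥0∞) + C1) * (ε / ((k : ℝ≥0∞) + C1 + 1))
          ≤ ((k : ℝ≥0∞) + C1 + 1) * (ε / ((k : ℝ≥0∞) + C1 + 1)) :=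
            mul_le_mul' le_self_add le_rfl
        _ ≤ ε := ENNReal.mul_div_le
  have ht : ∀ i : ℕ, ∃ l : ℝ, ∀ l', l ≤ l' →
      ∑' w, (if l' ≤ L w then (κ ^ i).v w else 0) ≤ η := fun i =>
    tail_small L _ (hmk' i) hη0
  choose lt hlt using ht
  refine ⟨(∑ i ∈ Finset.range (k + 1), |lt i|) + |l₀|, fun z hz => ?_⟩
  have hbig : ∀ i ≤ k, lt i ≤ L z - l₀ ∧ lt i ≤ L z := by
    intro i hi
    have h1 : |lt i| ≤ ∑ i ∈ Finset.range (k + 1), |lt i| :=
      Finset.single_le_sum (f := fun i => |lt i|) (fun _ _ => abs_nonneg _)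
        (Finset.mem_range.2 (by omega))
    have h2 := le_abs_self (lt i)
    have h3 := le_abs_self l₀
    have h4 := abs_nonneg l₀
    constructor <;> linarith only [hz, h1, h2, h3, h4]
  -- the first terms
  have hfirst : ∑ i ∈ Finset.range k, (κ ^ i).v z ≤ (k : ℝ≥0∞) * η := by
    calc ∑ i ∈ Finset.range k, (κ ^ i).v z ≤ ∑ _i ∈ Finset.range k, η := by
          refine Finset.sum_le_sum fun i hi => ?_
          refine le_trans ?_ (hlt i (L z) (hbig i (Finset.mem_range.1 hi).le).2)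
          refine le_trans ?_ (ENNReal.le_tsum z)
          rw [if_pos le_rfl]
      _ = (k : ℝ≥0∞) * η := by rw [Finset.sum_const, Finset.card_range, nsmul_eq_mul]
  -- the main term
  have hmain : (κ ^ k * (⟨Gr κ⟩ : Cv V)).v z + (κ ^ k).v w₀ * A ≤
      (κ ^ k).v w₀ * Gr κ (z - w₀) + A + C1 * η := by
    rw [mul_v]
    have e1 : ∀ w, (κ ^ k).v w * (⟨Gr κ⟩ : Cv V).v (z - w) ≤
        (if w = w₀ then (κ ^ k).v w₀ * Gr κ (z - w₀) else 0) +
        ((if w = w₀ then 0 else (κ ^ k).v w) * A +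
          C1 * (if L z - l₀ ≤ L w then (κ ^ k).v w else 0)) := by
      intro w
      show (κ ^ k).v w * Gr κ (z - w) ≤ _
      by_cases hw : w = w₀
      · rw [if_pos hw, hw]
        exact le_self_add
      · rw [if_neg hw, if_neg hw, zero_add]
        by_cases h2 : L z - l₀ ≤ L w
        · rw [if_pos h2]
          refine le_add_left ?_
          rw [mul_comm]
          gcongr
          exact Gr_le L κ hwin _
        · refine le_add_right ?_
          gcongr
          refine hA _ ?_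
          rw [map_sub]
          rw [not_le] at h2
          linarith
    calc ∑' w, (κ ^ k).v w * (⟨Gr κ⟩ : Cv V).v (z - w) + (κ ^ k).v w₀ * A
        ≤ (∑' w, ((if w = w₀ then (κ ^ k).v w₀ * Gr κ (z - w₀) else 0) +
          ((if w = w₀ then 0 else (κ ^ k).v w) * A +
            C1 * (if L z - l₀ ≤ L w then (κ ^ k).v w else 0)))) + (κ ^ k).v w₀ * A := by
          gcongr with w
          exact e1 w
      _ = (κ ^ k).v w₀ * Gr κ (z - w₀) + ((∑' w, (if w = w₀ then 0 else (κ ^ k).v w)) +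
            (κ ^ k).v w₀) * A +
            C1 * ∑' w, (if L z - l₀ ≤ L w then (κ ^ k).v w else 0) := by
          rw [ENNReal.tsum_add, ENNReal.tsum_add, ENNReal.tsum_mul_right, ENNReal.tsum_mul_left,
            tsum_ite_eq]
          ring
      _ ≤ (κ ^ k).v w₀ * Gr κ (z - w₀) + 1 * A + C1 * η := by
          gcongr
          · refine le_trans (le_of_eq ?_) (hmk k)
            rw [mass, ENNReal.tsum_eq_add_tsum_ite (f := (κ ^ k).v) w₀, add_comm]
          · exact hlt k _ (hbig k le_rfl).1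
      _ = _ := by rw [one_mul]
  calc Gr κ z + (κ ^ k).v w₀ * A
      = ∑ i ∈ Finset.range k, (κ ^ i).v z +
        ((κ ^ k * (⟨Gr κ⟩ : Cv V)).v z + (κ ^ k).v w₀ * A) := by
        rw [Gr_eq κ k z, add_assoc]
    _ ≤ (k : ℝ≥0∞) * η + ((κ ^ k).v w₀ * Gr κ (z - w₀) + A + C1 * η) := by (clear * - hfirst hmain; gcongr)
    _ = (κ ^ k).v w₀ * Gr κ (z - w₀) + A + ((k : ℝ≥0∞) * η + C1 * η) := by ring
    _ ≤ _ := by (clear * - hη; gcongr)

lemma pow_v_pos (i j : ℕ) (v₁ v₂ : V) :
    (κ.v v₁) ^ i * (κ.v v₂) ^ j ≤ (κ ^ (i + j)).v (i • v₁ + j • v₂) := by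
  have h1 : ∀ (n : ℕ) (v : V), (κ.v v) ^ n ≤ (κ ^ n).v (n • v) := by
    intro n v
    induction n with
    | zero => simp only [pow_zero, one_def, zero_nsmul, pt_v_self, Std.le_refl]
    | succ n ih =>
      rw [pow_succ, pow_succ, mul_v, succ_nsmul]
      refine le_trans ?_ (ENNReal.le_tsum (n • v))
      rw [add_sub_cancel_left]
      (clear * - ih; gcongr)
  rw [pow_add, mul_v]
  refine le_trans ?_ (ENNReal.le_tsum (i • v₁))
  rw [add_sub_cancel_left]
  exact mul_le_mul' (h1 i v₁) (h1 j v₂)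

/-- **Atoms.** The renewal function tends to zero. -/
theorem Gr_small (hm : mass κ ≤ 1) (hC1 : C1 ≠ ∞)
    (hwin : ∀ t : ℝ, ∑' z, (if t ≤ L z ∧ L z < t + 1 then Gr κ z else 0) ≤ C1)
    {v₁ v₂ : V} (h₁ : κ.v v₁ ≠ 0) (h₂ : κ.v v₂ ≠ 0) (hL₁ : 0 < L v₁) (hL₂ : 0 < L v₂)
    (hL₂' : L v₂ ≤ 1)
    (hind : ∀ a b a' b' : ℕ, a • v₁ + b • v₂ = a' • v₁ + b' • v₂ → a = a' ∧ b = b')
    {ε : ℝ≥0∞} (hε : ε ≠ 0) : ∃ l : ℝ, ∀ z, l ≤ L z → Gr κ z ≤ ε := by
  classical
  -- the supremum over half spaces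
  set g : ℕ → ℝ≥0∞ := fun n => ⨆ z : {z : V // (n : ℝ) ≤ L z}, Gr κ z with hg
  have hgle : ∀ (n : ℕ) z, (n : ℝ) ≤ L z → Gr κ z ≤ g n := fun n z hz =>
    le_iSup (fun z : {z : V // (n : ℝ) ≤ L z} => Gr κ z) ⟨z, hz⟩
  have hgC : ∀ n, g n ≤ C1 := fun n => iSup_le fun z => Gr_le L κ hwin z
  set a : ℝ≥0∞ := ⨅ n, g n with ha
  have haC : a ≤ C1 := (iInf_le _ 0).trans (hgC 0)
  have hat : a ≠ ∞ := ne_top_of_le_ne_top hC1 haC
  by_cases ha0 : a = 0
  · obtain ⟨n, hn⟩ : ∃ n, g n < ε := by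
      by_contra hcon
      push Not at hcon
      have : ε ≤ a := le_iInf hcon
      rw [ha0, nonpos_iff_eq_zero] at this
      exact hε this
    exact ⟨n, fun z hz => (hgle n z hz).trans hn.le⟩
  exfalso
  -- a window with many points of the semigroup
  obtain ⟨N, hN⟩ : ∃ N : ℕ, 4 * C1 < N * a := by
    obtain ⟨N, hN⟩ := ENNReal.exists_nat_mul_gt (a := a) (b := 4 * C1) ha0
      (ENNReal.mul_ne_top (by simp) hC1)
    exact ⟨N, hN⟩
  set α := L v₁ with hα
  set β := L v₂ with hβ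
  set s : ℝ := N * α with hs
  set jj : ℕ → ℕ := fun i => ⌈(s - i * α) / β⌉₊ with hjj
  set pt' : ℕ → V := fun i => i • v₁ + jj i • v₂ with hpt'
  have hLpt : ∀ i < N, s ≤ L (pt' i) ∧ L (pt' i) < s + 1 := by
    intro i hi
    have e : L (pt' i) = i * α + jj i * β := by
      rw [hpt']
      simp only [map_add, map_nsmul, nsmul_eq_mul]
      rfl
    have h0 : 0 ≤ (s - i * α) / β := by
      refine div_nonneg ?_ hL₂.le
      have : (i : ℝ) ≤ N := by exact_mod_cast hi.le
      rw [hs]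
      linarith only [mul_nonneg (le_of_lt (sub_pos.2 hL₁)) (sub_nonneg.2 this)]
    have h1 : (s - i * α) / β ≤ jj i := Nat.le_ceil _
    have h2 : (jj i : ℝ) < (s - i * α) / β + 1 := Nat.ceil_lt_add_one h0
    rw [div_le_iff₀ hL₂] at h1
    have h3 : (jj i : ℝ) * β < s - i * α + β := by
      have h4 := mul_lt_mul_of_pos_right h2 hL₂
      rw [add_mul, div_mul_cancel₀ _ hL₂.ne', one_mul] at h4
      exact h4
    rw [e]
    constructor <;> linarith only [h1, hL₂', h3]
  have hinj : Set.InjOn pt' (Finset.range N : Set ℕ) := by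
    intro i _ i' _ h
    exact (hind _ _ _ _ h).1
  -- the weights
  set π : ℕ → ℝ≥0∞ := fun i => (κ ^ (i + jj i)).v (pt' i) with hπ
  have hπ0 : ∀ i, π i ≠ 0 := fun i => by
    have h := pow_v_pos κ i (jj i) v₁ v₂
    intro h0
    have h1 : (κ.v v₁) ^ i * (κ.v v₂) ^ (jj i) = 0 := by
      rw [← nonpos_iff_eq_zero]
      exact h.trans h0.le
    exact mul_ne_zero (pow_ne_zero _ h₁) (pow_ne_zero _ h₂) h1
  have hπ1 : ∀ i, π i ≤ 1 := fun i => by
    refine (ENNReal.le_tsum (f := (κ ^ (i + jj i)).v) (pt' i)).trans ?_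
    have h := mass_pow κ (i + jj i)
    rw [mass] at h
    rw [h]
    exact pow_le_one' hm _
  have hπt : ∀ i, π i ≠ ∞ := fun i => ne_top_of_le_ne_top ENNReal.one_ne_top (hπ1 i)
  -- the small parameter
  obtain ⟨η, hη0, hη⟩ : ∃ η : ℝ≥0∞, η ≠ 0 ∧ ∀ i < N, 3 * η ≤ π i * (a / 2) := by
    have hm0 : ∀ n : ℕ, ∃ η : ℝ≥0∞, η ≠ 0 ∧ ∀ i < n, 3 * η ≤ π i * (a / 2) := by
      intro n
      induction n with
      | zero => exact ⟨1, one_ne_zero, fun i hi => absurd hi (Nat.not_lt_zero i)⟩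
      | succ n ih =>
        obtain ⟨η, h1, h2⟩ := ih
        refine ⟨min η (π n * (a / 2) / 3), ?_, fun i hi => ?_⟩
        · refine (lt_min (pos_iff_ne_zero.2 h1) ?_).ne'
          refine ENNReal.div_pos ?_ (by simp)
          exact mul_ne_zero (hπ0 n) (ENNReal.div_ne_zero.2 ⟨ha0, by simp⟩)
        · rcases Nat.lt_succ_iff_lt_or_eq.1 hi with h | rfl
          · exact (mul_le_mul' le_rfl (min_le_left _ _)).trans (h2 i h)
          · exact (mul_le_mul' le_rfl (min_le_right _ _)).trans ENNReal.mul_div_le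
    exact hm0 N
  have hηt : η ≠ ∞ ∨ N = 0 := by
    rcases Nat.eq_zero_or_pos N with h | h
    · exact Or.inr h
    · left
      intro h1
      have h2 := hη 0 h
      rw [h1, ENNReal.mul_top (by simp)] at h2
      exact absurd (lt_of_le_of_lt h2 (ENNReal.mul_lt_top (hπt 0).lt_top
        (ENNReal.div_lt_top hat (by simp)))) (lt_irrefl _)
  have hN0 : N ≠ 0 := by
    rintro rfl
    simp at hN
  have hηt' : η ≠ ∞ := hηt.resolve_right hN0
  obtain ⟨n₀, hn₀⟩ : ∃ n₀, g n₀ < a + η := by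
    by_contra hcon
    push Not at hcon
    have h1 : a + η ≤ a := le_iInf hcon
    exact absurd h1 (not_le.2 (ENNReal.lt_add_right hat hη0))
  have hstep : ∀ i, ∃ l : ℝ, ∀ z, l ≤ L z →
      Gr κ z + π i * (a + η) ≤ π i * Gr κ (z - pt' i) + (a + η) + η := fun i =>
    step_le L κ hm hC1 hwin (A := a + η) (l₀ := n₀)
      (fun z hz => (hgle n₀ z hz).trans hn₀.le) (i + jj i) (pt' i) hη0
  choose l hl using hstep
  obtain ⟨n₁, hn₁⟩ : ∃ n₁ : ℕ, ∀ i < N, l i ≤ n₁ := by
    obtain ⟨n₁, hn₁⟩ := exists_nat_ge (∑ i ∈ Finset.range N, |l i|)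
    refine ⟨n₁, fun i hi => ?_⟩
    have h1 : |l i| ≤ ∑ i ∈ Finset.range N, |l i| :=
      Finset.single_le_sum (f := fun i => |l i|) (fun _ _ => abs_nonneg _)
        (Finset.mem_range.2 hi)
    exact (le_abs_self _).trans (h1.trans hn₁)
  obtain ⟨z, hz, hza⟩ : ∃ z, (n₁ : ℝ) ≤ L z ∧ a < Gr κ z + η := by
    by_contra hcon
    push Not at hcon
    have h1 : g n₁ + η ≤ a := by
      rw [hg]
      simp only
      by_cases hne : Nonempty {z : V // (n₁ : ℝ) ≤ L z}
      · rw [ENNReal.iSup_add]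
        exact iSup_le fun z => hcon z z.2
      · rw [not_nonempty_iff] at hne
        exfalso
        have h2 : g n₁ = 0 := by
          rw [hg]
          simp only
          rw [iSup_of_empty]
          rfl
        have h3 : a ≤ g n₁ := iInf_le _ _
        rw [h2, nonpos_iff_eq_zero] at h3
        exact ha0 h3
    have h2 : a + η ≤ a := (add_le_add (iInf_le _ n₁) le_rfl).trans h1
    exact absurd h2 (not_le.2 (ENNReal.lt_add_right hat hη0))
  -- all the translates are large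
  have hlarge : ∀ i < N, a / 2 ≤ Gr κ (z - pt' i) := by
    intro i hi
    have h1 := hl i z ((hn₁ i hi).trans hz)
    have h2 := hη i hi
    by_contra hcon
    rw [not_le] at hcon
    have h3 : π i * Gr κ (z - pt' i) + π i * (a / 2) ≤ π i * a := by
      rw [← mul_add]
      gcongr
      calc Gr κ (z - pt' i) + a / 2 ≤ a / 2 + a / 2 := by (clear * - hcon; gcongr)
        _ = a := ENNReal.add_halves a
    -- a + π a ≤ G + η + π (a + η) ≤ π G + a + 3 η
    have h4 : a + π i * a < π i * Gr κ (z - pt' i) + a + 3 * η := by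
      calc a + π i * a < Gr κ z + η + π i * (a + η) := by
            refine ENNReal.add_lt_add_of_lt_of_le (ENNReal.mul_ne_top (hπt i) hat) hza ?_
            gcongr
            exact le_self_add
        _ = (Gr κ z + π i * (a + η)) + η := by ring
        _ ≤ (π i * Gr κ (z - pt' i) + (a + η) + η) + η := by (clear * - h1; gcongr)
        _ = _ := by ring
    have h5 : a + π i * a < a + π i * a := by
      calc a + π i * a < π i * Gr κ (z - pt' i) + a + 3 * η := h4
        _ ≤ π i * Gr κ (z - pt' i) + a + π i * (a / 2) := by (clear * - h2; gcongr)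
        _ = a + (π i * Gr κ (z - pt' i) + π i * (a / 2)) := by ring
        _ ≤ a + π i * a := by (clear * - h3; gcongr)
    exact lt_irrefl _ h5
  -- two windows
  have hw1 := hwin (L z - s - 1)
  have hw2 := hwin (L z - s)
  have hsum : (N : ℝ≥0∞) * (a / 2) ≤ C1 + C1 := by
    calc (N : ℝ≥0∞) * (a / 2) = ∑ i ∈ Finset.range N, a / 2 := by
          rw [Finset.sum_const, Finset.card_range, nsmul_eq_mul]
      _ ≤ ∑ i ∈ Finset.range N, Gr κ (z - pt' i) :=
          Finset.sum_le_sum fun i hi => hlarge i (Finset.mem_range.1 hi)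
      _ = ∑ w ∈ (Finset.range N).image (fun i => z - pt' i), Gr κ w := by
          rw [Finset.sum_image]
          intro i hi i' hi' h
          exact hinj hi hi' (sub_right_injective h)
      _ ≤ ∑ w ∈ (Finset.range N).image (fun i => z - pt' i),
          ((if L z - s - 1 ≤ L w ∧ L w < L z - s - 1 + 1 then Gr κ w else 0) +
            (if L z - s ≤ L w ∧ L w < L z - s + 1 then Gr κ w else 0)) := by
          refine Finset.sum_le_sum fun w hw => ?_
          obtain ⟨i, hi, rfl⟩ := Finset.mem_image.1 hw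
          obtain ⟨h1, h2⟩ := hLpt i (Finset.mem_range.1 hi)
          rw [map_sub]
          by_cases h3 : L z - s ≤ L z - L (pt' i)
          · rw [if_pos (show L z - s ≤ L z - L (pt' i) ∧ L z - L (pt' i) < L z - s + 1 from
              ⟨h3, by linarith only [h1]⟩)]
            exact le_add_self
          · rw [not_le] at h3
            rw [if_pos (show L z - s - 1 ≤ L z - L (pt' i) ∧
              L z - L (pt' i) < L z - s - 1 + 1 from ⟨by linarith only [h2], by linarith only [h3]⟩)]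
            exact le_self_add
      _ ≤ ∑' w, ((if L z - s - 1 ≤ L w ∧ L w < L z - s - 1 + 1 then Gr κ w else 0) +
            (if L z - s ≤ L w ∧ L w < L z - s + 1 then Gr κ w else 0)) :=
          ENNReal.sum_le_tsum _
      _ ≤ C1 + C1 := by
          rw [ENNReal.tsum_add]
          exact add_le_add hw1 hw2
  have hfin : (N : ℝ≥0∞) * a ≤ 4 * C1 := by
    calc (N : ℝ≥0∞) * a = 2 * ((N : ℝ≥0∞) * (a / 2)) := by
          rw [mul_left_comm, ENNReal.mul_div_cancel (by simp) (by simp)]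
      _ ≤ 2 * (C1 + C1) := by (clear * - hsum; gcongr)
      _ = 4 * C1 := by ring
  exact absurd hN (not_lt.2 hfin)

end window

end Vale.Agent.N147X.Z.Atm
end

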