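import Vale.Agent.N147X.Brid
import Vale.Agent.N147X.B3

set_option linter.all false

section

/-!
# First passage paths and words of blocks
-/

open MeasureTheory
open scoped ENNReal

namespace Vale.Agent.N147X.Z

variable {d : ℕ} [Steps d] (μ : Measure (Row d)) [IsProbabilityMeasure μ]

/-- The end of a first passage path to level `a` has level below `a + 1`. -/
lemma Fp_lt {L : Site d →+ ℝ} (hL : Lvl L) {a : ℝ} (ha : 0 ≤ a) {l : List (Dir d)}
    (hl : l ∈ Fp L a) : L (dsp l) < a + 1 := by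
  rcases List.eq_nil_or_concat' l with rfl | ⟨l', u, rfl⟩
  · simp only [dsp_nil, map_zero]; linarith
  · have h1 : dsp l' ∈ exits 0 (l' ++ [u]) :=
      mem_exits.2 ⟨l', [u], rfl, by simp, by simp⟩
    have h2 := (hl.1 _ h1).2
    have h3 := hL.step u
    rw [dsp_append, map_add]
    simp only [dsp_cons, dsp_nil, add_zero]
    linarith

open Classical in
theorem sum_Fp_le {L : Site d →+ ℝ} (hL : Lvl L) (M : ℕ) (Φ : List (Dir d) → ℝ≥0∞) :
    ∑ N ∈ Finset.Icc M (2 * M), ∑' π : Fp L (N : ℝ), wt μ π.1 * Φ π.1 ≤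
      ∑' n : ℕ, En μ L n (fun l => if (M : ℝ) ≤ L (dsp l) ∧ L (dsp l) < 2 * M + 1 then Φ l
        else 0) := by
  rw [← tsum_Br_words, tsum_subtype (Br L) (fun l => wt μ l *
    (if (M : ℝ) ≤ L (dsp l) ∧ L (dsp l) < 2 * M + 1 then Φ l else 0))]
  simp_rw [fun N : ℕ => tsum_subtype (Fp L (N : ℝ)) (fun l => wt μ l * Φ l)]
  rw [← Summable.tsum_finsetSum fun i _ => ENNReal.summable]
  refine ENNReal.tsum_le_tsum fun l => ?_
  by_cases h : ∃ N ∈ Finset.Icc M (2 * M), l ∈ Fp L (N : ℝ)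
  · obtain ⟨N, hN, hl⟩ := h
    have h1 := Fp_lt hL (Nat.cast_nonneg N) hl
    rw [Finset.sum_eq_single N]
    · rw [Set.indicator_of_mem hl, Set.indicator_of_mem (Fp_subset_Br hl), if_pos]
      rw [Finset.mem_Icc] at hN
      have h2 : (M : ℝ) ≤ N := by exact_mod_cast hN.1
      have h3 : (N : ℝ) ≤ 2 * M := by exact_mod_cast hN.2
      exact ⟨h2.trans hl.2, by linarith⟩
    · intro N' _ hne
      refine Set.indicator_of_notMem (fun hl' => hne ?_) _
      have h2 := Fp_lt hL (Nat.cast_nonneg N') hl'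
      have h3 : (N' : ℝ) < N + 1 := hl'.2.trans_lt h1
      have h4 : (N : ℝ) < N' + 1 := hl.2.trans_lt h2
      have h5 : N' < N + 1 := by exact_mod_cast h3
      have h6 : N < N' + 1 := by exact_mod_cast h4
      omega
    · exact fun h => absurd hN h
  · push Not at h
    rw [Finset.sum_eq_zero fun N hN => Set.indicator_of_notMem (h N hN) _]
    exact zero_le

/-- A word of blocks followed by a first passage path is a first passage path. -/
lemma append_mem_Fp {L : Site d →+ ℝ} {M : ℝ} {l η : List (Dir d)} (hl : l ∈ Br L)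
    (hM : L (dsp l) ≤ M) (hη : η ∈ Fp L (M - L (dsp l))) : l ++ η ∈ Fp L M := by
  refine ⟨fun y hy => ?_, ?_⟩
  · rcases mem_exits_append.1 hy with h | ⟨x, hx, rfl⟩
    · exact ⟨(hl y h).1, (hl y h).2.trans_le hM⟩
    · have h1 := hη.1 x hx
      have h2 := Br_nonneg hl
      rw [map_add]
      exact ⟨by linarith [h1.1], by linarith [h1.2]⟩
  · have := hη.2
    rw [dsp_append, map_add]
    linarith

open Classical in
theorem En_le_Fp {L : Site d →+ ℝ} (hL : Lvl L) {q : ℝ≥0∞}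
    (hq : ∀ a, q ≤ fu μ L a) (m : ℕ) (M : ℝ) (Φ : List (Dir d) → ℝ≥0∞)
    (hΦ : ∀ a b, Φ a ≤ Φ (a ++ b)) :
    q * En μ L m (fun l => if L (dsp l) ≤ M then Φ l else 0) ≤ ∑' π : Fp L M, wt μ π.1 * Φ π.1 := by
  let I := {l : Wn L m // L (dsp l.1) ≤ M}
  let f : (Σ l : I, Fp L (M - L (dsp l.1.1))) → Fp L M := fun p =>
    ⟨p.1.1.1 ++ p.2.1, append_mem_Fp (Wn_subset_Br p.1.1.2) p.1.2 p.2.2⟩
  have hf : Function.Injective f := by
    rintro ⟨⟨⟨l, hl⟩, h1⟩, ⟨η, hη⟩⟩ ⟨⟨⟨l', hl'⟩, h1'⟩, ⟨η', hη'⟩⟩ h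
    obtain ⟨rfl, rfl⟩ := Wn_append_inj hl (Fp_up hη) hl' (Fp_up hη') (congrArg Subtype.val h)
    rfl
  calc q * En μ L m (fun l => if L (dsp l) ≤ M then Φ l else 0)
      = ∑' l : Wn L m, if L (dsp l.1) ≤ M then wt μ l.1 * Φ l.1 * q else 0 := by
        rw [← tsum_Wn, ← ENNReal.tsum_mul_left]
        refine tsum_congr fun l => ?_
        split_ifs
        · ring
        · simp
    _ = ∑' l : I, wt μ l.1.1 * Φ l.1.1 * q := by
        have h := tsum_subtype {l : Wn L m | L (dsp l.1) ≤ M}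
          (fun l : Wn L m => wt μ l.1 * Φ l.1 * q)
        rw [show (∑' l : I, wt μ l.1.1 * Φ l.1.1 * q) = _ from h]
        refine tsum_congr fun l => ?_
        rw [Set.indicator_apply]
        rfl
    _ ≤ ∑' l : I, ∑' η : Fp L (M - L (dsp l.1.1)), wt μ (l.1.1 ++ η.1) * Φ (l.1.1 ++ η.1) := by
        refine ENNReal.tsum_le_tsum fun l => ?_
        calc wt μ l.1.1 * Φ l.1.1 * q
            ≤ wt μ l.1.1 * Φ l.1.1 * fu μ L (M - L (dsp l.1.1)) := by gcongr; exact hq _
          _ = ∑' η : Fp L (M - L (dsp l.1.1)), wt μ l.1.1 * wt μ η.1 * Φ l.1.1 := by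
              rw [fu, ← ENNReal.tsum_mul_left]
              refine tsum_congr fun η => ?_
              ring
          _ ≤ _ := by
              refine ENNReal.tsum_le_tsum fun η => ?_
              rw [wt_append_Br μ (Wn_subset_Br l.1.2) (Fp_up η.2)]
              gcongr
              exact hΦ _ _
    _ = ∑' p : (Σ l : I, Fp L (M - L (dsp l.1.1))), wt μ (f p).1 * Φ (f p).1 := by
        rw [ENNReal.tsum_sigma']
    _ ≤ ∑' π : Fp L M, wt μ π.1 * Φ π.1 :=
        ENNReal.tsum_comp_le_tsum_of_injective hf (fun π : Fp L M => wt μ π.1 * Φ π.1)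

end Vale.Agent.N147X.Z
end

section

/-!
# Polynomial growth of the width of slabs, and polynomial tail of a block
-/

open MeasureTheory
open scoped ENNReal

namespace Vale.Agent.N147X.Z

variable {d : ℕ} [Steps d] (μ : Measure (Row d)) [IsProbabilityMeasure μ]

namespace Gr

lemma exists_scale {M n : ℕ} (hM : 1 ≤ M) (hn : M ≤ n) :
    ∃ j, M * 2 ^ j ≤ n ∧ n < M * 2 ^ (j + 1) := by
  have h0 : n / M ≠ 0 := by
    have := Nat.div_pos hn hM
    omega
  refine ⟨Nat.log 2 (n / M), ?_, ?_⟩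
  · have h1 := Nat.pow_log_le_self 2 h0
    rw [mul_comm]
    exact (Nat.le_div_iff_mul_le hM).1 h1
  · have h1 := Nat.lt_pow_succ_log_self (b := 2) (by norm_num) (n / M)
    rw [mul_comm]
    exact (Nat.div_lt_iff_lt_mul hM).1 h1

lemma poly_beats {θ C : ℝ≥0∞} (hθ : θ < 1) (hC : C ≠ ⊤) (k : ℕ) :
    ∃ n0 : ℕ, ∀ n : ℕ, n0 ≤ n → C * θ ^ n ≤ ((n : ℝ≥0∞) ^ k)⁻¹ := by
  have hθt : θ ≠ ⊤ := ne_top_of_lt hθ
  have hr : |θ.toReal| < 1 := by
    rw [abs_of_nonneg ENNReal.toReal_nonneg]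
    have := (ENNReal.toReal_lt_toReal hθt ENNReal.one_ne_top).2 hθ
    simpa using this
  have h1 := tendsto_pow_const_mul_const_pow_of_abs_lt_one k hr
  have h2 : Filter.Tendsto (fun n : ℕ => C.toReal * ((n : ℝ) ^ k * θ.toReal ^ n)) Filter.atTop
      (nhds 0) := by simpa using h1.const_mul C.toReal
  obtain ⟨n0, hn0⟩ := Filter.eventually_atTop.1 (h2.eventually (ge_mem_nhds zero_lt_one))
  refine ⟨n0, fun n hn => ?_⟩
  rw [ENNReal.le_inv_iff_mul_le]
  have h3 := hn0 n hn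
  have h4 : C * θ ^ n * (n : ℝ≥0∞) ^ k =
      ENNReal.ofReal (C.toReal * ((n : ℝ) ^ k * θ.toReal ^ n)) := by
    rw [ENNReal.ofReal_mul ENNReal.toReal_nonneg, ENNReal.ofReal_mul (by positivity),
      ENNReal.ofReal_pow (by positivity), ENNReal.ofReal_pow ENNReal.toReal_nonneg,
      ENNReal.ofReal_natCast, ENNReal.ofReal_toReal hC, ENNReal.ofReal_toReal hθt]
    ring
  rw [h4]
  exact ENNReal.ofReal_le_one.2 h3

end Gr

open Gr

theorem growth {L : Site d →+ ℝ} (hL : Lvl L) (hμ : Eff μ) {q : ℝ≥0∞}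
    (hq0 : q ≠ 0) (hq : ∀ a, q ≤ fu μ L a) :
    ∃ K n0 : ℕ, ∀ n : ℕ, n0 ≤ n →
      ∑' π : Rch L (n : ℝ) (n ^ K), wt μ π.1 ≤ ((n : ℝ≥0∞) ^ 2)⁻¹ := by
  obtain ⟨M, s0, B, hM, hsb, hB, htube⟩ := tube_growth μ hL hμ hq0 hq
  have hs0 : 1 ≤ s0 := one_le_bd.trans hsb
  obtain ⟨u0, hu0⟩ := hL.top
  set θ : ℝ≥0∞ := 1 - (wt μ [u0] * (q / 2)) ^ 2 with hθ
  have hθ1 : θ < 1 := by
    refine ENNReal.sub_lt_self ENNReal.one_ne_top one_ne_zero ?_
    exact pow_ne_zero _ (mul_ne_zero (wt_ne_zero μ hμ _) (ENNReal.div_pos hq0 (by simp)).ne')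
  obtain ⟨n1, hn1⟩ := poly_beats (C := 2 * d) hθ1
    (ENNReal.mul_ne_top (by simp) (ENNReal.natCast_ne_top d)) 2
  refine ⟨B + 3, max n1 (max M (48 * s0)), fun n hn => ?_⟩
  have hnn1 : n1 ≤ n := le_trans (le_max_left _ _) hn
  have hnM : M ≤ n := le_trans ((le_max_left _ _).trans (le_max_right _ _)) hn
  have hns : 48 * s0 ≤ n := le_trans ((le_max_right _ _).trans (le_max_right _ _)) hn
  obtain ⟨j, hj1, hj2⟩ := Gr.exists_scale hM hnM
  have h2j : 2 ^ j ≤ n := le_trans (Nat.le_mul_of_pos_left _ hM) hj1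
  have hBj : B ^ j ≤ n ^ B := by
    calc B ^ j ≤ (2 ^ B) ^ j := Nat.pow_le_pow_left (Nat.lt_two_pow_self).le _
      _ = (2 ^ j) ^ B := by rw [← pow_mul, ← pow_mul, mul_comm]
      _ ≤ n ^ B := Nat.pow_le_pow_left h2j _
  have harith : 24 * (s0 * B ^ j) * (M * 2 ^ j) * (n + 1) ≤ n ^ (B + 3) := by
    calc 24 * (s0 * B ^ j) * (M * 2 ^ j) * (n + 1)
        ≤ 24 * (s0 * n ^ B) * n * (n + 1) := by gcongr
      _ ≤ 24 * (s0 * n ^ B) * n * (2 * n) := by
          gcongr
          omega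
      _ = (48 * s0) * n ^ B * n * n := by ring
      _ ≤ n * n ^ B * n * n := by gcongr
      _ = n ^ (B + 3) := by ring
  refine (lateral μ hL hu0 (n := M * 2 ^ j) (s := s0 * B ^ j) (k := n) (R := n ^ (B + 3))
    (g := q / 2) (t := n) (Nat.mul_pos hM (by positivity)) (hsb.trans (Nat.le_mul_of_pos_right _ (Nat.pow_pos hB)))
    (htube j) ?_ harith).trans (hn1 n hnn1)
  have h3 : (n : ℝ) ≤ ((M * 2 ^ (j + 1) : ℕ) : ℝ) := by exact_mod_cast hj2.le
  push_cast at h3 ⊢
  rw [pow_succ] at h3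
  linarith only [h3]

namespace Gr

/-- A bridge of small height whose end is outside a box starts with a path of `Rch`. -/
lemma bridge_prefix {L : Site d →+ ℝ} {b : List (Dir d)} (hb : b ∈ Br L) {h : ℝ}
    (hh : L (dsp b) < h) {R : ℕ} (hout : dsp b ∉ bx d R) :
    ∃ a c, b = a ++ c ∧ a ∈ Rch L h R := by
  obtain ⟨a, c, hac, h1, h2⟩ := Lat.exists_first (fun l => dsp l ∉ bx d R) b hout
  have hlev : ∀ a' c', b = a' ++ c' → 0 ≤ L (dsp a') ∧ L (dsp a') < h := by
    intro a' c' h3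
    rcases eq_or_ne c' [] with rfl | hc
    · rw [List.append_nil] at h3
      rw [← h3]
      exact ⟨Br_nonneg hb, hh⟩
    · have h4 := hb (dsp a') (by rw [h3]; exact mem_exits_prefix hc)
      exact ⟨h4.1, h4.2.trans hh⟩
  refine ⟨a, c, hac, fun x hx => ?_, ?_, h1⟩
  · obtain ⟨a', c', h3, hc', rfl⟩ := mem_exits.1 hx
    rw [zero_add]
    have h4 := hlev a' (c' ++ c) (by rw [← List.append_assoc, ← h3, hac])
    exact ⟨⟨by linarith [h4.1], h4.2⟩, not_not.1 (h2 a' c' h3 hc')⟩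
  · have h4 := hlev a c hac
    exact ⟨by linarith [h4.1], h4.2⟩

/-- Blocks of height less than `h` that end outside a box. -/
def Fat (L : Site d →+ ℝ) (h : ℝ) (R : ℕ) : Set (List (Dir d)) :=
  {b | b ∈ Ir L ∧ L (dsp b) < h ∧ dsp b ∉ bx d R}

lemma fat_le {L : Site d →+ ℝ} {q : ℝ≥0∞} (hq : ∀ a, q ≤ fu μ L a) (h : ℝ) (R : ℕ) :
    q * ∑' b : Fat L h R, wt μ b.1 ≤ ∑' π : Rch L h R, wt μ π.1 := by
  classical
  set S : Set (List (Dir d)) := {π | π ∈ Fp L h ∧ ∃ a c, π = a ++ c ∧ a ∈ Rch L h R} with hS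
  have hSfree : Free S := fun a ha b hb => Fp_free L h a ha.1 b hb.1
  have hmem : ∀ (b : Fat L h R) (η : Fp L (h - L (dsp b.1))), b.1 ++ η.1 ∈ S := by
    rintro ⟨b, hb, hbh, hbR⟩ ⟨η, hη⟩
    obtain ⟨a, c, hac, ha⟩ := bridge_prefix hb.1 hbh hbR
    refine ⟨⟨fun x hx => ?_, ?_⟩, a, c ++ η, ?_, ha⟩
    · rcases mem_exits_append.1 hx with hx | ⟨y, hy, rfl⟩
      · exact ⟨(hb.1 x hx).1, (hb.1 x hx).2.trans hbh⟩
      · have h1 := hη.1 y hy
        change 0 ≤ L y ∧ L y < h - L (dsp b) at h1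
        have h2 := Br_nonneg hb.1
        rw [map_add]
        exact ⟨by linarith [h1.1], by linarith [h1.2]⟩
    · have h1 := hη.2
      change h - L (dsp b) ≤ L (dsp η) at h1
      change h ≤ L (dsp (b ++ η))
      rw [dsp_append, map_add]
      linarith
    · change b ++ η = a ++ (c ++ η)
      rw [← List.append_assoc, ← hac]
  have hinj : Function.Injective
      (fun p : (Σ b : Fat L h R, Fp L (h - L (dsp b.1))) => (⟨p.1.1 ++ p.2.1, hmem p.1 p.2⟩ : S)) := by
    rintro ⟨⟨b, hb⟩, ⟨η, hη⟩⟩ ⟨⟨b', hb'⟩, ⟨η', hη'⟩⟩ heq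
    have h1 : b ++ η = b' ++ η' := congrArg Subtype.val heq
    obtain ⟨rfl, rfl⟩ := Ir_append_inj hb.1 (Fp_up hη) hb'.1 (Fp_up hη') h1
    rfl
  calc q * ∑' b : Fat L h R, wt μ b.1 = ∑' b : Fat L h R, q * wt μ b.1 := by
        rw [ENNReal.tsum_mul_left]
    _ ≤ ∑' b : Fat L h R, ∑' η : Fp L (h - L (dsp b.1)), wt μ (b.1 ++ η.1) := by
        refine ENNReal.tsum_le_tsum fun b => ?_
        have h1 : ∑' η : Fp L (h - L (dsp b.1)), wt μ (b.1 ++ η.1) =
            wt μ b.1 * fu μ L (h - L (dsp b.1)) := by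
          rw [fu, ← ENNReal.tsum_mul_left]
          exact tsum_congr fun η => wt_append_Br μ b.2.1.1 (Fp_up η.2)
        rw [h1, mul_comm]
        gcongr
        exact hq _
    _ = ∑' p : (Σ b : Fat L h R, Fp L (h - L (dsp b.1))), wt μ (p.1.1 ++ p.2.1) :=
        (ENNReal.tsum_sigma (fun (b : Fat L h R) (η : Fp L (h - L (dsp b.1))) =>
          wt μ (b.1 ++ η.1))).symm
    _ ≤ ∑' π : S, wt μ π.1 :=
        ENNReal.tsum_comp_le_tsum_of_injective hinj (fun π : S => wt μ π.1)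
    _ ≤ _ := tsum_prefix_le μ hSfree fun l hl => hl.2

omit [IsProbabilityMeasure μ] in
open Classical in
lemma kap_out (L : Site d →+ ℝ) (h : ℝ) (R : ℕ) :
    ∑' x, (if x ∈ bx d R then 0 else (kap μ L).v x) ≤
      ∑' b : Ir L, (if h ≤ L (dsp b.1) then wt μ b.1 else 0) + ∑' b : Fat L h R, wt μ b.1 := by
  have h1 : ∑' x, (if x ∈ bx d R then 0 else (kap μ L).v x) =
      ∑' b : Ir L, (if dsp b.1 ∈ bx d R then 0 else wt μ b.1) := by
    have h2 : ∀ x, (if x ∈ bx d R then 0 else (kap μ L).v x) =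
        ∑' b : Ir L, (if x ∈ bx d R then 0 else if dsp b.1 = x then wt μ b.1 else 0) := by
      intro x
      split_ifs with hx
      · simp
      · simp only [kap]
    simp only [h2]
    rw [ENNReal.tsum_comm]
    refine tsum_congr fun b => ?_
    rw [tsum_eq_single (dsp b.1)]
    · simp
    · intro x hx
      rw [if_neg (Ne.symm hx)]
      simp
  have h3 : ∑' b : Fat L h R, wt μ b.1 =
      ∑' b : Ir L, (if L (dsp b.1) < h ∧ dsp b.1 ∉ bx d R then wt μ b.1 else 0) := by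
    rw [tsum_subtype (Fat L h R) (fun b => wt μ b),
      tsum_subtype (Ir L) (fun b => if L (dsp b) < h ∧ dsp b ∉ bx d R then wt μ b else 0)]
    refine tsum_congr fun b => ?_
    by_cases hb : b ∈ Ir L
    · by_cases hb2 : L (dsp b) < h ∧ dsp b ∉ bx d R
      · rw [Set.indicator_of_mem (show b ∈ Fat L h R from ⟨hb, hb2⟩), Set.indicator_of_mem hb,
          if_pos hb2]
      · rw [Set.indicator_of_notMem (fun h4 : b ∈ Fat L h R => hb2 h4.2), Set.indicator_of_mem hb,
          if_neg hb2]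
    · rw [Set.indicator_of_notMem (fun h4 : b ∈ Fat L h R => hb h4.1),
        Set.indicator_of_notMem hb]
  rw [h1, h3, ← ENNReal.tsum_add]
  refine ENNReal.tsum_le_tsum fun b => ?_
  by_cases h4 : dsp b.1 ∈ bx d R
  · rw [if_pos h4]; exact bot_le
  · rw [if_neg h4]
    rcases lt_or_ge (L (dsp b.1)) h with h5 | h5
    · rw [if_neg (not_le.2 h5), if_pos ⟨h5, h4⟩, zero_add]
    · rw [if_pos h5]; exact le_self_add

omit [IsProbabilityMeasure μ] in
open Classical in
lemma tall_le (L : Site d →+ ℝ) {h : ℕ} (hh : 1 ≤ h) :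
    ∑' b : Ir L, (if (h : ℝ) ≤ L (dsp b.1) then wt μ b.1 else 0) ≤
      (h : ℝ≥0∞)⁻¹ * ∑' b : Ir L, wt μ b.1 * ENNReal.ofReal (L (dsp b.1)) := by
  have hh0 : (h : ℝ≥0∞) ≠ 0 := by
    have : h ≠ 0 := by omega
    exact_mod_cast this
  rw [← ENNReal.tsum_mul_left]
  refine ENNReal.tsum_le_tsum fun b => ?_
  split_ifs with h1
  · have h2 : (h : ℝ≥0∞) ≤ ENNReal.ofReal (L (dsp b.1)) := by
      rw [← ENNReal.ofReal_natCast]
      exact ENNReal.ofReal_le_ofReal h1
    calc wt μ b.1 = (h : ℝ≥0∞)⁻¹ * (wt μ b.1 * h) := by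
          rw [mul_comm (wt μ b.1), ← mul_assoc,
            ENNReal.inv_mul_cancel hh0 (ENNReal.natCast_ne_top h), one_mul]
      _ ≤ _ := by gcongr
  · exact bot_le

end Gr

theorem kap_polyTail {L : Site d →+ ℝ} (hL : Lvl L) (hμ : Eff μ) {q : ℝ≥0∞}
    (hq0 : q ≠ 0) (hq : ∀ a, q ≤ fu μ L a) : PolyTail (kap μ L) := by
  classical
  obtain ⟨K, n1, hK⟩ := growth μ hL hμ hq0 hq
  have hm := mean_height μ hL hq0 hq
  set mh := ∑' b : Ir L, wt μ b.1 * ENNReal.ofReal (L (dsp b.1)) with hmh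
  have hqi : q⁻¹ ≠ ⊤ := ENNReal.inv_ne_top.2 hq0
  have hqt : q ≠ ⊤ := ne_top_of_le_ne_top ENNReal.one_ne_top (q_le_one μ hq)
  obtain ⟨n2, hn2⟩ := ENNReal.exists_nat_gt (ENNReal.add_ne_top.2 ⟨hm, hqi⟩)
  refine ⟨3 * K, max 1 (max n1 n2), fun n hn => ?_⟩
  have hn1 : 1 ≤ n := le_trans (le_max_left _ _) hn
  have hnn1 : n1 ≤ n := le_trans ((le_max_left _ _).trans (le_max_right _ _)) hn
  have hnn2 : n2 ≤ n := le_trans ((le_max_right _ _).trans (le_max_right _ _)) hn
  have hn0 : (n : ℝ≥0∞) ≠ 0 := by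
    have : n ≠ 0 := by omega
    exact_mod_cast this
  have hnt : (n : ℝ≥0∞) ≠ ⊤ := ENNReal.natCast_ne_top n
  set h : ℕ := n ^ 3 with hh
  have hh1 : 1 ≤ h := Nat.pow_pos hn1
  have hnh : n ≤ h := by
    calc n = n ^ 1 := (pow_one n).symm
      _ ≤ n ^ 3 := Nat.pow_le_pow_right hn1 (by norm_num)
  have hR : n ^ (3 * K) = h ^ K := by rw [hh, ← pow_mul]
  have h1 := kap_out μ L (h : ℝ) (n ^ (3 * K))
  have h2 := tall_le μ L hh1
  have h3 := fat_le μ hq (h : ℝ) (n ^ (3 * K))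
  have h4 : q * ∑' b : Fat L (h : ℝ) (n ^ (3 * K)), wt μ b.1 ≤ ((h : ℝ≥0∞) ^ 2)⁻¹ := by
    refine h3.trans ?_
    rw [hR]
    exact hK h (hnn1.trans hnh)
  have h5 : ∑' b : Fat L (h : ℝ) (n ^ (3 * K)), wt μ b.1 ≤ q⁻¹ * ((h : ℝ≥0∞) ^ 2)⁻¹ := by
    calc ∑' b : Fat L (h : ℝ) (n ^ (3 * K)), wt μ b.1
        = q⁻¹ * (q * ∑' b : Fat L (h : ℝ) (n ^ (3 * K)), wt μ b.1) := by
          rw [← mul_assoc, ENNReal.inv_mul_cancel hq0 hqt, one_mul]
      _ ≤ _ := by gcongr
  have h6 : ((h : ℝ≥0∞) ^ 2)⁻¹ ≤ ((n : ℝ≥0∞) ^ 3)⁻¹ := by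
    rw [ENNReal.inv_le_inv, hh]
    push_cast
    rw [← pow_mul]
    exact pow_le_pow_right₀ (by exact_mod_cast hn1) (by norm_num)
  calc ∑' x, (if x ∈ bx d (n ^ (3 * K)) then 0 else (kap μ L).v x)
      ≤ (h : ℝ≥0∞)⁻¹ * mh + q⁻¹ * ((h : ℝ≥0∞) ^ 2)⁻¹ := h1.trans (add_le_add h2 h5)
    _ ≤ ((n : ℝ≥0∞) ^ 3)⁻¹ * mh + q⁻¹ * ((n : ℝ≥0∞) ^ 3)⁻¹ := by
        gcongr
        rw [hh]
        push_cast
        exact le_rfl
    _ = ((n : ℝ≥0∞) ^ 3)⁻¹ * (mh + q⁻¹) := by ring
    _ ≤ ((n : ℝ≥0∞) ^ 3)⁻¹ * n := by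
        gcongr
        exact hn2.le.trans (by exact_mod_cast hnn2)
    _ = ((n : ℝ≥0∞) ^ 2)⁻¹ := by
        rw [pow_succ, ENNReal.mul_inv (Or.inr hnt) (Or.inr hn0), mul_assoc,
          ENNReal.inv_mul_cancel hn0 hnt, mul_one]

end Vale.Agent.N147X.Z
end

section

open MeasureTheory
open scoped ENNReal

namespace Vale.Agent.N147X.Z.Cr

variable {d : ℕ} [Steps d] (μ : Measure (Row d)) {L : Site d →+ ℝ}

/-- Kill of the downward paths from the end of `l` by the part of `l` below level `h`. -/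
noncomputable def Phi (L : Site d →+ ℝ) (l1 h : ℝ) (l : List (Dir d)) : ℝ≥0∞ :=
  kill μ (Td L l1 (dsp l)) (dsp l) (exits 0 (fpre L h l))

lemma kill_mono' (T : Set (List (Dir d))) (z : Site d) {S S' : Finset (Site d)} (h : S ⊆ S') :
    kill μ T z S ≤ kill μ T z S' := by
  unfold kill
  refine ENNReal.tsum_le_tsum fun ρ => ?_
  split_ifs with h1 h2
  · exact le_rfl
  · exact zero_le
  · rename_i h2
    exact absurd (Finset.disjoint_of_subset_right h h2) h1
  · exact le_rfl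

lemma kill_le_tsum (T : Set (List (Dir d))) (z : Site d) (S : Finset (Site d)) :
    kill μ T z S ≤ ∑' ρ : T, wt μ ρ.1 := by
  unfold kill
  refine ENNReal.tsum_le_tsum fun ρ => ?_
  split_ifs
  · exact zero_le
  · exact le_rfl

lemma exits_take_subset (l : List (Dir d)) (i : ℕ) : exits 0 (l.take i) ⊆ exits 0 l := by
  conv_rhs => rw [← List.take_append_drop i l]
  rw [exits_append]
  exact Finset.subset_union_left

lemma exits_fpre_subset {h : ℝ} {β γ : List (Dir d)} (hβ : h ≤ L (dsp β)) :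
    exits 0 (fpre L h (β ++ γ)) ⊆ exits 0 β := by
  have h1 : sInf {i | h ≤ L (dsp ((β ++ γ).take i))} ≤ β.length := by
    apply Nat.sInf_le
    simpa using hβ
  unfold fpre
  rw [List.take_append_of_le_length h1]
  exact exits_take_subset _ _

lemma Phi_le (l1 h : ℝ) {β γ : List (Dir d)} (hβ : h ≤ L (dsp β)) :
    Phi μ L l1 h (β ++ γ) ≤ kill μ (Td L l1 (dsp β + dsp γ)) (dsp β + dsp γ) (exits 0 β) := by
  unfold Phi
  rw [dsp_append]
  exact kill_mono' μ _ _ (exits_fpre_subset hβ)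

variable [IsProbabilityMeasure μ]

open Classical in
theorem mid {q εs : ℝ≥0∞} (hL : Lvl L) (hq0 : q ≠ 0) (hqt : q ≠ ⊤) (hq : ∀ a, q ≤ fu μ L a)
    (h1 : ∑' b : Ir L, wt μ b.1 = 1) (hTd : ∀ z l1, ∑' ρ : Td L l1 z, wt μ ρ.1 ≤ 1)
    {n m : ℕ} (hmn : m ≤ n) {l1 h M : ℝ}
    (hs : ∀ z : Site d, M ≤ L z →
      ∑' π : Fp L M, wt μ π.1 * kill μ (Td L l1 z) z (exits 0 π.1) ≤ εs) :
    En μ L n (fun l => if M ≤ L (dsp l) ∧ L (dsp l) < 2 * M + 1 then Phi μ L l1 h l else 0) ≤
      En μ L m (fun l => if L (dsp l) < h then 1 else 0) +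
      En μ L m (fun l => if M < L (dsp l) then 1 else 0) + q⁻¹ * εs + tv (kap μ L) n m := by
  have hκ : ∀ k, ∑' z, ((kap μ L) ^ k).v z = 1 := by
    intro k
    have := Cv.mass_pow (kap μ L) k
    rw [kap_mass, h1, one_pow] at this
    exact this
  -- the averaged function
  let g : List (Dir d) → Site d → ℝ≥0∞ := fun β z =>
    if M ≤ L z then kill μ (Td L l1 z) z (exits 0 β) else 0
  have hg1 : ∀ β z, g β z ≤ 1 := by
    intro β z
    simp only [g]
    split_ifs
    · exact (kill_le_tsum μ _ _ _).trans (hTd z l1)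
    · exact zero_le
  -- step 1
  have s1 : En μ L n (fun l => if M ≤ L (dsp l) ∧ L (dsp l) < 2 * M + 1 then Phi μ L l1 h l
      else 0) ≤ En μ L m (fun β => (if L (dsp β) < h then 1 else 0) +
        (if M < L (dsp β) then 1 else 0) +
        (if L (dsp β) ≤ M then En μ L (n - m) (fun γ => g β (dsp β + dsp γ)) else 0)) := by
    have hn : n = m + (n - m) := by omega
    conv_lhs => rw [hn]
    rw [En_add]
    refine En_mono μ m fun β => ?_
    have hle1 : ∀ γ : List (Dir d), (if M ≤ L (dsp (β ++ γ)) ∧ L (dsp (β ++ γ)) < 2 * M + 1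
        then Phi μ L l1 h (β ++ γ) else 0) ≤ 1 := by
      intro γ
      split_ifs
      · exact (kill_le_tsum μ _ _ _).trans (hTd _ l1)
      · exact zero_le
    have hb1 : En μ L (n - m) (fun γ => (if M ≤ L (dsp (β ++ γ)) ∧ L (dsp (β ++ γ)) < 2 * M + 1
        then Phi μ L l1 h (β ++ γ) else 0)) ≤ 1 := by
      calc _ ≤ En μ L (n - m) (fun _ => 1) := En_mono μ _ hle1
        _ = 1 := En_const μ h1 _ _
    by_cases hlow : L (dsp β) < h
    · rw [if_pos hlow, add_assoc]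
      exact hb1.trans le_self_add
    by_cases hhigh : M < L (dsp β)
    · rw [if_pos hhigh]
      refine hb1.trans ?_
      rw [add_assoc]
      exact le_self_add.trans le_add_self
    · rw [if_neg hlow, if_neg hhigh, if_pos (not_lt.1 hhigh), add_zero, zero_add]
      refine En_mono μ _ fun γ => ?_
      simp only [g]
      split_ifs with h2 h3
      · exact Phi_le μ l1 h (not_lt.1 hlow)
      · exfalso
        apply h3
        have := h2.1
        rwa [dsp_append] at this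
      · exact zero_le
      · exact zero_le
  -- step 2
  have s2 : ∀ β : List (Dir d), En μ L (n - m) (fun γ => g β (dsp β + dsp γ)) ≤
      (∑' z, ((kap μ L) ^ n).v z * g β z) +
        ∑' z, (((kap μ L) ^ (n - m)).v (z - dsp β) - ((kap μ L) ^ n).v z) := by
    intro β
    rw [En_dsp' μ (n - m) (fun y => g β (dsp β + y)), ← ENNReal.tsum_add,
      ← (Equiv.subRight (dsp β)).tsum_eq
        (fun y => ((kap μ L) ^ (n - m)).v y * g β (dsp β + y))]
    refine ENNReal.tsum_le_tsum fun z => ?_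
    simp only [Equiv.subRight_apply, add_sub_cancel]
    calc ((kap μ L) ^ (n - m)).v (z - dsp β) * g β z
        ≤ (((kap μ L) ^ n).v z + (((kap μ L) ^ (n - m)).v (z - dsp β) -
            ((kap μ L) ^ n).v z)) * g β z := by
          gcongr
          exact le_add_tsub
      _ = ((kap μ L) ^ n).v z * g β z + (((kap μ L) ^ (n - m)).v (z - dsp β) -
            ((kap μ L) ^ n).v z) * g β z := by ring
      _ ≤ _ := by
          gcongr
          calc _ ≤ (((kap μ L) ^ (n - m)).v (z - dsp β) - ((kap μ L) ^ n).v z) * 1 := by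
                gcongr
                exact hg1 β z
            _ = _ := mul_one _
  -- step 3: fixed z
  have s3 : ∀ z, En μ L m (fun β => if L (dsp β) ≤ M then g β z else 0) ≤ q⁻¹ * εs := by
    intro z
    by_cases hz : M ≤ L z
    · have h3 := En_le_Fp μ hL hq m M (fun β => kill μ (Td L l1 z) z (exits 0 β))
        (fun a b => kill_mono' μ _ _ (by rw [exits_append]; exact Finset.subset_union_left))
      have h4 := h3.trans (hs z hz)
      have h5 : (fun β => if L (dsp β) ≤ M then g β z else 0) =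
          (fun β => if L (dsp β) ≤ M then kill μ (Td L l1 z) z (exits 0 β) else 0) := by
        funext β
        simp only [g, if_pos hz]
      rw [h5, ← ENNReal.div_eq_inv_mul, ENNReal.le_div_iff_mul_le (Or.inl hq0) (Or.inl hqt),
        mul_comm]
      exact h4
    · have h5 : (fun β => if L (dsp β) ≤ M then g β z else 0) = fun _ => 0 := by
        funext β
        simp only [g, if_neg hz, ite_self]
      rw [h5, En_const μ h1]
      exact zero_le
  -- conclusion
  refine s1.trans ?_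
  rw [En_add_fun, En_add_fun, add_assoc (_ + _)]
  gcongr
  calc En μ L m (fun β => if L (dsp β) ≤ M then En μ L (n - m) (fun γ => g β (dsp β + dsp γ))
          else 0)
      ≤ En μ L m (fun β => (∑' z, ((kap μ L) ^ n).v z * (if L (dsp β) ≤ M then g β z else 0)) +
          ∑' z, (((kap μ L) ^ (n - m)).v (z - dsp β) - ((kap μ L) ^ n).v z)) := by
        refine En_mono μ m fun β => ?_
        split_ifs with hβ
        · exact s2 β
        · exact zero_le
    _ = (∑' z, ((kap μ L) ^ n).v z * En μ L m (fun β => if L (dsp β) ≤ M then g β z else 0)) +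
          tv (kap μ L) n m := by
        rw [En_add_fun, En_tsum]
        congr 1
        · refine tsum_congr fun z => ?_
          rw [← En_const_mul]
        · rw [En_dsp' μ m (fun y => ∑' z, (((kap μ L) ^ (n - m)).v (z - y) -
            ((kap μ L) ^ n).v z))]
          rfl
    _ ≤ (∑' z, ((kap μ L) ^ n).v z * (q⁻¹ * εs)) + tv (kap μ L) n m := by
        gcongr with z
        exact s3 z
    _ = q⁻¹ * εs + tv (kap μ L) n m := by
        rw [ENNReal.tsum_mul_right, hκ, one_mul]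

end Vale.Agent.N147X.Z.Cr
end

section

open MeasureTheory
open scoped ENNReal

namespace Vale.Agent.N147X.Z.Cr

variable {d : ℕ} [Steps d] (μ : Measure (Row d)) [IsProbabilityMeasure μ] {L : Site d →+ ℝ}

lemma tsum_le_of_prefix {S S' : Set (List (Dir d))} (hS : Free S)
    (h : ∀ π ∈ S, ∃ a ∈ S', ∃ c, π = a ++ c) : ∑' π : S, wt μ π.1 ≤ ∑' a : S', wt μ a.1 := by
  choose! a ha c hc using h
  calc ∑' π : S, wt μ π.1
      ≤ ∑' x : (Σ a : S', {c : List (Dir d) | a.1 ++ c ∈ S}), wt μ (x.1.1 ++ x.2.1) := by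
        let f : S → (Σ a : S', {c : List (Dir d) | a.1 ++ c ∈ S}) := fun π =>
          ⟨⟨a π.1, ha π.1 π.2⟩, ⟨c π.1, by
            change a π.1 ++ c π.1 ∈ S
            rw [← hc π.1 π.2]; exact π.2⟩⟩
        have hf : Function.Injective f := by
          intro π π' hππ
          have h1 : a π.1 ++ c π.1 = a π'.1 ++ c π'.1 := by
            have h2 : (fun x : (Σ a : S', {c : List (Dir d) | a.1 ++ c ∈ S}) =>
              x.1.1 ++ x.2.1) (f π) = (fun x : (Σ a : S', {c : List (Dir d) | a.1 ++ c ∈ S}) =>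
              x.1.1 ++ x.2.1) (f π') := by rw [hππ]
            exact h2
          apply Subtype.ext
          rw [hc π.1 π.2, hc π'.1 π'.2, h1]
        have h3 := ENNReal.tsum_comp_le_tsum_of_injective hf
          (fun x => wt μ (x.1.1 ++ x.2.1))
        refine le_trans (le_of_eq ?_) h3
        refine tsum_congr fun π => ?_
        change wt μ π.1 = wt μ (a π.1 ++ c π.1)
        rw [← hc π.1 π.2]
    _ = ∑' a : S', ∑' c : {c : List (Dir d) | a.1 ++ c ∈ S}, wt μ (a.1 ++ c.1) :=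
        ENNReal.tsum_sigma' _
    _ ≤ _ := ENNReal.tsum_le_tsum fun a => tsum_append_le μ hS a.1

lemma Fp_free' (L : Site d →+ ℝ) (a : ℝ) : Free (Fp L a) := by
  rintro l ⟨_, hl⟩ b ⟨hb, _⟩
  by_contra hne
  have := (hb (dsp l) (mem_exits.2 ⟨l, b, rfl, hne, by simp⟩)).2
  linarith

lemma Fp_end_lt (hL : Lvl L) {a : ℝ} (ha : 0 ≤ a) {l : List (Dir d)} (hl : l ∈ Fp L a) :
    L (dsp l) < a + 1 := by
  rcases List.eq_nil_or_concat l with rfl | ⟨l', u, rfl⟩
  · simp only [dsp_nil, map_zero]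
    linarith
  · have h1 := (hl.1 (dsp l') (mem_exits.2 ⟨l', [u], by simp, by simp, by simp⟩)).2
    have h2 := hL.step u
    simp only [List.concat_eq_append, dsp_append, dsp_cons, dsp_nil, add_zero, map_add]
    linarith

/-- Paths that end outside of the box reach its complement within the slab. -/
lemma out_le (hL : Lvl L) {N t : ℝ} (hN : 0 ≤ N) (hNt : N + 1 ≤ t) (R : ℕ) :
    ∑' π : Fp L N, (if dsp π.1 ∉ bx d R then wt μ π.1 else 0) ≤
      ∑' π : Rch L t R, wt μ π.1 := by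
  classical
  have e1 : ∑' π : Fp L N, (if dsp π.1 ∉ bx d R then wt μ π.1 else 0) =
      ∑' π : {π | π ∈ Fp L N ∧ dsp π ∉ bx d R}, wt μ π.1 := by
    rw [tsum_subtype (Fp L N) (fun π => if dsp π ∉ bx d R then wt μ π else 0),
      tsum_subtype {π | π ∈ Fp L N ∧ dsp π ∉ bx d R} (fun π => wt μ π)]
    refine tsum_congr fun π => ?_
    simp only [Set.indicator, Set.mem_setOf_eq]
    split_ifs <;> first | rfl | tauto
  rw [e1]
  refine tsum_le_of_prefix μ ?_ ?_
  · intro a ha b hb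
    exact Fp_free' L N a ha.1 b hb.1
  · rintro π ⟨hπ, hout⟩
    -- first exit of the box
    let P : ℕ → Prop := fun i => dsp (π.take i) ∉ bx d R
    have hP : ∃ i, P i := ⟨π.length, by simpa [P] using hout⟩
    have hi := Nat.find_spec hP
    have hmin := fun j (hj : j < Nat.find hP) => Nat.find_min hP hj
    set i := Nat.find hP with hidef
    have hil : i ≤ π.length := Nat.find_min' hP (by simpa [P] using hout)
    have hslab : ∀ j ≤ π.length, dsp (π.take j) ∈ Db L t := by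
      intro j hj
      rcases eq_or_lt_of_le hj with rfl | hj
      · rw [List.take_length]
        have h1 := Fp_end_lt hL hN hπ
        exact ⟨by linarith [hπ.2], by linarith⟩
      · have h1 := hπ.1 (dsp (π.take j)) (mem_exits.2 ⟨π.take j, π.drop j, by simp, by
          intro h0
          rw [List.drop_eq_nil_iff] at h0
          omega, by simp⟩)
        exact ⟨by linarith [h1.1], by linarith [h1.2]⟩
    refine ⟨π.take i, ⟨?_, hslab i hil, hi⟩, π.drop i, by simp⟩
    intro x hx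
    obtain ⟨a, b, hab, hb, rfl⟩ := mem_exits.1 hx
    have hlen : a.length < i := by
      have h2 := congrArg List.length hab
      rw [List.length_take, List.length_append] at h2
      have h3 : 0 < b.length := List.length_pos_of_ne_nil hb
      omega
    have ha : a = π.take a.length := by
      have h2 : a = (π.take i).take a.length := by rw [hab]; simp
      rw [List.take_take, min_eq_left hlen.le] at h2
      exact h2
    rw [zero_add, ha]
    exact ⟨hslab _ (by omega), not_not.1 (hmin _ hlen)⟩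

open Classical in
/-- The box of possible end points. -/
noncomputable def Bf (L : Site d →+ ℝ) (M R : ℕ) : Finset (Site d) :=
  (bx d R).filter (fun y => (M : ℝ) ≤ L y ∧ L y < 2 * M + 1)

open Classical in
theorem endN (hL : Lvl L) {q w0 : ℝ≥0∞} (hq : ∀ a, q ≤ fu μ L a) (hw1 : w0 ≤ 1)
    {M N R : ℕ} (hMN : M ≤ N) (hN2 : N ≤ 2 * M) {l1 h : ℝ} (hl1 : 0 ≤ l1) (h0 : 0 ≤ h)
    (hhM : h ≤ M) (hTd : ∀ z l1, ∑' ρ : Td L l1 z, wt μ ρ.1 ≤ 1)
    (hTs : ∀ (z : Site d) (t : ℝ), L z < t → Td L l1 z ⊆ Ds L t z)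
    (hTw : ∀ z, w0 ≤ ∑' ρ : Td L l1 z, wt μ ρ.1)
    {lam x : ℝ} (hlam : 0 < lam) (hlam1 : lam ≤ 1) (hx : 0 ≤ x) :
    w0 * q ≤ (∑' π : Rch L (2 * M + 2) R, wt μ π.1) +
      ((ENNReal.ofReal lam)⁻¹ * ∑' γ : Fp L h, Eb μ L (2 * M + 2) γ.1 +
        (Bf L M R).card *
          ENNReal.ofReal (2 * Real.exp (-x / (2 * (lam * (1 + Real.log (1 / lam))))))) +
      ENNReal.ofReal x + ∑' π : Fp L (N : ℝ), wt μ π.1 * Phi μ L l1 h π.1 := by
  have hMN' : (M : ℝ) ≤ N := by exact_mod_cast hMN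
  have hN2' : (N : ℝ) ≤ 2 * M := by exact_mod_cast hN2
  have hend := end_bound μ hL (t := 2 * M + 2) (N := (N : ℝ)) h0 (hhM.trans hMN')
    (by linarith) (Bf L M R) (fun y => Td L l1 y)
    (by
      intro y hy
      simp only [Bf, Finset.mem_filter] at hy
      exact hTs y _ (by linarith [hy.2.2]))
    (fun y _ => hTd y l1)
    (by
      intro y hy
      simp only [Bf, Finset.mem_filter] at hy
      have : (0 : ℝ) ≤ M := Nat.cast_nonneg M
      exact ⟨by linarith [hy.2.1], by linarith [hy.2.2]⟩)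
    (w0 := w0) (fun y _ => hTw y) hlam hlam1 hx
  have hout := out_le μ hL (N := (N : ℝ)) (t := 2 * M + 2) (Nat.cast_nonneg N) (by linarith) R
  calc w0 * q ≤ w0 * fu μ L N := by gcongr; exact hq _
    _ = ∑' π : Fp L (N : ℝ), w0 * wt μ π.1 := by rw [fu, ENNReal.tsum_mul_left]
    _ ≤ ∑' π : Fp L (N : ℝ), ((if dsp π.1 ∉ bx d R then wt μ π.1 else 0) +
        (if dsp π.1 ∈ Bf L M R ∧ kill μ (Td L l1 (dsp π.1)) (dsp π.1)
          (exits 0 (fpre L h π.1)) + ENNReal.ofReal x < w0 then wt μ π.1 else 0) +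
        wt μ π.1 * ENNReal.ofReal x + wt μ π.1 * Phi μ L l1 h π.1) := by
        refine ENNReal.tsum_le_tsum fun π => ?_
        have hw1' : w0 * wt μ π.1 ≤ wt μ π.1 := by
          calc w0 * wt μ π.1 ≤ 1 * wt μ π.1 := by gcongr
            _ = _ := one_mul _
        by_cases hb : dsp π.1 ∉ bx d R
        · rw [if_pos hb]
          refine hw1'.trans ?_
          rw [add_assoc, add_assoc]
          exact le_self_add
        · rw [if_neg hb]
          have hin : dsp π.1 ∈ Bf L M R := by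
            simp only [Bf, Finset.mem_filter]
            have h3 := Fp_end_lt hL (Nat.cast_nonneg N) π.2
            exact ⟨not_not.1 hb, by linarith [π.2.2], by linarith⟩
          by_cases hk : kill μ (Td L l1 (dsp π.1)) (dsp π.1) (exits 0 (fpre L h π.1)) +
              ENNReal.ofReal x < w0
          · rw [if_pos ⟨hin, hk⟩]
            refine hw1'.trans ?_
            rw [zero_add, add_assoc]
            exact le_self_add
          · rw [if_neg (fun h => hk h.2), add_zero, zero_add, ← mul_add, mul_comm, add_comm]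
            gcongr
            exact not_lt.1 hk
    _ = (∑' π : Fp L (N : ℝ), (if dsp π.1 ∉ bx d R then wt μ π.1 else 0)) +
        (∑' π : Fp L (N : ℝ), (if dsp π.1 ∈ Bf L M R ∧ kill μ (Td L l1 (dsp π.1)) (dsp π.1)
          (exits 0 (fpre L h π.1)) + ENNReal.ofReal x < w0 then wt μ π.1 else 0)) +
        (∑' π : Fp L (N : ℝ), wt μ π.1) * ENNReal.ofReal x +
        ∑' π : Fp L (N : ℝ), wt μ π.1 * Phi μ L l1 h π.1 := by
        rw [ENNReal.tsum_add, ENNReal.tsum_add, ENNReal.tsum_add, ENNReal.tsum_mul_right]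
    _ ≤ _ := by
        gcongr
        · calc (∑' π : Fp L (N : ℝ), wt μ π.1) * ENNReal.ofReal x ≤ 1 * ENNReal.ofReal x := by
                gcongr
                exact tsum_wt_le_one μ (Fp_free' L _)
            _ = _ := one_mul _

end Vale.Agent.N147X.Z.Cr
end

section

open MeasureTheory
open scoped ENNReal

namespace Vale.Agent.N147X.Z.Cr

variable {d : ℕ} [Steps d] (μ : Measure (Row d)) [IsProbabilityMeasure μ] {L : Site d →+ ℝ}

/-- Laplace transform of the height of a block. -/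
noncomputable def rho (L : Site d →+ ℝ) : ℝ≥0∞ :=
  ∑' b : Ir L, wt μ b.1 * ENNReal.ofReal (Real.exp (-L (dsp b.1)))

/-- Mean height of a block. -/
noncomputable def mh (L : Site d →+ ℝ) : ℝ≥0∞ :=
  ∑' b : Ir L, wt μ b.1 * ENNReal.ofReal (L (dsp b.1))

lemma tsum_split (f : ℕ → ℝ≥0∞) {n1 n2 : ℕ} (h : n1 ≤ n2) :
    ∑' n, f n = (∑ n ∈ Finset.range n1, f n) + (∑ n ∈ Finset.Icc n1 n2, f n) +
      ∑' k, f (k + (n2 + 1)) := by
  have h1 := (ENNReal.summable (f := fun n => f (n + (n2 + 1)))).sum_add_tsum_nat_add'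
    (f := f) (k := n2 + 1)
  rw [← h1]
  congr 1
  rw [Finset.range_eq_Ico, Finset.range_eq_Ico]
  have h2 : Finset.Icc n1 n2 = Finset.Ico n1 (n2 + 1) := by
    ext a; simp only [Finset.mem_Icc, Finset.mem_Ico]; omega
  rw [h2]
  exact (Finset.sum_Ico_consecutive f (Nat.zero_le n1) (by omega)).symm

open Classical in
theorem main_ineq (hL : Lvl L) {q w0 εs : ℝ≥0∞} (hq0 : q ≠ 0) (hqt : q ≠ ⊤)
    (hq : ∀ a, q ≤ fu μ L a) (hw1 : w0 ≤ 1)
    (h1 : ∑' b : Ir L, wt μ b.1 = 1)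
    {M R n1 n2 m : ℕ} (hM : 0 < M) (hn : n1 ≤ n2) (hm : m ≤ n1) {l1 h : ℝ} (hl1 : 0 ≤ l1)
    (h0 : 0 ≤ h) (hhM : h ≤ M) (hTd : ∀ z l1, ∑' ρ : Td L l1 z, wt μ ρ.1 ≤ 1)
    (hTs : ∀ (z : Site d) (t : ℝ), L z < t → Td L l1 z ⊆ Ds L t z)
    (hTw : ∀ z, w0 ≤ ∑' ρ : Td L l1 z, wt μ ρ.1)
    (hs : ∀ z : Site d, (M : ℝ) ≤ L z →
      ∑' π : Fp L (M : ℝ), wt μ π.1 * kill μ (Td L l1 z) z (exits 0 π.1) ≤ εs)
    {lam x : ℝ} (hlam : 0 < lam) (hlam1 : lam ≤ 1) (hx : 0 ≤ x) :
    (M + 1) * (w0 * q) ≤ (M + 1) * ((∑' π : Rch L (2 * M + 2) R, wt μ π.1) +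
      ((ENNReal.ofReal lam)⁻¹ * ∑' γ : Fp L h, Eb μ L (2 * M + 2) γ.1 +
        (Bf L M R).card *
          ENNReal.ofReal (2 * Real.exp (-x / (2 * (lam * (1 + Real.log (1 / lam))))))) +
      ENNReal.ofReal x) + (n1 + ((n2 + 1) * (ENNReal.ofReal (Real.exp h) * rho μ L ^ m +
        (ENNReal.ofReal M)⁻¹ * (m * mh μ L) + q⁻¹ * εs) +
        ∑ n ∈ Finset.Icc n1 n2, tv (kap μ L) n m) +
        ENNReal.ofReal (Real.exp (2 * M + 1)) * (rho μ L ^ (n2 + 1) * (1 - rho μ L)⁻¹)) := by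
  set E1 : ℝ≥0∞ := (∑' π : Rch L (2 * M + 2) R, wt μ π.1) +
      ((ENNReal.ofReal lam)⁻¹ * ∑' γ : Fp L h, Eb μ L (2 * M + 2) γ.1 +
        (Bf L M R).card *
          ENNReal.ofReal (2 * Real.exp (-x / (2 * (lam * (1 + Real.log (1 / lam))))))) +
      ENNReal.ofReal x with hE1
  set f : ℕ → ℝ≥0∞ := fun n => En μ L n (fun l => if (M : ℝ) ≤ L (dsp l) ∧
    L (dsp l) < 2 * M + 1 then Phi μ L l1 h l else 0) with hf
  have hPhi1 : ∀ l, Phi μ L l1 h l ≤ 1 := fun l => (kill_le_tsum μ _ _ _).trans (hTd _ _)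
  have hf1 : ∀ n, f n ≤ 1 := by
    intro n
    calc f n ≤ En μ L n (fun _ => 1) := by
          refine En_mono μ n fun l => ?_
          split_ifs
          · exact hPhi1 l
          · exact zero_le
      _ = 1 := En_const μ h1 n 1
  have hf2 : ∀ n, f n ≤ ENNReal.ofReal (Real.exp (2 * M + 1)) * rho μ L ^ n := by
    intro n
    refine le_trans ?_ (En_low μ n (2 * M + 1))
    refine En_mono μ n fun l => ?_
    by_cases hl : (M : ℝ) ≤ L (dsp l) ∧ L (dsp l) < 2 * M + 1
    · rw [if_pos hl, if_pos hl.2]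
      exact hPhi1 l
    · rw [if_neg hl]
      exact zero_le
  have step1 : ∀ N ∈ Finset.Icc M (2 * M), w0 * q ≤
      E1 + ∑' π : Fp L (N : ℝ), wt μ π.1 * Phi μ L l1 h π.1 := by
    intro N hN
    rw [Finset.mem_Icc] at hN
    exact endN μ hL hq hw1 hN.1 hN.2 hl1 h0 hhM hTd hTs hTw hlam hlam1 hx
  have step2 : (M + 1) * (w0 * q) ≤ (M + 1) * E1 + ∑' n, f n := by
    have hc : (Finset.Icc M (2 * M)).card = M + 1 := by simp; omega
    calc ((M : ℝ≥0∞) + 1) * (w0 * q) = ∑ N ∈ Finset.Icc M (2 * M), w0 * q := by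
          rw [Finset.sum_const, hc, nsmul_eq_mul]
          push_cast
          rfl
      _ ≤ ∑ N ∈ Finset.Icc M (2 * M), (E1 + ∑' π : Fp L (N : ℝ), wt μ π.1 * Phi μ L l1 h π.1) :=
          Finset.sum_le_sum step1
      _ = (M + 1) * E1 + ∑ N ∈ Finset.Icc M (2 * M), ∑' π : Fp L (N : ℝ),
            wt μ π.1 * Phi μ L l1 h π.1 := by
          rw [Finset.sum_add_distrib, Finset.sum_const, hc, nsmul_eq_mul]
          push_cast
          rfl
      _ ≤ _ := by
          gcongr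
          exact sum_Fp_le μ hL M _
  refine step2.trans ?_
  gcongr
  rw [tsum_split f hn]
  gcongr
  · calc ∑ n ∈ Finset.range n1, f n ≤ ∑ n ∈ Finset.range n1, 1 :=
          Finset.sum_le_sum fun n _ => hf1 n
      _ = n1 := by simp
  · calc ∑ n ∈ Finset.Icc n1 n2, f n
        ≤ ∑ n ∈ Finset.Icc n1 n2, ((ENNReal.ofReal (Real.exp h) * rho μ L ^ m +
          (ENNReal.ofReal M)⁻¹ * (m * mh μ L) + q⁻¹ * εs) + tv (kap μ L) n m) := by
          refine Finset.sum_le_sum fun n hn' => ?_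
          rw [Finset.mem_Icc] at hn'
          refine (mid μ hL hq0 hqt hq h1 hTd (hm.trans hn'.1) hs).trans ?_
          gcongr
          · exact En_low μ m h
          · exact En_high μ h1 m (by exact_mod_cast hM)
      _ = (Finset.Icc n1 n2).card * (ENNReal.ofReal (Real.exp h) * rho μ L ^ m +
          (ENNReal.ofReal M)⁻¹ * (m * mh μ L) + q⁻¹ * εs) +
          ∑ n ∈ Finset.Icc n1 n2, tv (kap μ L) n m := by
          rw [Finset.sum_add_distrib, Finset.sum_const, nsmul_eq_mul]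
      _ ≤ _ := by
          gcongr
          have : (Finset.Icc n1 n2).card ≤ n2 + 1 := by simp; try omega
          exact_mod_cast this
  · calc ∑' k, f (k + (n2 + 1))
        ≤ ∑' k, ENNReal.ofReal (Real.exp (2 * M + 1)) * (rho μ L ^ (n2 + 1) * rho μ L ^ k) := by
          refine ENNReal.tsum_le_tsum fun k => ?_
          refine (hf2 _).trans (le_of_eq ?_)
          rw [pow_add, mul_comm (rho μ L ^ k)]
      _ = _ := by
          rw [ENNReal.tsum_mul_left, ENNReal.tsum_mul_left, ENNReal.tsum_geometric]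

end Vale.Agent.N147X.Z.Cr
end

section

open MeasureTheory Filter Topology
open scoped ENNReal

namespace Vale.Agent.N147X.Z.Cr

/-- Choice of the threshold: the union bound over a polynomial box is affordable. -/
lemma box_small {x : ℝ} (hx : 0 < x) (D : ℕ) : ∃ c' : ℝ, 0 < c' ∧ ∀ δ : ℝ, 0 < δ →
    ∀ᶠ j : ℕ in atTop, 0 < c' / ((j : ℝ) * Real.log j) ∧ c' / ((j : ℝ) * Real.log j) ≤ 1 ∧
      Real.exp ((j + 2) * D) * (2 * Real.exp (-x / (2 * (c' / ((j : ℝ) * Real.log j) *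
        (1 + Real.log (1 / (c' / ((j : ℝ) * Real.log j)))))))) ≤ δ := by
  set c' : ℝ := x / (6 * (3 * D + 1)) with hc'
  have hD : (0 : ℝ) ≤ D := Nat.cast_nonneg D
  have hc0 : 0 < c' := by (clear * - hx; positivity)
  refine ⟨c', hc0, fun δ hδ => ?_⟩
  have hcast : Tendsto (fun j : ℕ => (j : ℝ)) atTop atTop := tendsto_natCast_atTop_atTop
  have hlog : Tendsto (fun j : ℕ => Real.log (j : ℝ)) atTop atTop :=
    Real.tendsto_log_atTop.comp hcast
  have hexp : Tendsto (fun j : ℕ => 2 * Real.exp (-(j : ℝ))) atTop (𝓝 (2 * 0)) :=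
    (Real.tendsto_exp_neg_atTop_nhds_zero.comp hcast).const_mul 2
  rw [mul_zero] at hexp
  filter_upwards [hcast.eventually_ge_atTop 3, hcast.eventually_ge_atTop c',
    hlog.eventually_ge_atTop (1 + Real.log (1 / c')), hlog.eventually_ge_atTop 1,
    hexp.eventually_le_const hδ] with j h3 hjc hl1 hl2 hd
  have hj0 : (0 : ℝ) < j := by linarith only [h3]
  have hlj : 0 < Real.log j := by linarith only [hl2]
  have hp : 0 < (j : ℝ) * Real.log j := by (clear * - h3 hl2; positivity)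
  set lam : ℝ := c' / ((j : ℝ) * Real.log j) with hlam
  have hlam0 : 0 < lam := by (clear * - hx h3 hl2; positivity)
  have hlam1 : lam ≤ 1 := by
    rw [hlam, div_le_one hp]
    nlinarith only [hjc, hl2]
  refine ⟨hlam0, hlam1, ?_⟩
  have hlogl : Real.log (1 / lam) = Real.log j + Real.log (Real.log j) + Real.log (1 / c') := by
    have : 1 / lam = (j : ℝ) * Real.log j * (1 / c') := by
      rw [hlam]
      (clear * - hl2 h3 hc0; field_simp)
    rw [this, Real.log_mul hp.ne' (by (clear * - hx; positivity)), Real.log_mul hj0.ne' hlj.ne']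
  have hll : Real.log (Real.log j) ≤ Real.log j := by
    have := Real.log_le_sub_one_of_pos hlj
    linarith only [this]
  have h5 : 1 + Real.log (1 / lam) ≤ 3 * Real.log j := by
    rw [hlogl]
    linarith only [hl1, hll]
  have h6 : 0 ≤ Real.log (1 / lam) := by
    apply Real.log_nonneg
    rw [le_div_iff₀ hlam0]
    linarith only [hlam1]
  have h7 : lam * (1 + Real.log (1 / lam)) ≤ 3 * c' / j := by
    calc lam * (1 + Real.log (1 / lam)) ≤ lam * (3 * Real.log j) := by (clear * - h5 hx h3 hl2; gcongr)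
      _ = 3 * c' / j := by
        rw [hlam]
        (clear * - hl2 h3 hc0; field_simp)
  have h8 : 0 < lam * (1 + Real.log (1 / lam)) := by (clear * - hx h3 hl2 h6; positivity)
  have h9 : (3 * D + 1) * (j : ℝ) ≤ x / (2 * (lam * (1 + Real.log (1 / lam)))) := by
    rw [le_div_iff₀ (by (clear * - hx h3 hl2 h6; positivity))]
    calc (3 * D + 1) * (j : ℝ) * (2 * (lam * (1 + Real.log (1 / lam))))
        ≤ (3 * D + 1) * (j : ℝ) * (2 * (3 * c' / j)) := by (clear * - h7 h3; gcongr)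
      _ = x := by
        rw [hc']
        field_simp
        norm_num
  have h10 : -x / (2 * (lam * (1 + Real.log (1 / lam)))) ≤ -((3 * D + 1) * (j : ℝ)) := by
    rw [neg_div]
    linarith only [h9]
  calc Real.exp ((j + 2) * D) * (2 * Real.exp (-x / (2 * (lam * (1 + Real.log (1 / lam))))))
      ≤ Real.exp ((j + 2) * D) * (2 * Real.exp (-((3 * D + 1) * (j : ℝ)))) := by
        (clear * - h10; gcongr)
    _ = 2 * Real.exp ((j + 2) * D + -((3 * D + 1) * (j : ℝ))) := by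
        rw [Real.exp_add]
        ring
    _ ≤ 2 * Real.exp (-(j : ℝ)) := by
        gcongr
        nlinarith only [h3]
    _ ≤ δ := hd

variable {d : ℕ} [Steps d] (μ : Measure (Row d)) [IsProbabilityMeasure μ] {L : Site d →+ ℝ}

lemma card_bx (d R : ℕ) : (bx d R).card = (2 * R + 1) ^ d := by
  unfold bx
  rw [Fintype.card_piFinset]
  simp only [Int.card_Icc, Finset.prod_const, Finset.card_univ, Fintype.card_fin]
  congr 1
  (clear * -; omega)

lemma card_Bf_le (M R : ℕ) : (Bf L M R).card ≤ (2 * R + 1) ^ d := by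
  classical
  rw [← card_bx]
  unfold Bf
  exact Finset.card_filter_le _ _

/-- The box at scale `2 ^ j`. -/
lemma card_Bf_exp (K j : ℕ) :
    ((Bf L (2 ^ j) ((2 * 2 ^ j + 2) ^ K)).card : ℝ≥0∞) ≤
      ENNReal.ofReal (Real.exp ((j + 2) * ((K + 1) * d + d : ℕ))) := by
  have h1 : (2 * (2 * 2 ^ j + 2) ^ K + 1) ^ d ≤ 2 ^ ((j + 2) * ((K + 1) * d + d)) := by
    have h2 : 2 * 2 ^ j + 2 ≤ 2 ^ (j + 2) := by
      have : 1 ≤ 2 ^ j := Nat.one_le_two_pow
      rw [pow_add]
      omega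
    have h3 : (2 * 2 ^ j + 2) ^ K ≤ 2 ^ ((j + 2) * K) := by
      rw [pow_mul]
      exact Nat.pow_le_pow_left h2 K
    have h4 : 2 * (2 * 2 ^ j + 2) ^ K + 1 ≤ 2 ^ ((j + 2) * (K + 2)) := by
      have h5 : 1 ≤ 2 ^ ((j + 2) * K) := Nat.one_le_two_pow
      calc 2 * (2 * 2 ^ j + 2) ^ K + 1 ≤ 4 * 2 ^ ((j + 2) * K) := by omega
        _ = 2 ^ ((j + 2) * K + 2) := by rw [pow_add]; ring
        _ ≤ 2 ^ ((j + 2) * (K + 2)) := Nat.pow_le_pow_right (by norm_num) (by nlinarith only [])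
    calc (2 * (2 * 2 ^ j + 2) ^ K + 1) ^ d ≤ (2 ^ ((j + 2) * (K + 2))) ^ d :=
          Nat.pow_le_pow_left h4 d
      _ = 2 ^ ((j + 2) * ((K + 1) * d + d)) := by
          rw [← pow_mul]
          congr 1
          ring
  have h6 := (card_Bf_le (L := L) (2 ^ j) ((2 * 2 ^ j + 2) ^ K)).trans h1
  have h7 : ((Bf L (2 ^ j) ((2 * 2 ^ j + 2) ^ K)).card : ℝ) ≤
      Real.exp ((j + 2) * ((K + 1) * d + d : ℕ)) := by
    calc ((Bf L (2 ^ j) ((2 * 2 ^ j + 2) ^ K)).card : ℝ)
        ≤ ((2 ^ ((j + 2) * ((K + 1) * d + d)) : ℕ) : ℝ) := by exact_mod_cast h6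
      _ = (2 : ℝ) ^ ((j + 2) * ((K + 1) * d + d)) := by push_cast; rfl
      _ ≤ (Real.exp 1) ^ ((j + 2) * ((K + 1) * d + d)) := by
          gcongr
          have := Real.add_one_le_exp (1 : ℝ)
          linarith only [this]
      _ = _ := by
          rw [← Real.exp_nat_mul]
          push_cast
          ring_nf
  rw [← ENNReal.ofReal_natCast]
  exact ENNReal.ofReal_le_ofReal h7

end Vale.Agent.N147X.Z.Cr
end

section

/-!
# Atoms

The renewal function of the displacement of the blocks tends to zero at infinity.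
-/

open MeasureTheory
open scoped ENNReal

namespace Vale.Agent.N147X.Z

variable {d : ℕ} [Steps d] (μ : Measure (Row d)) [IsProbabilityMeasure μ]

namespace Atm

lemma free_Fp (L : Site d →+ ℝ) (a : ℝ) : Free (Fp L a) := by
  intro l hl b hb
  by_contra hne
  have h1 : dsp l ∈ exits 0 (l ++ b) := mem_exits.2 ⟨l, b, rfl, hne, by simp⟩
  have h2 := (hb.1 _ h1).2
  exact absurd h2 (not_lt.2 hl.2)

/-- The mass of the law of a block is at most one. -/
lemma mass_kap_le {L : Site d →+ ℝ} (hL : Lvl L) {q : ℝ≥0∞} (hq0 : q ≠ 0)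
    (hq : ∀ a, q ≤ fu μ L a) : (kap μ L).mass ≤ 1 := by
  classical
  have key : ∀ m : ℕ, q * (kap μ L).mass ^ m ≤ 1 := by
    intro m
    rw [← Cv.mass_pow, Cv.mass, ENNReal.tsum_eq_iSup_sum, ENNReal.mul_iSup]
    refine iSup_le fun s => ?_
    obtain ⟨M, hM⟩ : ∃ M : ℝ, ∀ x ∈ s, L x ≤ M := by
      refine ⟨∑ x ∈ s, |L x|, fun x hx => ?_⟩
      exact (le_abs_self _).trans (Finset.single_le_sum (f := fun x => |L x|)
        (fun _ _ => abs_nonneg _) hx)
    calc q * ∑ x ∈ s, ((kap μ L) ^ m).v x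
        ≤ q * ∑' x, ((kap μ L) ^ m).v x * (if L x ≤ M then 1 else 0) := by
          gcongr
          refine le_trans (Finset.sum_le_sum fun x hx => ?_) (ENNReal.sum_le_tsum s)
          rw [if_pos (hM x hx), mul_one]
      _ = q * En μ L m (fun l => if L (dsp l) ≤ M then 1 else 0) := by
          rw [← En_dsp μ m (fun x => if L x ≤ M then 1 else 0)]
      _ ≤ ∑' π : Fp L M, wt μ π.1 * 1 :=
          En_le_Fp μ hL hq m M (fun _ => 1) (fun _ _ => le_rfl)
      _ ≤ 1 := by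
          simp only [mul_one]
          exact tsum_wt_le_one μ (free_Fp L _)
  by_contra hcon
  rw [not_le] at hcon
  have h1 := ENNReal.tendsto_pow_atTop_nhds_top_iff.2 hcon
  have h2 : q⁻¹ < ⊤ := ENNReal.inv_lt_top.2 (pos_iff_ne_zero.2 hq0)
  obtain ⟨m, hm⟩ := (h1.eventually (lt_mem_nhds h2)).exists
  have h3 : (kap μ L).mass ^ m ≤ q⁻¹ := by
    rw [ENNReal.le_inv_iff_mul_le, mul_comm]
    exact key m
  exact absurd hm (not_lt.2 h3)

omit [IsProbabilityMeasure μ] in
lemma le_kap {L : Site d →+ ℝ} {b : List (Dir d)} (hb : b ∈ Ir L) :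
    wt μ b ≤ (kap μ L).v (dsp b) := by
  classical
  simp only [kap]
  refine le_trans ?_ (ENNReal.le_tsum ⟨b, hb⟩)
  rw [if_pos rfl]

/-- the weight of the bridges with end in a unit window -/
lemma Br_window {L : Site d →+ ℝ} {u : Dir d} (hu : L (vec u) = 1) (t : ℝ) :
    (∑' l : Br L, wt μ l.1 * (if t ≤ L (dsp l.1) ∧ L (dsp l.1) < t + 1 then 1 else 0)) *
      wt μ [u] ≤ 1 := by
  classical
  rw [← ENNReal.tsum_mul_right]
  have e1 : ∀ l : Br L, wt μ l.1 * (if t ≤ L (dsp l.1) ∧ L (dsp l.1) < t + 1 then 1 else 0) *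
      wt μ [u] ≤ ∑' π : Fp L (t + 1), (if π.1 = l.1 ++ [u] then wt μ π.1 else 0) := by
    intro l
    by_cases h : t ≤ L (dsp l.1) ∧ L (dsp l.1) < t + 1
    · rw [if_pos h, mul_one]
      have hdis : Disjoint (exits 0 l.1) (exits (dsp l.1) [u]) := by
        rw [Finset.disjoint_left]
        intro x hx hx'
        simp only [exits_cons, exits_nil, insert_empty_eq, Finset.mem_singleton] at hx'
        rw [hx'] at hx
        exact absurd (l.2 _ hx).2 (lt_irrefl _)
      have hmem : l.1 ++ [u] ∈ Fp L (t + 1) := by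
        constructor
        · intro x hx
          rw [exits_append, Finset.mem_union] at hx
          rcases hx with hx | hx
          · have h1 := l.2 _ hx
            exact ⟨h1.1, h1.2.trans h.2⟩
          · simp only [exits_cons, exits_nil, insert_empty_eq, Finset.mem_singleton,
              zero_add] at hx
            rw [hx]
            exact ⟨Br_nonneg l.2, h.2⟩
        · rw [dsp_append, map_add]
          simp only [dsp_cons, dsp_nil, add_zero, hu]
          linarith only [h]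
      rw [← wt_append μ hdis]
      refine le_trans ?_ (ENNReal.le_tsum ⟨l.1 ++ [u], hmem⟩)
      rw [if_pos rfl]
    · rw [if_neg h, mul_zero, zero_mul]
      exact zero_le
  calc _ ≤ ∑' l : Br L, ∑' π : Fp L (t + 1), (if π.1 = l.1 ++ [u] then wt μ π.1 else 0) :=
        ENNReal.tsum_le_tsum e1
    _ = ∑' π : Fp L (t + 1), ∑' l : Br L, (if π.1 = l.1 ++ [u] then wt μ π.1 else 0) :=
        ENNReal.tsum_comm
    _ ≤ ∑' π : Fp L (t + 1), wt μ π.1 := by
        refine ENNReal.tsum_le_tsum fun π => ?_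
        by_cases h : ∃ l : Br L, π.1 = l.1 ++ [u]
        · obtain ⟨l, hl⟩ := h
          rw [tsum_eq_single l]
          · rw [if_pos hl]
          · intro l' hl'
            rw [if_neg]
            intro h2
            rw [hl] at h2
            exact hl' (Subtype.ext (List.append_cancel_right h2).symm)
        · push Not at h
          have : ∀ l : Br L, (if π.1 = l.1 ++ [u] then wt μ π.1 else 0) = 0 := fun l =>
            if_neg (h l)
          simp only [this, tsum_zero]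
          exact zero_le
    _ ≤ 1 := tsum_wt_le_one μ (free_Fp L _)

omit [IsProbabilityMeasure μ] in
lemma single_Ir {L : Site d →+ ℝ} {u : Dir d} (hu : 0 < L (vec u)) : [u] ∈ Ir L := by
  refine ⟨?_, by simp, ?_⟩
  · intro x hx
    simp only [exits_cons, exits_nil, insert_empty_eq, Finset.mem_singleton] at hx
    rw [hx]
    simpa using hu
  · intro a b h _ _
    have h1 := congrArg List.length h
    simp only [List.length_cons, List.length_nil, List.length_append] at h1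
    rcases Nat.eq_zero_or_pos a.length with h2 | h2
    · exact Or.inl (List.length_eq_zero_iff.1 h2)
    · exact Or.inr (List.length_eq_zero_iff.1 (by (clear * - h1 h2; omega)))

omit [IsProbabilityMeasure μ] in
lemma pair_Ir {L : Site d →+ ℝ} {u v : Dir d} (hv : L (vec v) = 0) (hu : 0 < L (vec u)) :
    [v, u] ∈ Ir L := by
  refine ⟨?_, by simp, ?_⟩
  · intro x hx
    simp only [exits_cons, exits_nil, insert_empty_eq, Finset.mem_singleton,
      Finset.mem_insert, zero_add] at hx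
    rcases hx with rfl | rfl
    · simpa [hv] using hu
    · simpa only [hv, Std.le_refl, dsp_cons, dsp_nil, add_zero, map_add, zero_add, true_and] using hu
  · intro a b h ha _
    match a, h, ha with
    | [], _, _ => exact Or.inl rfl
    | [w], h, ha =>
      exfalso
      simp only [List.cons_append, List.nil_append, List.cons.injEq] at h
      have h2 := (ha 0 (by simp only [exits_cons, zero_add, exits_nil, insert_empty_eq, Finset.mem_singleton])).2
      rw [← h.1] at h2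
      simp only [map_zero, dsp_cons, dsp_nil, add_zero, hv, lt_self_iff_false] at h2
    | w :: w' :: a, h, _ =>
      right
      simp only [List.cons_append, List.cons.injEq] at h
      exact (List.append_eq_nil_iff.1 h.2.2.symm).2

end Atm

theorem atoms {L : Site d →+ ℝ} (hL : Lvl L) (hd : NonCol L) (hμ : Eff μ) {q : ℝ≥0∞}
    (hq0 : q ≠ 0) (hq : ∀ a, q ≤ fu μ L a) (ε : ℝ≥0∞) (hε : ε ≠ 0) :
    ∃ A : ℝ, ∀ z : Site d, A ≤ L z → ∑' n : ℕ, ((kap μ L) ^ n).v z ≤ ε := by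
  classical
  obtain ⟨u, hu, v, i, hvi⟩ := hd
  have hu0 : 0 < L (vec u) := by rw [hu]; exact one_pos
  let φ : Site d →+ ℝ :=
    { toFun := fun x => (x i : ℝ) - L x * vec u i
      map_zero' := by simp
      map_add' := fun x y => by
        simp only [Pi.add_apply, Int.cast_add, map_add]
        ring }
  have hφ : ∀ x, φ x = (x i : ℝ) - L x * vec u i := fun _ => rfl
  have hφu : φ (vec u) = 0 := by rw [hφ, hu, one_mul, sub_self]
  have hφv : φ (vec v) ≠ 0 := by rw [hφ]; exact sub_ne_zero.2 hvi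
  obtain ⟨b₁, hb₁, hw₁, hφ₁⟩ : ∃ b₁ ∈ Ir L, wt μ b₁ ≠ 0 ∧ φ (dsp b₁) ≠ 0 := by
    obtain ⟨k, b, hb, hw, hdb⟩ := exists_bridge μ hμ hu (u := v) fun j hj => hφv (by
      rw [hj, map_zsmul, hφu, smul_zero])
    refine exists_block μ φ hb hw ?_
    rwa [hdb, map_add, map_nsmul, hφu, smul_zero, add_zero]
  have hL1 : 0 < L (dsp b₁) := Br_pos hb₁.1 hb₁.2.1
  have hmass : (kap μ L).mass ≤ 1 := Atm.mass_kap_le μ hL hq0 hq
  have hwu : wt μ [u] ≠ 0 := wt_ne_zero μ hμ _
  have hwin : ∀ t : ℝ, ∑' z, (if t ≤ L z ∧ L z < t + 1 then Atm.Gr (kap μ L) z else 0) ≤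
      (wt μ [u])⁻¹ := by
    intro t
    set f : Site d → ℝ≥0∞ := fun z => if t ≤ L z ∧ L z < t + 1 then 1 else 0 with hf
    have h1 : ∑' z, (if t ≤ L z ∧ L z < t + 1 then Atm.Gr (kap μ L) z else 0) =
        ∑' n, En μ L n (fun l => f (dsp l)) := by
      have e1 : ∀ z, (if t ≤ L z ∧ L z < t + 1 then Atm.Gr (kap μ L) z else 0) =
          ∑' n : ℕ, ((kap μ L) ^ n).v z * f z := by
        intro z
        rw [ENNReal.tsum_mul_right]
        by_cases h : t ≤ L z ∧ L z < t + 1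
        · rw [if_pos h, hf]
          simp only
          rw [if_pos h, mul_one]
          rfl
        · rw [if_neg h, hf]
          simp only
          rw [if_neg h, mul_zero]
      rw [tsum_congr e1, ENNReal.tsum_comm]
      refine tsum_congr fun n => ?_
      rw [En_dsp]
    rw [h1, ← tsum_Br_words μ]
    have h2 := Atm.Br_window μ hu t
    rw [ENNReal.le_inv_iff_mul_le]
    exact h2
  have h₁ : (kap μ L).v (dsp b₁) ≠ 0 := fun h0 =>
    hw₁ (nonpos_iff_eq_zero.1 ((Atm.le_kap μ hb₁).trans h0.le))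
  have h₂ : (kap μ L).v (dsp [u]) ≠ 0 := fun h0 =>
    hwu (nonpos_iff_eq_zero.1 ((Atm.le_kap μ (Atm.single_Ir hu0)).trans h0.le))
  refine Atm.Gr_small L (kap μ L) hmass (C1 := (wt μ [u])⁻¹) ?_ hwin h₁ h₂ hL1 ?_ ?_ ?_ hε
  · exact ENNReal.inv_ne_top.2 hwu
  · simpa only [dsp_cons, dsp_nil, add_zero] using hu0
  · simp [hu]
  · intro a b a' b' h
    have e1 : dsp [u] = vec u := by simp
    rw [e1] at h
    have hj := congrArg φ h
    rw [map_add, map_add, map_nsmul, map_nsmul, map_nsmul, map_nsmul, hφu, smul_zero, smul_zero,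
      add_zero, add_zero, nsmul_eq_mul, nsmul_eq_mul] at hj
    have ha : a = a' := by exact_mod_cast mul_right_cancel₀ hφ₁ hj
    subst ha
    have hi := congrArg L (add_left_cancel h)
    rw [map_nsmul, map_nsmul, hu, nsmul_eq_mul, nsmul_eq_mul, mul_one, mul_one] at hi
    exact ⟨rfl, by exact_mod_cast hi⟩

end Vale.Agent.N147X.Z
end

section

/-!
# A far downward path does not meet the beginning of the upward path
-/

set_option linter.all false

open MeasureTheory
open scoped ENNReal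

namespace Vale.Agent.N147X.Z

variable {d : ℕ} [Steps d] (μ : Measure (Row d)) [IsProbabilityMeasure μ]

namespace SF

open Classical in
/-- Only the second half of a downward path can meet a low set. -/
lemma kill_Td_le {L : Site d →+ ℝ} {l1 : ℝ} {z : Site d} {S : Finset (Site d)}
    (hS : ∀ x ∈ S, L x ≤ l1) :
    kill μ (Td L l1 z) z S ≤ ∑' β : Fp (-L) (L z - l1), wt μ β.1 *
      kill μ (Fp (-L) (L (z + dsp β.1) + 1)) (z + dsp β.1) S := by
  let f : (Σ β₁ : Fp (-L) (L z - l1), Fp (-L) (L (z + dsp β₁.1) + 1)) → Td L l1 z :=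
    fun β => ⟨β.1.1 ++ β.2.1, β.1.1, β.1.2, β.2.1, β.2.2, rfl⟩
  have hf : Function.Surjective f := by
    rintro ⟨_, β₁, h1, β₂, h2, rfl⟩
    exact ⟨⟨⟨β₁, h1⟩, ⟨β₂, h2⟩⟩, rfl⟩
  rw [kill]
  refine (ENNReal.tsum_le_tsum_comp_of_surjective hf _).trans ?_
  rw [ENNReal.tsum_sigma']
  refine ENNReal.tsum_le_tsum fun β₁ => ?_
  rw [kill, ← ENNReal.tsum_mul_left]
  refine ENNReal.tsum_le_tsum fun β₂ => ?_
  change (if Disjoint (exits z (β₁.1 ++ β₂.1)) S then 0 else wt μ (β₁.1 ++ β₂.1)) ≤ _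
  have h1 : Disjoint (exits z β₁.1) S := by
    rw [Finset.disjoint_left]
    intro x hx hxS
    rw [mem_exits_shift] at hx
    have ha := (β₁.2.1 _ hx).2
    rw [AddMonoidHom.neg_apply, map_sub] at ha
    have := hS x hxS
    linarith
  by_cases h2 : Disjoint (exits (z + dsp β₁.1) β₂.1) S
  · have h3 : Disjoint (exits z (β₁.1 ++ β₂.1)) S := by
      rw [exits_append, Finset.disjoint_union_left]
      exact ⟨h1, h2⟩
    rw [if_pos h3]
    exact zero_le
  · have h3 : ¬ Disjoint (exits z (β₁.1 ++ β₂.1)) S := by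
      rw [exits_append, Finset.disjoint_union_left]
      exact fun h => h2 h.2
    rw [if_neg h2, if_neg h3, wt_append μ (Td_disjoint β₁.2 β₂.2)]

open Classical in
/-- A first passage path that leaves the box has a prefix that reaches the boundary of the box
inside the slab. -/
lemma out_le {L : Site d →+ ℝ} {a : ℝ} {N R : ℕ} (ha : a ≤ N) :
    ∑' β : Fp L a, (if exits 0 β.1 ⊆ bx d R then 0 else wt μ β.1) ≤
      ∑' π : Rch L (N : ℝ) R, wt μ π.1 := by
  have key : ∀ β ∈ Fp L a, ¬ exits 0 β ⊆ bx d R →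
      ∃ π ∈ Rch L (N : ℝ) R, ∃ c, β = π ++ c := by
    intro β hβ hb
    rw [Finset.not_subset] at hb
    obtain ⟨x, hx, hxb⟩ := hb
    rw [mem_exits_take] at hx
    have hex : ∃ i, i < β.length ∧ dsp (β.take i) ∉ bx d R := by
      obtain ⟨i, hi, rfl⟩ := hx
      refine ⟨i, hi, ?_⟩
      rwa [zero_add] at hxb
    have hmin := Nat.find_spec hex
    refine ⟨β.take (Nat.find hex), ⟨fun y hy => ?_, ?_, hmin.2⟩, β.drop (Nat.find hex),
      (List.take_append_drop _ _).symm⟩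
    · rw [mem_exits_take] at hy
      obtain ⟨j, hj, rfl⟩ := hy
      rw [List.length_take] at hj
      have hj1 : j < Nat.find hex := lt_of_lt_of_le hj (min_le_left _ _)
      have hj2 : j < β.length := lt_of_lt_of_le hj (min_le_right _ _)
      rw [List.take_take, min_eq_left hj1.le, zero_add]
      have hmem : dsp (β.take j) ∈ exits 0 β := by
        rw [mem_exits_take]
        exact ⟨j, hj2, by rw [zero_add]⟩
      have hlev := hβ.1 _ hmem
      refine ⟨⟨by linarith, by linarith⟩, ?_⟩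
      by_contra hc
      exact Nat.find_min hex hj1 ⟨hj2, hc⟩
    · have hmem : dsp (β.take (Nat.find hex)) ∈ exits 0 β := by
        rw [mem_exits_take]
        exact ⟨_, hmin.1, by rw [zero_add]⟩
      have hlev := hβ.1 _ hmem
      exact ⟨by linarith, by linarith⟩
  calc ∑' β : Fp L a, (if exits 0 β.1 ⊆ bx d R then 0 else wt μ β.1)
      ≤ ∑' s : (Σ π : Rch L (N : ℝ) R, {c : List (Dir d) | π.1 ++ c ∈ Fp L a}),
          wt μ (s.1.1 ++ s.2.1) := by
        have h1 : ∑' β : Fp L a, (if exits 0 β.1 ⊆ bx d R then 0 else wt μ β.1) =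
            ∑' β : {β : List (Dir d) | β ∈ Fp L a ∧ ¬ exits 0 β ⊆ bx d R}, wt μ β.1 := by
          rw [tsum_subtype (Fp L a) (fun β => if exits 0 β ⊆ bx d R then 0 else wt μ β),
            tsum_subtype {β : List (Dir d) | β ∈ Fp L a ∧ ¬ exits 0 β ⊆ bx d R}
              (fun β => wt μ β)]
          refine tsum_congr fun β => ?_
          by_cases hβ : β ∈ Fp L a
          · by_cases hb : exits 0 β ⊆ bx d R
            · rw [Set.indicator_of_mem hβ, if_pos hb, Set.indicator_of_notMem]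
              exact fun h => h.2 hb
            · rw [Set.indicator_of_mem hβ, if_neg hb, Set.indicator_of_mem]
              exact ⟨hβ, hb⟩
          · rw [Set.indicator_of_notMem hβ, Set.indicator_of_notMem]
            exact fun h => hβ h.1
        rw [h1]
        choose! pr hpr tl htl using key
        let g : {β : List (Dir d) | β ∈ Fp L a ∧ ¬ exits 0 β ⊆ bx d R} →
            (Σ π : Rch L (N : ℝ) R, {c : List (Dir d) | π.1 ++ c ∈ Fp L a}) :=
          fun β => ⟨⟨pr β.1, hpr β.1 β.2.1 β.2.2⟩, ⟨tl β.1, by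
            show pr β.1 ++ tl β.1 ∈ Fp L a
            rw [← htl β.1 β.2.1 β.2.2]
            exact β.2.1⟩⟩
        have hval : ∀ β, (g β).1.1 ++ (g β).2.1 = β.1 := fun β =>
          (htl β.1 β.2.1 β.2.2).symm
        have hg : Function.Injective g := by
          intro β β' h
          apply Subtype.ext
          rw [← hval β, ← hval β', h]
        calc ∑' β : {β : List (Dir d) | β ∈ Fp L a ∧ ¬ exits 0 β ⊆ bx d R}, wt μ β.1
            = ∑' β, wt μ ((g β).1.1 ++ (g β).2.1) := tsum_congr fun β => by rw [hval β]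
          _ ≤ _ := ENNReal.tsum_comp_le_tsum_of_injective hg
              (fun s : (Σ π : Rch L (N : ℝ) R, {c : List (Dir d) | π.1 ++ c ∈ Fp L a}) =>
                wt μ (s.1.1 ++ s.2.1))
    _ = ∑' π : Rch L (N : ℝ) R, ∑' c : {c : List (Dir d) | π.1 ++ c ∈ Fp L a},
          wt μ (π.1 ++ c.1) := ENNReal.tsum_sigma' _
    _ ≤ ∑' π : Rch L (N : ℝ) R, wt μ π.1 :=
        ENNReal.tsum_le_tsum fun π => tsum_append_le μ (Fp_free L a) π.1

open Classical in
/-- Atoms of the end of a first passage path. -/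
lemma atom_le (L : Site d →+ ℝ) (a : ℝ) (y : Site d) :
    ∑' β : Fp L a, (if dsp β.1 = y then wt μ β.1 else 0) ≤
      ∑' n : ℕ, ((kap μ L) ^ n).v y := by
  calc ∑' β : Fp L a, (if dsp β.1 = y then wt μ β.1 else 0)
      ≤ ∑' β : Br L, (if dsp β.1 = y then wt μ β.1 else 0) := by
        have hsub : Fp L a ⊆ Br L := fun l hl => Fp_subset_Br hl
        exact ENNReal.tsum_mono_subtype
          (fun β : List (Dir d) => if dsp β = y then wt μ β else 0) hsub
    _ = ∑' β : Br L, wt μ β.1 * (if dsp β.1 = y then 1 else 0) := by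
        refine tsum_congr fun β => ?_
        rw [mul_ite, mul_one, mul_zero]
    _ = ∑' n : ℕ, En μ L n (fun l => if dsp l = y then 1 else 0) :=
        tsum_Br_words μ (fun l => if dsp l = y then 1 else 0)
    _ = ∑' n : ℕ, ((kap μ L) ^ n).v y := by
        refine tsum_congr fun n => ?_
        rw [En_dsp μ n (fun x => if x = y then (1 : ℝ≥0∞) else 0), tsum_eq_single y]
        · rw [if_pos rfl, mul_one]
        · intro x hx
          rw [if_neg hx, mul_zero]

open Classical in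
/-- A fixed finite low set is met by a downward path from far above with small weight. -/
lemma fin_set {L : Site d →+ ℝ} (hL : Lvl L) (hd : Dn L) (hμ : Eff μ)
    {p : ℝ≥0∞} (hp0 : p ≠ 0) (hp : ∀ a, p ≤ fu μ (-L) a) (l1 : ℝ) (S : Finset (Site d))
    (hS : ∀ x ∈ S, L x ≤ l1) (ε : ℝ≥0∞) (hε : ε ≠ 0) :
    ∃ M0 : ℝ, ∀ z : Site d, M0 ≤ L z → kill μ (Td L l1 z) z S ≤ ε := by
  obtain ⟨c, L', hc, hL', hLn, hnc⟩ := hd
  have hp' : ∀ a, p ≤ fu μ L' a := fu_scale μ hc hL' hp
  have hε2 : ε / 2 ≠ 0 := (ENNReal.half_pos hε).ne'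
  -- the box of the set
  obtain ⟨Rs, hRs⟩ : ∃ Rs : ℕ, S ⊆ bx d Rs := by
    refine ⟨∑ x ∈ S, ∑ i, (x i).natAbs, fun x hx => ?_⟩
    rw [tl_mem_bx]
    intro i
    have h1 : (x i).natAbs ≤ ∑ i, (x i).natAbs :=
      Finset.single_le_sum (f := fun i => (x i).natAbs) (fun _ _ => Nat.zero_le _)
        (Finset.mem_univ i)
    have h2 : ∑ i, (x i).natAbs ≤ ∑ x ∈ S, ∑ i, (x i).natAbs :=
      Finset.single_le_sum (f := fun x : Site d => ∑ i, (x i).natAbs)
        (fun _ _ => Nat.zero_le _) hx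
    omega
  -- tightness
  obtain ⟨K, n0, hK⟩ := growth μ hLn hμ hp0 hp'
  obtain ⟨N, hN1, hN2, hN3⟩ : ∃ N : ℕ, n0 ≤ N ∧ c * (l1 + 1) ≤ (N : ℝ) ∧
      ((N : ℝ≥0∞) ^ 2)⁻¹ ≤ ε / 2 := by
    have ht : Filter.Tendsto (fun n : ℕ => (n : ℝ≥0∞)⁻¹) Filter.atTop (nhds 0) :=
      ENNReal.tendsto_inv_nat_nhds_zero
    have h1 : ∀ᶠ n : ℕ in Filter.atTop, (n : ℝ≥0∞)⁻¹ ≤ ε / 2 :=
      (ht.eventually (Iio_mem_nhds (ENNReal.half_pos hε))).mono fun n hn => le_of_lt hn
    obtain ⟨N1, hN1⟩ := Filter.eventually_atTop.1 h1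
    obtain ⟨N2, hN2⟩ := exists_nat_ge (c * (l1 + 1))
    refine ⟨max (max n0 N1) (max N2 1), ?_, ?_, ?_⟩
    · exact (le_max_left _ _).trans (le_max_left _ _)
    · have : (N2 : ℝ) ≤ (max (max n0 N1) (max N2 1) : ℕ) := by
        exact_mod_cast (le_max_left _ _).trans (le_max_right _ _)
      linarith
    · set m := max (max n0 N1) (max N2 1)
      have hm1 : 1 ≤ m := (le_max_right _ _).trans (le_max_right _ _)
      have hm2 : N1 ≤ m := (le_max_right _ _).trans (le_max_left _ _)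
      refine le_trans ?_ (hN1 m hm2)
      rw [ENNReal.inv_le_inv]
      have : (m : ℝ≥0∞) ≤ (m : ℝ≥0∞) * m := by
        have h : m ≤ m * m := Nat.le_mul_of_pos_right m hm1
        exact_mod_cast h
      rw [sq]
      exact this
  set R : ℕ := N ^ K with hR
  -- far cut point
  have hfar : ∀ w : Site d, L w ≤ l1 → w ∉ bx d (Rs + R) →
      kill μ (Fp (-L) (L w + 1)) w S ≤ ε / 2 := by
    intro w hw hwb
    refine le_trans ?_ ((out_le μ (L := L') (a := c * (L w + 1)) (N := N) (R := R)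
      (le_trans (mul_le_mul_of_nonneg_left (by linarith) hc.le) hN2)).trans
        ((hK N hN1).trans hN3))
    rw [← Fp_scale hc hL', kill]
    refine ENNReal.tsum_le_tsum fun β => ?_
    by_cases h1 : Disjoint (exits w β.1) S
    · rw [if_pos h1]
      exact zero_le
    · rw [if_neg h1, if_neg]
      intro hsub
      apply h1
      rw [Finset.disjoint_left]
      intro x hx hxS
      rw [mem_exits_shift] at hx
      have h2 := hsub hx
      have h3 := hRs hxS
      apply hwb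
      rw [tl_mem_bx] at h2 h3 ⊢
      intro i
      have h4 := h2 i
      have h5 := h3 i
      rw [Pi.sub_apply] at h4
      push_cast
      constructor <;> linarith [h4.1, h4.2, h5.1, h5.2]
  -- atoms
  obtain ⟨A, hA⟩ := atoms μ hLn hnc hμ hp0 hp' (ε / 2 / ((bx d (Rs + R)).card : ℝ≥0∞))
    (ENNReal.div_ne_zero.2 ⟨hε2, ENNReal.natCast_ne_top _⟩)
  refine ⟨l1 + |A| / c + 1, fun z hz => ?_⟩
  calc kill μ (Td L l1 z) z S
      ≤ ∑' β : Fp (-L) (L z - l1), wt μ β.1 *
          kill μ (Fp (-L) (L (z + dsp β.1) + 1)) (z + dsp β.1) S := kill_Td_le μ hS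
    _ ≤ ∑' β : Fp (-L) (L z - l1), (wt μ β.1 * (ε / 2) +
          if z + dsp β.1 ∈ bx d (Rs + R) then wt μ β.1 else 0) := by
        refine ENNReal.tsum_le_tsum fun β => ?_
        by_cases hb : z + dsp β.1 ∈ bx d (Rs + R)
        · rw [if_pos hb]
          refine le_add_left ?_
          calc wt μ β.1 * kill μ (Fp (-L) (L (z + dsp β.1) + 1)) (z + dsp β.1) S
              ≤ wt μ β.1 * 1 := by
                gcongr
                exact kill_le_one μ (Fp_free _ _) _ _
            _ = wt μ β.1 := mul_one _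
        · rw [if_neg hb, add_zero]
          gcongr
          refine hfar _ ?_ hb
          have h := β.2.2
          rw [AddMonoidHom.neg_apply] at h
          rw [map_add]
          linarith
    _ = (∑' β : Fp (-L) (L z - l1), wt μ β.1) * (ε / 2) +
          ∑' β : Fp (-L) (L z - l1), (if z + dsp β.1 ∈ bx d (Rs + R) then wt μ β.1 else 0) := by
        rw [ENNReal.tsum_add, ENNReal.tsum_mul_right]
    _ ≤ 1 * (ε / 2) + ε / 2 := by
        gcongr
        · exact tsum_wt_le_one μ (Fp_free _ _)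
        · calc ∑' β : Fp (-L) (L z - l1), (if z + dsp β.1 ∈ bx d (Rs + R) then wt μ β.1 else 0)
              ≤ ∑' β : Fp (-L) (L z - l1), ∑ w ∈ bx d (Rs + R),
                  (if dsp β.1 = w - z then wt μ β.1 else 0) := by
                refine ENNReal.tsum_le_tsum fun β => ?_
                by_cases hb : z + dsp β.1 ∈ bx d (Rs + R)
                · rw [if_pos hb]
                  refine le_trans ?_ (Finset.single_le_sum
                    (f := fun w => if dsp β.1 = w - z then wt μ β.1 else 0)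
                    (fun _ _ => zero_le) hb)
                  rw [if_pos (by abel)]
                · rw [if_neg hb]
                  exact zero_le
            _ = ∑ w ∈ bx d (Rs + R), ∑' β : Fp (-L) (L z - l1),
                  (if dsp β.1 = w - z then wt μ β.1 else 0) :=
                Summable.tsum_finsetSum fun _ _ => ENNReal.summable
            _ ≤ ∑ w ∈ bx d (Rs + R), (ε / 2 / ((bx d (Rs + R)).card : ℝ≥0∞)) := by
                refine Finset.sum_le_sum fun w _ => ?_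
                by_cases hw : L w ≤ l1
                · rw [← Fp_scale hc hL']
                  refine (atom_le μ L' (c * (L z - l1)) (w - z)).trans (hA _ ?_)
                  rw [hL', AddMonoidHom.neg_apply, map_sub]
                  have h1 := le_abs_self A
                  have h2 : |A| / c ≤ -(L w - L z) := by linarith
                  rw [div_le_iff₀ hc] at h2
                  linarith
                · -- no path ends there
                  refine le_of_eq_of_le ?_ zero_le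
                  rw [ENNReal.tsum_eq_zero]
                  intro β
                  rw [if_neg]
                  intro he
                  have h := β.2.2
                  rw [AddMonoidHom.neg_apply, he, map_sub] at h
                  apply hw
                  linarith
            _ = ((bx d (Rs + R)).card : ℝ≥0∞) * (ε / 2 / ((bx d (Rs + R)).card : ℝ≥0∞)) := by
                rw [Finset.sum_const, nsmul_eq_mul]
            _ ≤ ε / 2 := ENNReal.mul_div_le
    _ = ε := by rw [one_mul, ENNReal.add_halves]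

end SF

open Classical in
/-- The part of the upward path below a fixed level is met by a downward path from far above with
small weight. -/
theorem start_fin {L : Site d →+ ℝ} (hL : Lvl L) (hd : Dn L) (hμ : Eff μ)
    {p : ℝ≥0∞} (hp0 : p ≠ 0) (hp : ∀ a, p ≤ fu μ (-L) a) (l0 l1 : ℝ) (h01 : l0 ≤ l1)
    (ε : ℝ≥0∞) (hε : ε ≠ 0) :
    ∃ M0 : ℝ, ∀ z : Site d, M0 ≤ L z →
      ∑' γ : Fp L l0, wt μ γ.1 * kill μ (Td L l1 z) z (exits 0 γ.1) ≤ ε := by
  have hε2 : ε / 2 ≠ 0 := (ENNReal.half_pos hε).ne'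
  -- a finite part carries most of the weight
  have hsum : ∑' γ : Fp L l0, wt μ γ.1 ≠ ⊤ :=
    ne_top_of_le_ne_top ENNReal.one_ne_top (tsum_wt_le_one μ (Fp_free L l0))
  obtain ⟨G, hG⟩ : ∃ G : Finset (Fp L l0), ∑' γ : {γ // γ ∉ G}, wt μ γ.1.1 ≤ ε / 2 := by
    have ht := ENNReal.tendsto_tsum_compl_atTop_zero hsum
    obtain ⟨G, hG⟩ := (ht.eventually (Iio_mem_nhds (ENNReal.half_pos hε))).exists
    exact ⟨G, le_of_lt hG⟩
  set S : Finset (Site d) := G.biUnion fun γ => exits 0 γ.1 with hSdef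
  have hS : ∀ x ∈ S, L x ≤ l1 := by
    intro x hx
    rw [hSdef, Finset.mem_biUnion] at hx
    obtain ⟨γ, _, hx⟩ := hx
    have := (γ.2.1 x hx).2
    linarith
  obtain ⟨M0, hM0⟩ := SF.fin_set μ hL hd hμ hp0 hp l1 S hS (ε / 2) hε2
  refine ⟨M0, fun z hz => ?_⟩
  have h1 : ∀ γ : Fp L l0, wt μ γ.1 * kill μ (Td L l1 z) z (exits 0 γ.1) ≤
      wt μ γ.1 * (ε / 2) + {γ : Fp L l0 | γ ∉ G}.indicator (fun γ => wt μ γ.1) γ := by
    intro γ
    by_cases hγ : γ ∈ G
    · refine le_add_right (mul_le_mul_right ?_ _)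
      refine (kill_mono_right μ _ z ?_).trans (hM0 z hz)
      exact Finset.subset_biUnion_of_mem (fun γ : Fp L l0 => exits 0 γ.1) hγ
    · rw [Set.indicator_of_mem (show γ ∈ {γ : Fp L l0 | γ ∉ G} from hγ)]
      refine le_add_left ?_
      calc wt μ γ.1 * kill μ (Td L l1 z) z (exits 0 γ.1) ≤ wt μ γ.1 * 1 :=
            mul_le_mul_right (kill_le_one μ (Td_free L l1 z) z _) _
        _ = wt μ γ.1 := mul_one _
  have h2 : ∑' γ : Fp L l0, {γ : Fp L l0 | γ ∉ G}.indicator (fun γ => wt μ γ.1) γ ≤ ε / 2 := by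
    rw [← tsum_subtype {γ : Fp L l0 | γ ∉ G} (fun γ => wt μ γ.1)]
    exact hG
  calc _ ≤ ∑' γ : Fp L l0, (wt μ γ.1 * (ε / 2) +
          {γ : Fp L l0 | γ ∉ G}.indicator (fun γ => wt μ γ.1) γ) := ENNReal.tsum_le_tsum h1
    _ = (∑' γ : Fp L l0, wt μ γ.1) * (ε / 2) +
          ∑' γ : Fp L l0, {γ : Fp L l0 | γ ∉ G}.indicator (fun γ => wt μ γ.1) γ := by
        rw [ENNReal.tsum_add, ENNReal.tsum_mul_right]
    _ ≤ 1 * (ε / 2) + ε / 2 :=
        add_le_add (mul_le_mul_left (tsum_wt_le_one μ (Fp_free L l0)) _) h2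
    _ = ε := by rw [one_mul, ENNReal.add_halves]

end Vale.Agent.N147X.Z
end

section

/-!
# The START side: a fixed far site is rarely killed by the walk
-/

open MeasureTheory
open scoped ENNReal

namespace Vale.Agent.N147X.Z

variable {d : ℕ} [Steps d] (μ : Measure (Row d)) [IsProbabilityMeasure μ]

namespace StartC

open Expo

omit [IsProbabilityMeasure μ] in
open Classical in
lemma Ex_through {D : Set (Site d)} (γ c : List (Dir d))
    (hc : ∀ a b, c = a ++ b → b ≠ [] → dsp (γ ++ a) ∈ D) {n : ℕ} (hn : c.length ≤ n) :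
    wt μ (γ ++ c) ≤ Ex (wt μ) D (fun l' => if γ ++ c <+: l' then 1 else 0) n γ := by
  induction c generalizing γ n with
  | nil =>
    rw [List.append_nil]
    calc wt μ γ = Ex (wt μ) D (fun _ => 1) n γ := (Ex_one μ n γ).symm
      _ ≤ _ := Ex_mono n fun c => by
        rw [if_pos (List.prefix_append γ c)]
  | cons u c ih =>
    obtain ⟨n, rfl⟩ : ∃ n', n = n' + 1 := ⟨n - 1, by simp at hn; omega⟩
    have hD : dsp γ ∈ D := by simpa using hc [] (u :: c) rfl (by simp)
    rw [Ex_succ_mem hD]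
    have h1 := ih (γ ++ [u]) (fun a b hab hb => by
      have := hc (u :: a) b (by rw [hab]; rfl) hb
      simpa using this) (n := n) (by simpa using hn)
    have h2 : γ ++ [u] ++ c = γ ++ u :: c := by simp
    rw [h2] at h1
    exact h1.trans (Finset.single_le_sum
      (f := fun v => Ex (wt μ) D (fun l' => if γ ++ u :: c <+: l' then 1 else 0) n (γ ++ [v]))
      (fun v _ => zero_le) (Finset.mem_univ u))

omit [IsProbabilityMeasure μ] in
lemma Ex_sum {ι : Type*} {D : Set (Site d)} (s : Finset ι) (F : ι → List (Dir d) → ℝ≥0∞) (n : ℕ)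
    (l : List (Dir d)) :
    Ex (wt μ) D (fun l' => ∑ i ∈ s, F i l') n l = ∑ i ∈ s, Ex (wt μ) D (F i) n l := by
  classical
  induction s using Finset.induction_on with
  | empty =>
    simp only [Finset.sum_empty]
    have := Ex_const μ (D := D) 0 n l
    rw [zero_mul] at this
    exact this
  | insert a s ha ih =>
    simp only [Finset.sum_insert ha]
    rw [Ex_add, ih]

omit [IsProbabilityMeasure μ] in
open Classical in
/-- Weighted version. -/
lemma sum_through {D : Set (Site d)} {S : Set (List (Dir d))} (hS : Free S) (γ : List (Dir d))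
    (P : Finset (List (Dir d))) (hP : ∀ c ∈ P, γ ++ c ∈ S)
    (hD : ∀ c ∈ P, ∀ a b, c = a ++ b → b ≠ [] → dsp (γ ++ a) ∈ D)
    (v : List (Dir d) → ℝ≥0∞)
    (H : List (Dir d) → ℝ≥0∞) (hH : ∀ c ∈ P, ∀ e, v c ≤ H (γ ++ c ++ e)) {n : ℕ}
    (hn : ∀ c ∈ P, c.length ≤ n) :
    ∑ c ∈ P, wt μ (γ ++ c) * v c ≤ Ex (wt μ) D H n γ := by
  calc ∑ c ∈ P, wt μ (γ ++ c) * v c
      ≤ ∑ c ∈ P, Ex (wt μ) D (fun l' => v c * if γ ++ c <+: l' then 1 else 0) n γ := by
        refine Finset.sum_le_sum fun c hc => ?_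
        rw [Ex_mul_left, mul_comm]
        gcongr
        exact Ex_through μ γ c (hD c hc) (hn c hc)
    _ = Ex (wt μ) D (fun l' => ∑ c ∈ P, v c * if γ ++ c <+: l' then 1 else 0) n γ :=
        (Ex_sum μ P _ n γ).symm
    _ ≤ _ := by
        refine Ex_mono n fun e => ?_
        by_cases hex : ∃ c0 ∈ P, γ ++ c0 <+: γ ++ e
        · obtain ⟨c0, hc0, e0, he0⟩ := hex
          rw [Finset.sum_eq_single c0]
          · rw [if_pos ⟨e0, he0⟩, ← he0, mul_one]
            exact hH c0 hc0 e0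
          · intro c hc hne
            rw [if_neg, mul_zero]
            rintro ⟨e1, he1⟩
            apply hne
            have := (free_unique hS (hP c hc) (hP c0 hc0) (he1.trans he0.symm)).1
            exact List.append_cancel_left this
          · intro h; exact absurd hc0 h
        · have h0 : ∑ c ∈ P, (v c * if γ ++ c <+: γ ++ e then (1 : ℝ≥0∞) else 0) = 0 := by
            refine Finset.sum_eq_zero fun c hc => ?_
            rw [if_neg, mul_zero]
            intro hcc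
            exact hex ⟨c, hc, hcc⟩
          rw [h0]
          exact zero_le

/-- The paths from `0` that reach level at most `-1` for the first time. -/
def Bt (L : Site d →+ ℝ) : Set (List (Dir d)) :=
  {π | (∀ x ∈ exits 0 π, -1 < L x) ∧ L (dsp π) ≤ -1}

omit [IsProbabilityMeasure μ] in
lemma Bt_free (L : Site d →+ ℝ) : Free (Bt L) := by
  intro a ha b hab
  by_contra hb
  have h1 := hab.1 _ (end_mem_exits 0 a hb)
  rw [zero_add] at h1
  exact absurd ha.2 (not_le.2 h1)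

/-- The walk does not come back from a great height to the bottom. -/
lemma bot_small (L : Site d →+ ℝ) (ε : ℝ≥0∞) (hε : ε ≠ 0) :
    ∃ l0 : ℝ, 0 ≤ l0 ∧ ∀ t : ℝ, ∑' γ : Fp L l0, Eb μ L t γ.1 ≤ ε := by
  classical
  have hsum : ∑' π : Bt L, wt μ π.1 ≠ ⊤ :=
    ne_top_of_le_ne_top ENNReal.one_ne_top (tsum_wt_le_one μ (Bt_free L))
  have htail := ENNReal.tendsto_tsum_compl_atTop_zero hsum
  obtain ⟨s, hs⟩ := (htail.eventually_le_const (pos_iff_ne_zero.2 hε)).exists
  -- a level above all sites of the finite set of paths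
  obtain ⟨l0, hl0, hlev⟩ : ∃ l0 : ℝ, 0 ≤ l0 ∧ ∀ π ∈ s, ∀ x ∈ exits 0 (π : List (Dir d)), L x < l0 := by
    refine ⟨∑ π ∈ s, ∑ x ∈ exits 0 (π : List (Dir d)), |L x| + 1, ?_, ?_⟩
    · (clear * -; positivity)
    · intro π hπ x hx
      have h1 : |L x| ≤ ∑ x ∈ exits 0 (π : List (Dir d)), |L x| :=
        Finset.single_le_sum (f := fun x => |L x|) (fun x _ => abs_nonneg _) hx
      have h2 : ∑ x ∈ exits 0 (π : List (Dir d)), |L x| ≤
          ∑ π ∈ s, ∑ x ∈ exits 0 (π : List (Dir d)), |L x| :=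
        Finset.single_le_sum (f := fun π : Bt L => ∑ x ∈ exits 0 (π : List (Dir d)), |L x|)
          (fun π _ => Finset.sum_nonneg fun x _ => abs_nonneg _) hπ
      linarith [le_abs_self (L x)]
  refine ⟨l0, hl0, fun t => ?_⟩
  refine le_trans ?_ hs
  simp only [Eb]
  rw [← ENNReal.tsum_sigma' (fun p : (Σ γ : Fp L l0, Ds L t (dsp γ.1)) => wt μ (p.1.1 ++ p.2.1))]
  have hmem : ∀ p : (Σ γ : Fp L l0, Ds L t (dsp γ.1)), p.1.1 ++ p.2.1 ∈ Bt L := by
    rintro ⟨⟨γ, hγ⟩, ⟨ρ, hρ⟩⟩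
    refine ⟨fun x hx => ?_, ?_⟩
    · rw [exits_append, Finset.mem_union, zero_add] at hx
      rcases hx with hx | hx
      · linarith [(hγ.1 x hx).1]
      · exact (hρ.1 x hx).1
    · have := hρ.2
      rwa [← dsp_append] at this
  have hns : ∀ p : (Σ γ : Fp L l0, Ds L t (dsp γ.1)),
      (⟨p.1.1 ++ p.2.1, hmem p⟩ : Bt L) ∉ s := by
    rintro ⟨⟨γ, hγ⟩, ⟨ρ, hρ⟩⟩ hin
    have hne : ρ ≠ [] := by
      rintro rfl
      have h1 := hρ.2
      rw [dsp_nil, add_zero] at h1
      linarith [hγ.2]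
    have h2 := hlev _ hin (dsp γ) (by
      have := end_mem_exits (0 : Site d) γ hne
      rwa [zero_add] at this)
    linarith [hγ.2]
  let f : (Σ γ : Fp L l0, Ds L t (dsp γ.1)) → {π : Bt L // π ∉ s} := fun p =>
    ⟨⟨p.1.1 ++ p.2.1, hmem p⟩, hns p⟩
  have hinj : Function.Injective f := by
    rintro ⟨⟨γ, hγ⟩, ⟨ρ, hρ⟩⟩ ⟨⟨γ', hγ'⟩, ⟨ρ', hρ'⟩⟩ h
    simp only [f, Subtype.mk.injEq] at h
    obtain ⟨rfl, rfl⟩ := free_unique (Fp_free L l0) hγ hγ' h
    rfl
  exact ENNReal.tsum_comp_le_tsum_of_injective hinj (fun π => wt μ π.1.1)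

end StartC

open StartC Expo

theorem start_bound {L : Site d →+ ℝ} (hL : Lvl L) (hd : Dn L) (hμ : Eff μ)
    {q p : ℝ≥0∞} (hq0 : q ≠ 0) (hq : ∀ a, q ≤ fu μ L a) (hp0 : p ≠ 0)
    (hp : ∀ a, p ≤ fu μ (-L) a) (ε : ℝ≥0∞) (hε : ε ≠ 0) :
    ∃ l1 : ℝ, 0 ≤ l1 ∧ ∃ M0 : ℝ, ∀ M : ℝ, M0 ≤ M → ∀ z : Site d, M ≤ L z →
      ∑' π : Fp L M, wt μ π.1 * kill μ (Td L l1 z) z (exits 0 π.1) ≤ ε := by
  classical
  -- reduce to finite ε
  obtain ⟨ε', hε'0, hε't, hε'⟩ : ∃ ε' : ℝ≥0∞, ε' ≠ 0 ∧ ε' ≠ ⊤ ∧ 3 * ε' ≤ ε := by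
    rcases eq_or_ne ε ⊤ with rfl | ht
    · exact ⟨1, one_ne_zero, ENNReal.one_ne_top, le_top⟩
    · refine ⟨ε / 3, ENNReal.div_ne_zero.2 ⟨hε, by norm_num⟩, ENNReal.div_ne_top ht (by norm_num), ?_⟩
      rw [ENNReal.mul_div_cancel (by norm_num) (by norm_num)]
  -- m
  set m : ℝ := min 1 ε'.toReal with hm
  have hm0 : 0 < m := lt_min one_pos (ENNReal.toReal_pos hε'0 hε't)
  have hm1 : m ≤ 1 := min_le_left _ _
  have hmε : ENNReal.ofReal m ≤ ε' := by
    rw [← ENNReal.ofReal_toReal hε't]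
    exact ENNReal.ofReal_le_ofReal (min_le_right _ _)
  -- l0
  set lg : ℝ≥0∞ := ENNReal.ofReal (Real.log (1 / m)) with hlg
  obtain ⟨l0, hl0, hbot⟩ := bot_small μ L (ε' / (lg + 1))
    (ENNReal.div_ne_zero.2 ⟨hε'0, by finiteness⟩)
  obtain ⟨M1, hM1⟩ := start_fin μ hL hd hμ hp0 hp l0 l0 le_rfl ε' hε'0
  refine ⟨l0, hl0, max M1 (l0 + 1), fun M hM z hz => ?_⟩
  have hM1' : M1 ≤ L z := (le_max_left _ _).trans (hM.trans hz)
  have hMl : l0 + 1 ≤ M := (le_max_right _ _).trans hM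
  set T := Td L l0 z with hT
  set t : ℝ := L z + 1 with ht
  have hTs : T ⊆ Ds L t z := Td_sub hl0 (by rw [ht]; linarith)
  -- new kill
  let K : List (Dir d) → List (Dir d) → ℝ≥0∞ := fun γ l' => ∑' ρ : T,
    if Disjoint (exits z ρ.1) (exits 0 γ) ∧ ¬ Disjoint (exits z ρ.1) (sit (Db L t) l')
      then wt μ ρ.1 else 0
  have hkill : ∀ γ c, kill μ T z (exits 0 (γ ++ c)) ≤
      kill μ T z (exits 0 γ) + K γ (γ ++ c) := by
    intro γ c
    simp only [kill, K]
    rw [← ENNReal.tsum_add]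
    refine ENNReal.tsum_le_tsum fun ρ => ?_
    by_cases h1 : Disjoint (exits z ρ.1) (exits 0 (γ ++ c))
    · rw [if_pos h1]; exact zero_le
    · rw [if_neg h1]
      by_cases h2 : Disjoint (exits z ρ.1) (exits 0 γ)
      · rw [if_pos h2, zero_add, if_pos]
        refine ⟨h2, fun h3 => h1 ?_⟩
        have h4 := exits_sub_sit (Db L t) (γ ++ c) []
        rw [List.append_nil] at h4
        exact h3.mono_right h4
      · rw [if_neg h2]
        exact le_self_add
  have hKmono : ∀ γ l' e, K γ l' ≤ K γ (l' ++ e) := by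
    intro γ l' e
    refine ENNReal.tsum_le_tsum fun ρ => ?_
    by_cases h1 : Disjoint (exits z ρ.1) (exits 0 γ) ∧
        ¬ Disjoint (exits z ρ.1) (sit (Db L t) l')
    · rw [if_pos h1, if_pos]
      refine ⟨h1.1, fun h3 => h1.2 ?_⟩
      refine h3.mono_right ?_
      cases e with
      | nil => rw [List.append_nil]
      | cons u e =>
        have h4 : sit (Db L t) l' ⊆ exits 0 (l' ++ u :: e) := by
          intro x hx
          rw [sit] at hx
          split_ifs at hx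
          · rw [Finset.mem_insert] at hx
            rcases hx with rfl | hx
            · have := end_mem_exits (0 : Site d) l' (b := u :: e) (by simp)
              rwa [zero_add] at this
            · exact exits_subset_append_left _ _ _ hx
          · exact exits_subset_append_left _ _ _ hx
        have h5 := exits_sub_sit (Db L t) (l' ++ u :: e) []
        rw [List.append_nil] at h5
        exact h4.trans h5
    · rw [if_neg h1]; exact zero_le
  have hγ : ∀ γ ∈ Fp L l0, ∑' c : {c : List (Dir d) | γ ++ c ∈ Fp L M},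
      wt μ (γ ++ c.1) * K γ (γ ++ c.1) ≤ ε' * wt μ γ + lg * Eb μ L t γ := by
    intro γ hγ
    have hγD : dsp γ ∈ Db L t := by
      have h1 := Fp_dsp_lt hL (by linarith) hγ
      exact ⟨by linarith [hγ.2], by rw [ht]; linarith⟩
    rw [ENNReal.tsum_eq_iSup_sum]
    refine iSup_le fun P => ?_
    let P' : Finset (List (Dir d)) := P.map ⟨Subtype.val, Subtype.val_injective⟩
    have hP' : ∀ c ∈ P', γ ++ c ∈ Fp L M := by
      intro c hc
      rw [Finset.mem_map] at hc
      obtain ⟨c', _, rfl⟩ := hc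
      exact c'.2
    have hsum : ∑ c ∈ P, wt μ (γ ++ c.1) * K γ (γ ++ c.1) =
        ∑ c ∈ P', wt μ (γ ++ c) * K γ (γ ++ c) := by
      rw [Finset.sum_map]
      rfl
    rw [hsum]
    calc ∑ c ∈ P', wt μ (γ ++ c) * K γ (γ ++ c)
        ≤ Ex (wt μ) (Db L t) (K γ) (P'.sup List.length) γ := by
          refine sum_through μ (Fp_free L M) γ P' hP' ?_ (fun c => K γ (γ ++ c)) _ ?_
            (fun c hc => Finset.le_sup (f := List.length) hc)
          · intro c hc a b hab hb
            have h1 := (hP' c hc).1 (dsp (γ ++ a)) (mem_exits.2 ⟨γ ++ a, b, by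
              rw [hab, List.append_assoc], hb, by simp⟩)
            exact ⟨by linarith [h1.1], by rw [ht]; linarith [h1.2]⟩
          · intro c _ e
            exact hKmono γ (γ ++ c) e
      _ ≤ ENNReal.ofReal m * wt μ γ + ENNReal.ofReal (Real.log (1 / m)) * Eb μ L t γ :=
          aprime μ hγD hTs hm0 hm1 _
      _ ≤ _ := by gcongr
  -- assemble
  calc ∑' π : Fp L M, wt μ π.1 * kill μ T z (exits 0 π.1)
      ≤ ∑' γ : Fp L l0, ∑' c : {c : List (Dir d) | γ.1 ++ c ∈ Fp L M},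
          wt μ (γ.1 ++ c.1) * kill μ T z (exits 0 (γ.1 ++ c.1)) := by
        rw [← ENNReal.tsum_sigma' (fun p : (Σ γ : Fp L l0,
          {c : List (Dir d) | γ.1 ++ c ∈ Fp L M}) =>
          wt μ (p.1.1 ++ p.2.1) * kill μ T z (exits 0 (p.1.1 ++ p.2.1)))]
        let f : Fp L M → (Σ γ : Fp L l0, {c : List (Dir d) | γ.1 ++ c ∈ Fp L M}) := fun π =>
          ⟨⟨fpre L l0 π.1, fpre_mem (by linarith) π.2⟩, ⟨π.1.drop (fpre L l0 π.1).length, by
            change fpre L l0 π.1 ++ _ ∈ Fp L M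
            rw [fpre_append_drop]
            exact π.2⟩⟩
        have hf : ∀ π, (f π).1.1 ++ (f π).2.1 = π.1 := fun π => fpre_append_drop L l0 π.1
        have hinj : Function.Injective f := by
          intro π π' hππ
          apply Subtype.ext
          rw [← hf π, ← hf π', hππ]
        have h3 := ENNReal.tsum_comp_le_tsum_of_injective hinj
          (fun p => wt μ (p.1.1 ++ p.2.1) * kill μ T z (exits 0 (p.1.1 ++ p.2.1)))
        refine le_trans (le_of_eq ?_) h3
        refine tsum_congr fun π => ?_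
        rw [hf π]
    _ ≤ ∑' γ : Fp L l0, (wt μ γ.1 * kill μ T z (exits 0 γ.1) +
          (ε' * wt μ γ.1 + lg * Eb μ L t γ.1)) := by
        refine ENNReal.tsum_le_tsum fun γ => ?_
        calc ∑' c : {c : List (Dir d) | γ.1 ++ c ∈ Fp L M},
              wt μ (γ.1 ++ c.1) * kill μ T z (exits 0 (γ.1 ++ c.1))
            ≤ ∑' c : {c : List (Dir d) | γ.1 ++ c ∈ Fp L M},
              (wt μ (γ.1 ++ c.1) * kill μ T z (exits 0 γ.1) +
                wt μ (γ.1 ++ c.1) * K γ.1 (γ.1 ++ c.1)) := by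
              refine ENNReal.tsum_le_tsum fun c => ?_
              rw [← mul_add]
              gcongr
              exact hkill _ _
          _ = (∑' c : {c : List (Dir d) | γ.1 ++ c ∈ Fp L M}, wt μ (γ.1 ++ c.1)) *
                kill μ T z (exits 0 γ.1) + ∑' c : {c : List (Dir d) | γ.1 ++ c ∈ Fp L M},
                wt μ (γ.1 ++ c.1) * K γ.1 (γ.1 ++ c.1) := by
              rw [ENNReal.tsum_add, ENNReal.tsum_mul_right]
          _ ≤ _ := by
              gcongr
              · exact tsum_append_le μ (Fp_free L M) γ.1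
              · exact hγ γ.1 γ.2
    _ = (∑' γ : Fp L l0, wt μ γ.1 * kill μ T z (exits 0 γ.1)) +
          (ε' * ∑' γ : Fp L l0, wt μ γ.1 + lg * ∑' γ : Fp L l0, Eb μ L t γ.1) := by
        rw [ENNReal.tsum_add, ENNReal.tsum_add, ENNReal.tsum_mul_left, ENNReal.tsum_mul_left]
    _ ≤ ε' + (ε' * 1 + lg * (ε' / (lg + 1))) := by
        gcongr
        · exact hM1 z hM1'
        · exact tsum_wt_le_one μ (Fp_free L l0)
        · exact hbot t
    _ ≤ ε' + (ε' * 1 + ε') := by
        gcongr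
        calc lg * (ε' / (lg + 1)) ≤ (lg + 1) * (ε' / (lg + 1)) := by gcongr; exact le_self_add
          _ = ε' := ENNReal.mul_div_cancel (by simp) (by finiteness)
    _ = 3 * ε' := by ring
    _ ≤ ε := hε'

end Vale.Agent.N147X.Z
end

section
attribute [-instance] ProperSMul.toContinuousSMul IsTopologicalTorsor.toContinuousSMul IdemSemiring.toCanonicallyOrderedAdd IdemSemiring.toMulLeftMono IdemSemiring.toMulRightMono AddQuantale.instAddLeftMono AddQuantale.instAddRightMono Quantale.instMulLeftMono Quantale.instMulRightMono FiniteDimensional.rclike_to_real IsScalarTower.complexToReal FiniteDimensional.complexToReal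

open MeasureTheory Filter Topology
open scoped ENNReal

namespace Vale.Agent.N147X.Z

open Cr

variable {d : ℕ} [Steps d] (μ : Measure (Row d)) [IsProbabilityMeasure μ] {L : Site d →+ ℝ}

/-- A small multiple of a finite number. -/
lemma exists_mul_le {a δ : ℝ≥0∞} (ha : a ≠ ⊤) (hδ : δ ≠ 0) : ∃ ε : ℝ≥0∞, ε ≠ 0 ∧ ε ≠ ⊤ ∧
    a * ε ≤ δ := by
  rcases eq_or_ne δ ⊤ with rfl | hδt
  · exact ⟨1, one_ne_zero, ENNReal.one_ne_top, le_top⟩
  · refine ⟨δ / (a + 1), ?_, ?_, ?_⟩
    · exact ENNReal.div_ne_zero.2 ⟨hδ, by finiteness⟩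
    · exact ENNReal.div_ne_top hδt (by simp)
    · calc a * (δ / (a + 1)) ≤ (a + 1) * (δ / (a + 1)) := by gcongr; exact le_self_add
        _ = δ := ENNReal.mul_div_cancel (by simp) (by finiteness)

theorem core (hμ : Eff μ) {L : Site d →+ ℝ} (hd : Dn L) (hL : Lvl L) {q p : ℝ≥0∞}
    (hq0 : q ≠ 0) (hq : ∀ a, q ≤ fu μ L a) (hp0 : p ≠ 0) (hp : ∀ a, p ≤ fu μ (-L) a) :
    False := by
  classical
  have hfu : ∀ (L' : Site d →+ ℝ) a, fu μ L' a ≤ 1 := fun L' a =>
    tsum_wt_le_one μ (Fp_free' L' a)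
  have hq1 : q ≤ 1 := (hq 0).trans (hfu _ _)
  have hp1 : p ≤ 1 := (hp 0).trans (hfu _ _)
  have hqt : q ≠ ⊤ := ne_top_of_le_ne_top ENNReal.one_ne_top hq1
  have hpt : p ≠ ⊤ := ne_top_of_le_ne_top ENNReal.one_ne_top hp1
  set w0 : ℝ≥0∞ := p * p with hw0
  have hw1 : w0 ≤ 1 := mul_le_one' hp1 hp1
  have hw0' : w0 ≠ 0 := mul_ne_zero hp0 hp0
  set A : ℝ≥0∞ := w0 * q with hA
  have hA0 : A ≠ 0 := mul_ne_zero hw0' hq0
  have hAt : A ≠ ⊤ := ne_top_of_le_ne_top ENNReal.one_ne_top (mul_le_one' hw1 hq1)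
  set δ : ℝ≥0∞ := A / 32 with hδ
  have hδ0 : δ ≠ 0 := ENNReal.div_ne_zero.2 ⟨hA0, by norm_num⟩
  have hδt : δ ≠ ⊤ := ENNReal.div_ne_top hAt (by norm_num)
  have hδr : 0 < δ.toReal := ENNReal.toReal_pos hδ0 hδt
  have hδo : ENNReal.ofReal δ.toReal = δ := ENNReal.ofReal_toReal hδt
  -- block facts
  have h1 := tsum_Ir μ hL hq0 hq
  have hrho : rho μ L < 1 := rho_lt μ hL hq0 hq
  have hmh : mh μ L ≠ ⊤ := mean_height μ hL hq0 hq
  have hrt : rho μ L ≠ ⊤ := (hrho.trans ENNReal.one_lt_top).ne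
  set r : ℝ := (rho μ L).toReal with hr
  have hr0 : 0 ≤ r := ENNReal.toReal_nonneg
  have hr1 : r < 1 := by
    have := (ENNReal.toReal_lt_toReal hrt ENNReal.one_ne_top).2 hrho
    simpa only [gt_iff_lt, ENNReal.toReal_one] using this
  have hro : ENNReal.ofReal r = rho μ L := ENNReal.ofReal_toReal hrt
  -- C
  obtain ⟨C, hC⟩ : ∃ C : ℕ, ENNReal.ofReal (Real.exp 3) * rho μ L ^ C < 1 := by
    have h2 := (ENNReal.tendsto_pow_atTop_nhds_zero_of_lt_one hrho)
    have h3 := ENNReal.Tendsto.const_mul (a := ENNReal.ofReal (Real.exp 3)) h2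
      (Or.inr ENNReal.ofReal_ne_top)
    rw [mul_zero] at h3
    exact (h3.eventually_lt_const zero_lt_one).exists
  -- c1
  obtain ⟨c1, hc10, hc11, hc1r⟩ : ∃ c1 : ℝ, 0 < c1 ∧ c1 ≤ 1 ∧
      ENNReal.ofReal (Real.exp c1) * rho μ L < 1 := by
    have h2 : 0 < Real.log (2 / (1 + r)) := Real.log_pos (by
      rw [lt_div_iff₀ (by linarith only [hr0])]; linarith only [hr1])
    refine ⟨min 1 (Real.log (2 / (1 + r))), lt_min one_pos h2, min_le_left _ _, ?_⟩
    rw [← hro, ← ENNReal.ofReal_mul (Real.exp_nonneg _), ← ENNReal.ofReal_one,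
      ENNReal.ofReal_lt_ofReal_iff one_pos]
    calc Real.exp (min 1 (Real.log (2 / (1 + r)))) * r
        ≤ Real.exp (Real.log (2 / (1 + r))) * r := by
          gcongr
          exact min_le_right _ _
      _ = 2 / (1 + r) * r := by rw [Real.exp_log (by (clear * -; positivity))]
      _ < 1 := by
          rw [div_mul_eq_mul_div, div_lt_one (by linarith only [hr0])]
          linarith only [hr1]
  -- kc
  obtain ⟨kc, hkc⟩ : ∃ kc : ℕ, ((2 : ℝ≥0∞)⁻¹) ^ kc ≤ δ := by
    have h2 := ENNReal.tendsto_pow_atTop_nhds_zero_of_lt_one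
      (r := (2 : ℝ≥0∞)⁻¹) (by norm_num)
    exact (h2.eventually_le_const (pos_iff_ne_zero.2 hδ0)).exists
  -- start
  obtain ⟨εs, hεs0, -, hεs⟩ := exists_mul_le (a := (C + 1 : ℝ≥0∞) * q⁻¹)
    (by finiteness) hδ0
  obtain ⟨l1, hl1, M0, hM0⟩ := start_bound μ hL hd hμ hq0 hq hp0 hp εs hεs0
  -- k0
  obtain ⟨k0, hk0⟩ : ∃ k0 : ℕ, ∀ k, k0 ≤ k → (C + 1 : ℝ≥0∞) * (((2 : ℝ≥0∞)⁻¹) ^ k * mh μ L) ≤ δ := by
    have h2 := ENNReal.tendsto_pow_atTop_nhds_zero_of_lt_one
      (r := (2 : ℝ≥0∞)⁻¹) (by norm_num)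
    have h3 := ENNReal.Tendsto.mul_const (b := mh μ L) h2 (Or.inr hmh)
    have h4 := ENNReal.Tendsto.const_mul (a := (C + 1 : ℝ≥0∞)) h3 (Or.inr (by finiteness))
    rw [zero_mul, mul_zero] at h4
    obtain ⟨k0, hk0⟩ := eventually_atTop.1 (h4.eventually_le_const (pos_iff_ne_zero.2 hδ0))
    exact ⟨k0, hk0⟩
  -- good scales
  have hκ : (kap μ L).mass = 1 := by rw [kap_mass, h1]
  obtain ⟨k, hk0k, hkck, J0, hJ0⟩ := good_scales (kap μ L) hκ (kap_polyTail μ hL hμ hq0 hq)
    kc C k0 δ hδ0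
  -- growth
  obtain ⟨K, n0, hgr⟩ := growth μ hL hμ hq0 hq
  -- thresholds
  obtain ⟨c', hc', hbox⟩ := box_small hδr ((K + 1) * d + d)
  -- backtracks
  set c : ℝ := c1 / 2 ^ k with hc
  have hc0 : 0 < c := by (clear * - hc10; positivity)
  have hdj := dj_sum μ hL (c := c) hc0
  set dj : ℕ → ℝ≥0∞ := fun j => ∑' γ : Fp L (c * 2 ^ j), Eb μ L (2 ^ (j + 1) + 2) γ.1 with hdjdef
  have hdjt : ∀ j, dj j ≠ ⊤ := fun j => ne_top_of_le_ne_top hdj (ENNReal.le_tsum j)
  have hsum : Summable (fun j => (dj j).toReal) := ENNReal.summable_toReal hdj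
  -- all eventual conditions
  have ev1 : ∀ᶠ j : ℕ in atTop, n0 ≤ 2 * 2 ^ j + 2 := by
    filter_upwards [eventually_ge_atTop n0] with j hj
    have : j < 2 ^ j := Nat.lt_two_pow_self
    omega
  have hpow2 : Tendsto (fun j : ℕ => 2 ^ j) atTop (atTop : Filter ℕ) :=
    tendsto_pow_atTop_atTop_of_one_lt (by norm_num)
  have ev2 : ∀ᶠ j : ℕ in atTop, (((2 * 2 ^ j + 2 : ℕ) : ℝ≥0∞) ^ 2)⁻¹ ≤ δ := by
    have h2 : Tendsto (fun n : ℕ => (((n : ℕ) : ℝ≥0∞))⁻¹) atTop (𝓝 0) :=
      ENNReal.tendsto_inv_nat_nhds_zero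
    have h3 : Tendsto (fun j : ℕ => 2 * 2 ^ j + 2) atTop (atTop : Filter ℕ) := by
      apply tendsto_atTop_mono (fun j => ?_) hpow2
      omega
    have h4 := (h2.comp h3).eventually_le_const (pos_iff_ne_zero.2 hδ0)
    filter_upwards [h4] with j hj
    refine le_trans ?_ hj
    simp only [Function.comp]
    apply ENNReal.inv_le_inv.2
    have : (1 : ℝ≥0∞) ≤ ((2 * 2 ^ j + 2 : ℕ) : ℝ≥0∞) := by
      exact_mod_cast (by omega : 1 ≤ 2 * 2 ^ j + 2)
    exact le_self_pow₀ this (by norm_num)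
  have ev3 : ∀ᶠ j : ℕ in atTop, M0 ≤ ((2 ^ j : ℕ) : ℝ) :=
    (tendsto_natCast_atTop_atTop.comp hpow2).eventually_ge_atTop M0
  have ev4 : ∀ᶠ j : ℕ in atTop, (C + 1 : ℝ≥0∞) *
      (ENNReal.ofReal (Real.exp c1) * rho μ L) ^ (2 ^ (j - k)) ≤ δ := by
    have h2 := ENNReal.tendsto_pow_atTop_nhds_zero_of_lt_one hc1r
    have h3 : Tendsto (fun j : ℕ => 2 ^ (j - k)) atTop (atTop : Filter ℕ) :=
      hpow2.comp (tendsto_sub_atTop_nat k)
    have h4 := ENNReal.Tendsto.const_mul (a := (C + 1 : ℝ≥0∞)) (h2.comp h3)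
      (Or.inr (by finiteness))
    rw [mul_zero] at h4
    exact h4.eventually_le_const (pos_iff_ne_zero.2 hδ0)
  have ev5 : ∀ᶠ j : ℕ in atTop, (ENNReal.ofReal (Real.exp 3) * rho μ L ^ C) ^ (2 ^ j) *
      (1 - rho μ L)⁻¹ ≤ δ := by
    have h2 := ENNReal.tendsto_pow_atTop_nhds_zero_of_lt_one hC
    have h4 := ENNReal.Tendsto.mul_const (b := (1 - rho μ L)⁻¹) (h2.comp hpow2)
      (Or.inr (by
        rw [ne_eq, ENNReal.inv_eq_top, tsub_eq_zero_iff_le, not_le]
        exact hrho))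
    rw [zero_mul] at h4
    exact h4.eventually_le_const (pos_iff_ne_zero.2 hδ0)
  obtain ⟨N, hN⟩ := eventually_atTop.1 (((((ev1.and ev2).and ev3).and ev4).and ev5).and
    ((hbox δ.toReal hδr).and (eventually_ge_atTop k)))
  obtain ⟨j, hjN, hjB, hjd⟩ := scales_meet (fun j => (dj j).toReal)
    (fun j => ENNReal.toReal_nonneg) hsum {j | ¬ (∑ n ∈ Finset.Icc (2 ^ (j - kc)) (C * 2 ^ j),
      tv (kap μ L) n (2 ^ (j - k)) ≤ δ * 2 ^ j)} ⟨J0, fun J hJ => by
        convert hJ0 J hJ⟩ (c := δ.toReal * c')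
      (by (clear * - hδr hc'; positivity)) N
  obtain ⟨⟨⟨⟨⟨e1, e2⟩, e3⟩, e4⟩, e5⟩, ⟨hlam0, hlam1, hb⟩, hkj⟩ := hN j hjN
  have htv : ∑ n ∈ Finset.Icc (2 ^ (j - kc)) (C * 2 ^ j), tv (kap μ L) n (2 ^ (j - k)) ≤
      δ * 2 ^ j := by
    by_contra hcon
    exact hjB hcon
  have hC1 : 1 ≤ C := by
    by_contra hcon
    have hC0 : C = 0 := by omega
    rw [hC0, pow_zero, mul_one] at hC
    have : (1 : ℝ) < Real.exp 3 := Real.one_lt_exp_iff.2 (by norm_num)
    rw [← ENNReal.ofReal_one, ENNReal.ofReal_lt_ofReal_iff one_pos] at hC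
    linarith only [hC, this]
  set M : ℕ := 2 ^ j with hMdef
  have hMr : ((M : ℕ) : ℝ) = 2 ^ j := by rw [hMdef]; push_cast; rfl
  have hMe : ((M : ℕ) : ℝ≥0∞) = 2 ^ j := by rw [hMdef]; push_cast; rfl
  have hM1 : 1 ≤ M := Nat.one_le_two_pow
  have hM1e : (1 : ℝ≥0∞) ≤ M := by exact_mod_cast hM1
  set lam : ℝ := c' / ((j : ℝ) * Real.log j) with hlam
  set m : ℕ := 2 ^ (j - k) with hmdef
  have hmM : m * 2 ^ k = M := by
    rw [hmdef, hMdef, ← pow_add]
    congr 1
    omega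
  have hmr : (m : ℝ) = 2 ^ j / 2 ^ k := by
    rw [eq_div_iff (by positivity), ← hMr, ← hmM]
    push_cast
    rfl
  set h : ℝ := c * 2 ^ j with hh
  have hhm : h = c1 * m := by
    rw [hh, hc, hmr]
    ring
  have hh0 : 0 ≤ h := by positivity
  have hhM : h ≤ M := by
    rw [hhm]
    calc c1 * m ≤ 1 * m := by (clear * - hc11; gcongr)
      _ ≤ M := by
        rw [one_mul]
        have : m ≤ M := by
          rw [hmdef, hMdef]
          exact Nat.pow_le_pow_right (by norm_num) (by omega)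
        exact_mod_cast this
  -- apply the main inequality
  have key := main_ineq μ hL (εs := εs) (w0 := w0) hq0 hqt hq hw1 h1
    (M := M) (R := (2 * 2 ^ j + 2) ^ K) (n1 := 2 ^ (j - kc)) (n2 := C * 2 ^ j) (m := m)
    (by omega)
    (by
      calc 2 ^ (j - kc) ≤ 2 ^ j := Nat.pow_le_pow_right (by norm_num) (by omega)
        _ ≤ C * 2 ^ j := Nat.le_mul_of_pos_left _ (by omega))
    (Nat.pow_le_pow_right (by norm_num) (by omega)) (l1 := l1) (h := h) hl1 hh0 hhM
    (fun z l1' => tsum_wt_le_one μ (Td_free L l1' z))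
    (fun z t hz => Td_sub hl1 hz)
    (fun z => Td_weight μ hp l1 z)
    (fun z hz => hM0 M e3 z hz) (lam := lam) (x := δ.toReal) hlam0 hlam1 hδr.le
  -- estimates of the terms
  have t1 : ∑' π : Rch L (2 * M + 2) ((2 * 2 ^ j + 2) ^ K), wt μ π.1 ≤ δ := by
    have h2 := hgr (2 * 2 ^ j + 2) e1
    have h3 : ((2 * 2 ^ j + 2 : ℕ) : ℝ) = 2 * M + 2 := by rw [hMdef]; push_cast; rfl
    rw [h3] at h2
    exact h2.trans e2
  have t2 : (ENNReal.ofReal lam)⁻¹ * ∑' γ : Fp L h, Eb μ L (2 * M + 2) γ.1 ≤ δ := by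
    have h2 : (2 : ℝ) * M + 2 = 2 ^ (j + 1) + 2 := by rw [hMr]; ring
    rw [h2]
    have h3 : dj j ≤ δ * ENNReal.ofReal lam := by
      rw [← ENNReal.ofReal_toReal (hdjt j)]
      conv_rhs => rw [← hδo]
      rw [← ENNReal.ofReal_mul hδr.le]
      apply ENNReal.ofReal_le_ofReal
      refine hjd.trans (le_of_eq ?_)
      rw [hlam]
      ring
    rw [← ENNReal.div_eq_inv_mul]
    exact ENNReal.div_le_of_le_mul h3
  have t3 : ((Bf L M ((2 * 2 ^ j + 2) ^ K)).card : ℝ≥0∞) *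
      ENNReal.ofReal (2 * Real.exp (-δ.toReal / (2 * (lam * (1 + Real.log (1 / lam)))))) ≤ δ := by
    calc _ ≤ ENNReal.ofReal (Real.exp ((j + 2) * ((K + 1) * d + d : ℕ))) *
          ENNReal.ofReal (2 * Real.exp (-δ.toReal / (2 * (lam * (1 + Real.log (1 / lam)))))) := by
          gcongr
          exact card_Bf_exp K j
      _ = ENNReal.ofReal (Real.exp ((j + 2) * ((K + 1) * d + d : ℕ)) *
          (2 * Real.exp (-δ.toReal / (2 * (lam * (1 + Real.log (1 / lam))))))) := by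
          rw [← ENNReal.ofReal_mul (Real.exp_nonneg _)]
      _ ≤ ENNReal.ofReal δ.toReal := ENNReal.ofReal_le_ofReal hb
      _ = δ := hδo
  have t5 : ((2 ^ (j - kc) : ℕ) : ℝ≥0∞) ≤ M * δ := by
    have h2 : ((2 ^ (j - kc) : ℕ) : ℝ≥0∞) = M * ((2 : ℝ≥0∞)⁻¹) ^ kc := by
      rw [hMe, ← ENNReal.inv_pow, ← div_eq_mul_inv, ENNReal.eq_div_iff (by simp only [ne_eq, pow_eq_zero_iff', OfNat.ofNat_ne_zero, false_and, not_false_eq_true]) (by finiteness)]
      push_cast
      rw [← pow_add]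
      congr 1
      (clear * - hkck hkj; omega)
    rw [h2]
    (clear * - hkc; gcongr)
  have t6 : (C + 1 : ℝ≥0∞) * (ENNReal.ofReal (Real.exp h) * rho μ L ^ m) ≤ δ := by
    refine le_trans (le_of_eq ?_) e4
    rw [mul_pow, ← ENNReal.ofReal_pow (Real.exp_nonneg _), ← Real.exp_nat_mul, hhm]
    ring_nf
  have t7 : (C + 1 : ℝ≥0∞) * ((ENNReal.ofReal M)⁻¹ * (m * mh μ L)) ≤ δ := by
    refine le_trans (le_of_eq ?_) (hk0 k hk0k)
    congr 1
    rw [← mul_assoc]
    congr 1
    rw [ENNReal.ofReal_natCast, ← hmM]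
    push_cast
    rw [← ENNReal.inv_pow, ← ENNReal.div_eq_inv_mul]
    have hm0 : (m : ℝ≥0∞) ≠ 0 := by
      rw [hmdef]
      push_cast
      positivity
    rw [ENNReal.div_eq_inv_mul, ENNReal.mul_inv (Or.inl hm0) (Or.inl (by finiteness)),
      mul_comm, ← mul_assoc, ENNReal.mul_inv_cancel hm0 (by finiteness), one_mul]
  have t8 : (C + 1 : ℝ≥0∞) * (q⁻¹ * εs) ≤ δ := by
    rw [← mul_assoc]
    exact hεs
  have t9 : ENNReal.ofReal (Real.exp (2 * M + 1)) *
      (rho μ L ^ (C * 2 ^ j + 1) * (1 - rho μ L)⁻¹) ≤ M * δ := by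
    calc ENNReal.ofReal (Real.exp (2 * M + 1)) *
          (rho μ L ^ (C * 2 ^ j + 1) * (1 - rho μ L)⁻¹)
        ≤ ENNReal.ofReal (Real.exp (M * 3)) * (rho μ L ^ (C * 2 ^ j) * (1 - rho μ L)⁻¹) := by
          gcongr ENNReal.ofReal (Real.exp ?_) * (?_ * _)
          · have : (1 : ℝ) ≤ M := by exact_mod_cast hM1
            linarith only [this]
          · exact pow_le_pow_of_le_one zero_le hrho.le (by omega)
      _ = (ENNReal.ofReal (Real.exp 3) * rho μ L ^ C) ^ (2 ^ j) * (1 - rho μ L)⁻¹ := by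
          rw [mul_pow, ← pow_mul, ← ENNReal.ofReal_pow (Real.exp_nonneg _), ← Real.exp_nat_mul,
            ← mul_assoc]
      _ ≤ δ := e5
      _ = 1 * δ := (one_mul _).symm
      _ ≤ M * δ := by (clear * - hM1e; gcongr)
  -- final
  have hfin : (M : ℝ≥0∞) * A ≤ M * (14 * δ) := by
    calc (M : ℝ≥0∞) * A ≤ (M + 1) * (w0 * q) := by
          rw [hA]
          gcongr
          exact le_self_add
      _ ≤ _ := key
      _ ≤ (M + M) * (δ + (δ + δ) + δ) + (M * δ + (((M * (C + 1)) * (ENNReal.ofReal (Real.exp h) *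
          rho μ L ^ m + (ENNReal.ofReal M)⁻¹ * (m * mh μ L) + q⁻¹ * εs)) + M * δ) + M * δ) := by
          have hcast : (((C * 2 ^ j : ℕ) : ℝ≥0∞) + 1) ≤ M * (C + 1) := by
            rw [mul_add, mul_one, hMdef]
            push_cast
            rw [mul_comm ((2 : ℝ≥0∞) ^ j) (C : ℝ≥0∞)]
            gcongr
            exact one_le_pow₀ (by norm_num)
          have htv' : ∑ n ∈ Finset.Icc (2 ^ (j - kc)) (C * 2 ^ j),
              tv (kap μ L) n m ≤ M * δ :=
            htv.trans (le_of_eq (by rw [hMe, mul_comm δ]))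
          have hxx : ENNReal.ofReal δ.toReal ≤ δ := hδo.le
          (clear * - hM1e t1 t2 t3 hxx t5 hcast htv' t9; gcongr)
      _ = (M + M) * (4 * δ) + (M * δ + (M * ((C + 1) * (ENNReal.ofReal (Real.exp h) *
          rho μ L ^ m) + (C + 1) * ((ENNReal.ofReal M)⁻¹ * (m * mh μ L)) +
          (C + 1) * (q⁻¹ * εs)) + M * δ) + M * δ) := by ring
      _ ≤ (M + M) * (4 * δ) + (M * δ + (M * (δ + δ + δ) + M * δ) + M * δ) := by (clear * - t6 t7 t8; gcongr)
      _ = M * (14 * δ) := by ring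
  have hM0e : (M : ℝ≥0∞) ≠ 0 := (zero_lt_one.trans_le hM1e).ne'
  have h14 : A ≤ 14 * δ := (ENNReal.mul_le_mul_iff_right hM0e (by finiteness)).1 hfin
  have h32 : A = 32 * δ := by
    rw [hδ, ENNReal.mul_div_cancel (by norm_num) (by norm_num)]
  rw [h32] at h14
  have h33 : (32 : ℝ≥0∞) ≤ 14 := (ENNReal.mul_le_mul_iff_left hδ0 hδt).1 h14
  norm_num at h33

end Vale.Agent.N147X.Z
end

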