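import Vale.Agent.P147.MathlibUsed

/-!
# Random walk in random environment with an arbitrary finite set of steps: internal definitions
-/

open MeasureTheory ProbabilityTheory

namespace Vale.Agent.N147X

/-- Sites of the lattice. -/
abbrev Site (d : ℕ) : Type := Fin d → ℤ

/-- A finite family of different lattice vectors. -/
class Steps (d : ℕ) where
  D : Type
  fin : Fintype D
  dec : DecidableEq D
  v : D → Site d
  inj : Function.Injective v

/-- The steps. -/
abbrev Dir (d : ℕ) [S : Steps d] : Type := S.D

instance (d : ℕ) [S : Steps d] : Fintype (Dir d) := S.fin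

instance (d : ℕ) [S : Steps d] : DecidableEq (Dir d) := S.dec

/-- The step `u` as a vector. -/
def vec {d : ℕ} [S : Steps d] (u : Dir d) : Site d := S.v u

/-- Rows: probability vectors on the set of steps. -/
abbrev Row (d : ℕ) [Steps d] : Type := stdSimplex ℝ (Dir d)

/-- Environments: a row at every site. -/
abbrev Env (d : ℕ) [Steps d] : Type := Site d → Row d

variable {d : ℕ} [Steps d]

/-- The law of the iid environment with one-site law `μ`. -/
noncomputable def envLaw (μ : Measure (Row d)) : Measure (Env d) :=
  Measure.infinitePi (fun _ : Site d => μ)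

/-- The law of the next position of the walk that stands at `x`, in the environment `ω`. -/
noncomputable def stepLaw (ω : Env d) (x : Site d) : Measure (Site d) :=
  ∑ u : Dir d, ENNReal.ofReal ((ω x).1 u) • Measure.dirac (x + vec u)

/-- The one-step transition kernel in the environment `ω`. -/
noncomputable def stepKernel (ω : Env d) : Kernel (Site d) (Site d) :=
  Kernel.ofFunOfCountable (stepLaw ω)

instance (ω : Env d) : IsMarkovKernel (stepKernel ω) := by
  constructor
  intro x
  constructor
  change stepLaw ω x Set.univ = 1
  have h := (ω x).2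
  simp only [stepLaw, Measure.coe_finsetSum, Finset.sum_apply, Measure.coe_smul, Pi.smul_apply,
    measure_univ, smul_eq_mul, mul_one]
  rw [← ENNReal.ofReal_sum_of_nonneg (fun u _ => h.1 u), h.2, ENNReal.ofReal_one]

/-- The quenched law: the law of the Markov chain started at `x` in the environment `ω`. -/
noncomputable def quenched (ω : Env d) (x : Site d) : Measure (ℕ → Site d) :=
  Kernel.trajMeasure (X := fun _ : ℕ => Site d) (Measure.dirac x)
    (fun n => (stepKernel ω).comap (fun h : (i : Finset.Iic n) → Site d => h ⟨n, by simp⟩)
      (measurable_pi_apply _))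

/-- The annealed probability of an event of paths, for the walk started at `x`. -/
noncomputable def annealed (μ : Measure (Row d)) (x : Site d) (A : Set (ℕ → Site d)) :
    ENNReal :=
  ∫⁻ ω, quenched ω x A ∂(envLaw μ)

/-- A bound for the coordinates of the steps. -/
def bd (d : ℕ) [Steps d] : ℕ := 1 + ∑ u : Dir d, ∑ i, (vec u i).natAbs

lemma one_le_bd : 1 ≤ bd d := Nat.le_add_right _ _

lemma abs_vec_le_bd (u : Dir d) (i : Fin d) : |vec u i| ≤ (bd d : ℤ) := by
  have h1 : (vec u i).natAbs ≤ ∑ i, (vec u i).natAbs :=
    Finset.single_le_sum (f := fun i => (vec u i).natAbs) (fun _ _ => Nat.zero_le _)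
      (Finset.mem_univ i)
  have h2 : ∑ i, (vec u i).natAbs ≤ ∑ u : Dir d, ∑ i, (vec u i).natAbs :=
    Finset.single_le_sum (f := fun u : Dir d => ∑ i, (vec u i).natAbs)
      (fun _ _ => Nat.zero_le _) (Finset.mem_univ u)
  have h3 : (vec u i).natAbs ≤ bd d := by unfold bd; omega
  rw [← Int.natCast_natAbs]
  exact_mod_cast h3

end Vale.Agent.N147X
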