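import Vale.Agent.N147X.B2

/-!
# Bridges of positive weight, rescaled level functions
-/

open MeasureTheory
open scoped ENNReal

namespace Vale.Agent.N147X.Z

variable {d : ℕ} [Steps d] {L : Site d →+ ℝ}

lemma dsp_replicate (k : ℕ) (v : Dir d) : dsp (List.replicate k v) = k • vec v := by
  induction k with
  | zero => simp
  | succ k ih => rw [List.replicate_succ, dsp_cons, ih, succ_nsmul']

lemma exits_replicate {k : ℕ} {v : Dir d} {x y : Site d}
    (h : y ∈ exits x (List.replicate k v)) : ∃ j < k, y = x + j • vec v := by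
  induction k generalizing x with
  | zero => simp at h
  | succ k ih =>
    rw [List.replicate_succ, exits_cons, Finset.mem_insert] at h
    rcases h with rfl | h
    · exact ⟨0, by omega, by simp⟩
    · obtain ⟨j, hj, rfl⟩ := ih h
      exact ⟨j + 1, by omega, by rw [succ_nsmul', add_assoc]⟩

lemma replicate_Br {v : Dir d} (hv : L (vec v) = 1) (k : ℕ) : List.replicate k v ∈ Br L := by
  intro y hy
  obtain ⟨j, hj, rfl⟩ := exits_replicate hy
  rw [dsp_replicate, zero_add, map_nsmul, map_nsmul, hv, nsmul_eq_mul, nsmul_eq_mul, mul_one,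
    mul_one]
  exact ⟨Nat.cast_nonneg _, by exact_mod_cast hj⟩

variable (μ : Measure (Row d)) [IsProbabilityMeasure μ]

lemma wt_nil : wt μ [] = 1 := by simp [wt]

lemma wt_replicate (hμ : Eff μ) {v : Dir d} (hv : L (vec v) = 1) (k : ℕ) :
    wt μ (List.replicate k v) ≠ 0 := by
  induction k with
  | zero => rw [List.replicate_zero, wt_nil]; exact one_ne_zero
  | succ k ih =>
    have h1 : List.replicate (k + 1) v = List.replicate 1 v ++ List.replicate k v := by
      rw [← List.replicate_add, add_comm]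
    rw [h1, wt_append_Br μ (replicate_Br hv 1) (Br_up (replicate_Br hv k))]
    exact mul_ne_zero (hμ v) ih

/-- A bridge of positive weight that contains a given step. -/
lemma exists_bridge (hμ : Eff μ) {v : Dir d} (hv : L (vec v) = 1) {u : Dir d}
    (hu : ∀ j : ℤ, vec u ≠ j • vec v) :
    ∃ k : ℕ, ∃ b ∈ Br L, wt μ b ≠ 0 ∧ dsp b = vec u + k • vec v := by
  obtain ⟨k, hk⟩ := exists_nat_gt |L (vec u)|
  obtain ⟨hk1, hk2⟩ := abs_lt.1 hk
  have hd : dsp (List.replicate k v ++ [u]) = k • vec v + vec u := by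
    rw [dsp_append, dsp_replicate]; simp
  have hLj : ∀ j : ℕ, L (j • vec v) = j := fun j => by
    rw [map_nsmul, hv, nsmul_eq_mul, mul_one]
  have he : ∀ y ∈ exits 0 (List.replicate k v ++ [u]), ∃ j ≤ k, y = j • vec v := by
    intro y hy
    rcases mem_exits_append.1 hy with h | ⟨x, hx, rfl⟩
    · obtain ⟨j, hj, rfl⟩ := exits_replicate h
      exact ⟨j, hj.le, zero_add _⟩
    · have : x = 0 := by simpa using hx
      exact ⟨k, le_rfl, by rw [this, zero_add, dsp_replicate]⟩
  refine ⟨k + k, (List.replicate k v ++ [u]) ++ List.replicate k v, ?_, ?_, ?_⟩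
  · intro y hy
    rw [dsp_append, hd, dsp_replicate, map_add, map_add, hLj]
    rcases mem_exits_append.1 hy with h | ⟨x, hx, rfl⟩
    · obtain ⟨j, hj, rfl⟩ := he y h
      have h1 : (j : ℝ) ≤ k := by exact_mod_cast hj
      rw [hLj]
      exact ⟨Nat.cast_nonneg _, by linarith⟩
    · obtain ⟨j, hj, rfl⟩ := exits_replicate hx
      have h1 : (j : ℝ) < k := by exact_mod_cast hj
      have h2 : (0 : ℝ) ≤ j := Nat.cast_nonneg _
      rw [hd, zero_add, map_add, map_add, hLj, hLj]
      constructor <;> linarith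
  · rw [wt_append, wt_append_Br μ (replicate_Br hv k) (by simp)]
    · exact mul_ne_zero (mul_ne_zero (wt_replicate μ hμ hv k) (hμ u)) (wt_replicate μ hμ hv k)
    · rw [Finset.disjoint_left]
      intro y h1 h2
      obtain ⟨j, -, rfl⟩ := he y h1
      obtain ⟨i, -, h3⟩ := exits_replicate h2
      rw [hd] at h3
      refine hu ((j : ℤ) - k - i) ?_
      rw [sub_smul, sub_smul, natCast_zsmul, natCast_zsmul, natCast_zsmul, h3]
      abel
  · rw [dsp_append, hd, dsp_replicate, add_nsmul]
    abel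

/-- An irreducible block on which a given functional does not vanish. -/
lemma exists_block (φ : Site d →+ ℝ) {b : List (Dir d)} (hb : b ∈ Br L) (hw : wt μ b ≠ 0)
    (hφ : φ (dsp b) ≠ 0) : ∃ c ∈ Ir L, wt μ c ≠ 0 ∧ φ (dsp c) ≠ 0 := by
  obtain ⟨n, hn⟩ := exists_Wn hb
  clear hb
  induction n generalizing b with
  | zero =>
    rw [mem_Wn_zero.1 hn] at hφ
    simp at hφ
  | succ n ih =>
    obtain ⟨c, hc, r, hr, rfl⟩ := mem_Wn_succ.1 hn
    by_cases h : φ (dsp c) = 0
    · refine ih (fun h0 => hw ?_) ?_ hr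
      · exact nonpos_iff_eq_zero.1 ((wt_append_le_right μ c r).trans h0.le)
      · rwa [dsp_append, map_add, h, zero_add] at hφ
    · exact ⟨c, hc, fun h0 => hw
        (nonpos_iff_eq_zero.1 ((wt_append_le_left μ c r).trans h0.le)), h⟩

/-- The steps are not all on the line of a highest step. -/
def NonCol (L : Site d →+ ℝ) : Prop :=
  ∃ v : Dir d, L (vec v) = 1 ∧ ∃ (u : Dir d) (i : Fin d), (vec u i : ℝ) ≠ L (vec u) * vec v i

/-- The downward level function can be normalised, and the steps are not on a line. -/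
def Dn (L : Site d →+ ℝ) : Prop :=
  ∃ (c : ℝ) (L' : Site d →+ ℝ), 0 < c ∧ (∀ x, L' x = c * (-L) x) ∧ Lvl L' ∧ NonCol L'

lemma Fp_scale {c : ℝ} {L' : Site d →+ ℝ} (hc : 0 < c) (h : ∀ x, L' x = c * L x) (a : ℝ) :
    Fp L' (c * a) = Fp L a := by
  ext l
  simp only [Fp, Set.mem_ofPred_eq, h, mul_lt_mul_iff_right₀ hc, mul_le_mul_iff_right₀ hc,
    mul_nonneg_iff_of_pos_left hc]

omit [IsProbabilityMeasure μ] in
lemma fu_scale {c : ℝ} {L' : Site d →+ ℝ} (hc : 0 < c) (h : ∀ x, L' x = c * L x) {p : ℝ≥0∞}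
    (hp : ∀ a, p ≤ fu μ L a) (a : ℝ) : p ≤ fu μ L' a := by
  have h1 : a = c * (a / c) := by field_simp
  rw [h1, fu, Fp_scale hc h]
  exact hp _

end Vale.Agent.N147X.Z
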