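import Mathlib.Analysis.Convex.StdSimplex
import Mathlib.MeasureTheory.Constructions.BorelSpace.Basic
import Mathlib.Probability.ConditionalProbability
import Mathlib.Probability.ProductMeasure

/-!
# P147: random walk in an iid random environment with a finite set of steps
-/

open MeasureTheory ProbabilityTheory Filter

namespace Vale.Agent.N147X.W

/-- the lattice `ℤ ^ d` -/
abbrev Site (d : ℕ) : Type := Fin d → ℤ

/-- the paths `X n`, `n ≥ 0` -/
abbrev Paths (d : ℕ) : Type := ℕ → Site d

/-- the unit steps `± e i` -/
def unitSteps (d : ℕ) : Finset (Site d) :=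
  (Finset.univ.image fun i => Pi.single i 1) ∪ Finset.univ.image fun i => -Pi.single i 1

variable {d : ℕ}

/-- the simplex `Δ_U` of the transition vectors on the set of steps `U` -/
abbrev Row (U : Finset (Site d)) : Type := stdSimplex ℝ U

/-- environments: a transition vector at each site -/
abbrev Env (U : Finset (Site d)) : Type := Site d → Row U

variable {U : Finset (Site d)}

/-- the iid environment law `μ ^ ⊗ ℤ ^ d` -/
noncomputable def envLaw (μ : Measure (Row U)) : Measure (Env U) :=
  Measure.infinitePi fun _ : Site d => μ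

/-- `μ (p e > 0 for all e ∈ U) = 1` -/
def Elliptic (μ : Measure (Row U)) : Prop := μ {p | ∀ e, 0 < p.1 e} = 1

/-- `P` is the law of the Markov chain with `X 0 = x` and with the transition probabilities
`P (X (n + 1) = y n + e | X 0 = y 0, ..., X n = y n) = ω (y n, e)`. -/
def IsQuenched (ω : Env U) (x : Site d) (P : Measure (Paths d)) : Prop :=
  IsProbabilityMeasure P ∧ P {X | X 0 = x} = 1 ∧
    ∀ (n : ℕ) (y : Paths d) (e : U), P {X | ∀ i ≤ n, X i = y i} ≠ 0 →
      cond P {X | ∀ i ≤ n, X i = y i} {X | X (n + 1) = y n + e} = ENNReal.ofReal ((ω (y n)).1 e)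

/-- the annealed law, the mean of the laws `P ω` over the iid environment -/
noncomputable def annealed (μ : Measure (Row U)) (P : Env U → Measure (Paths d)) :
    Measure (Paths d) := (envLaw μ).bind P

/-- the event `A_ℓ` that `X n ⬝ ℓ → + ∞` -/
def Escape (l : Fin d → ℝ) : Set (Paths d) :=
  {X | Tendsto (fun n => ∑ i, (X n i : ℝ) * l i) atTop atTop}

end Vale.Agent.N147X.W
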