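import Vale.Agent.N147X.B1

/-!
# The sign-union law without ellipticity
-/

set_option linter.all false

open MeasureTheory Filter Topology
open scoped ENNReal

namespace Vale.Agent.N147X.Z

variable {d : ℕ} [Steps d]

open Classical in
/-- Number of proper starting segments with the property `P`. -/
noncomputable def kcnt (P : List (Dir d) → Prop) (l : List (Dir d)) : ℕ :=
  ((Finset.range l.length).filter (fun i => P (l.take i))).card

open Classical in
lemma kcnt_take (P : List (Dir d) → Prop) {l : List (Dir d)} {i : ℕ} (hi : i ≤ l.length) :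
    kcnt P (l.take i) = ((Finset.range i).filter (fun j => P (l.take j))).card := by
  have hlen : (l.take i).length = i := by simp only [List.length_take, hi, inf_of_le_left]
  rw [kcnt, hlen]
  congr 1
  apply Finset.filter_congr
  intro j hj
  rw [Finset.mem_range] at hj
  rw [List.take_take, min_eq_left hj.le]

lemma kcnt_append_lt (P : List (Dir d) → Prop) {a b : List (Dir d)} (ha : P a) (hb : b ≠ []) :
    kcnt P a < kcnt P (a ++ b) := by
  classical
  have h1 : kcnt P a =
      ((Finset.range a.length).filter (fun j => P ((a ++ b).take j))).card := by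
    have := kcnt_take P (l := a ++ b) (i := a.length) (by simp only [List.length_append, le_add_iff_nonneg_right, zero_le])
    rwa [List.take_left] at this
  rw [h1, kcnt]
  apply Finset.card_lt_card
  rw [Finset.ssubset_iff_of_subset]
  · refine ⟨a.length, ?_, ?_⟩
    · rw [Finset.mem_filter, Finset.mem_range]
      refine ⟨?_, ?_⟩
      · have : 0 < b.length := List.length_pos_of_ne_nil hb
        simp [this]
      · rw [List.take_left]; exact ha
    · simp
  · intro j hj
    rw [Finset.mem_filter, Finset.mem_range] at hj ⊢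
    exact ⟨by simp; omega, hj.2⟩

lemma kcnt_nest (P : List (Dir d) → Prop) {l : List (Dir d)} {m : ℕ} (hl : kcnt P l = m + 1) :
    ∃ a v c, l = a ++ v :: c ∧ P a ∧ kcnt P a = m := by
  classical
  set F := (Finset.range l.length).filter (fun i => P (l.take i)) with hF
  have hcard : F.card = m + 1 := hl
  have hne : F.Nonempty := by rw [← Finset.card_pos, hcard]; omega
  set i := F.max' hne with hi
  have hiF : i ∈ F := F.max'_mem hne
  rw [hF, Finset.mem_filter, Finset.mem_range] at hiF
  have hdrop : l.drop i ≠ [] := by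
    intro h0
    have := congrArg List.length h0
    simp only [List.length_drop, List.length_nil] at this
    omega
  obtain ⟨v, c, hvc⟩ := List.exists_cons_of_ne_nil hdrop
  refine ⟨l.take i, v, c, ?_, hiF.2, ?_⟩
  · rw [← hvc, List.take_append_drop]
  · rw [kcnt_take P hiF.1.le]
    have : (Finset.range i).filter (fun j => P (l.take j)) = F.erase i := by
      ext j
      rw [Finset.mem_filter, Finset.mem_range, Finset.mem_erase, hF, Finset.mem_filter,
        Finset.mem_range]
      constructor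
      · rintro ⟨h1, h2⟩
        exact ⟨h1.ne, by omega, h2⟩
      · rintro ⟨h1, h2, h3⟩
        refine ⟨lt_of_le_of_ne (F.le_max' j ?_) h1, h3⟩
        rw [hF, Finset.mem_filter, Finset.mem_range]
        exact ⟨h2, h3⟩
    rw [this, Finset.card_erase_of_mem (by rw [hF, Finset.mem_filter, Finset.mem_range]
                                           exact hiF), hcard]
    rfl

/-- Lists with the property `P`, exactly `m` proper starting segments of which have this property,
that stay in `G`. -/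
def KSR (G : Set (Site d)) (y : Site d) (P : List (Dir d) → Prop) (m : ℕ) :
    Set (List (Dir d)) :=
  {l | P l ∧ kcnt P l = m ∧ ∀ a b, l = a ++ b → y + dsp a ∈ G}

lemma KSR_free (G : Set (Site d)) (y : Site d) (P : List (Dir d) → Prop) (m : ℕ) :
    Free (KSR G y P m) := by
  intro a ha b hb
  by_contra hne
  have := kcnt_append_lt P ha.1 hne
  rw [ha.2.1, hb.2.1] at this
  exact lt_irrefl _ this

lemma KSR_nest {G : Set (Site d)} {y : Site d} {P : List (Dir d) → Prop} {u : Dir d}
    (hP : ∀ l, P l → y + dsp l + vec u ∉ G) {m : ℕ} {l : List (Dir d)}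
    (hl : l ∈ KSR G y P (m + 1)) :
    ∃ a ∈ KSR G y P m, ∃ v c, l = a ++ v :: c ∧ v ≠ u := by
  obtain ⟨a, v, c, hac, ha, hm⟩ := kcnt_nest P hl.2.1
  refine ⟨a, ⟨ha, hm, ?_⟩, v, c, hac, ?_⟩
  · intro a' b' hab
    exact hl.2.2 a' (b' ++ v :: c) (by rw [hac, hab, List.append_assoc])
  · rintro rfl
    have := hl.2.2 (a ++ [v]) c (by rw [hac]; simp)
    rw [dsp_append, ← add_assoc, dsp_cons, dsp_nil, add_zero] at this
    exact hP a ha this

/-- Geometric decay. -/
lemma kal_nullR (ν : Measure (ℕ → Site d)) [IsProbabilityMeasure ν] {G : Set (Site d)}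
    {y : Site d} {P : List (Dir d) → Prop} {u : Dir d}
    (hP : ∀ l, P l → y + dsp l + vec u ∉ G) {p : ℝ≥0∞} (hp : p ≠ 0)
    (hν : ∀ l, P l → p * ν (cyl y l) ≤ ν (cyl y (l ++ [u]))) :
    ν (⋂ m, ⋃ l ∈ KSR G y P m, cyl y l) = 0 := by
  have hstep : ∀ m, ν (⋃ l ∈ KSR G y P (m + 1), cyl y l) ≤
      (1 - p) * ν (⋃ l ∈ KSR G y P m, cyl y l) := by
    intro m
    have hsub : (⋃ l ∈ KSR G y P (m + 1), cyl y l) ⊆
        ⋃ a ∈ KSR G y P m, (cyl y a \ cyl y (a ++ [u])) := by
      intro X hX
      simp only [Set.mem_iUnion] at hX ⊢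
      obtain ⟨l, hl, hXl⟩ := hX
      obtain ⟨a, ha, v, c, hac, hv⟩ := KSR_nest hP hl
      refine ⟨a, ha, ?_, ?_⟩
      · intro n hn
        have := hXl n (by rw [hac]; simp only [List.length_append, List.length_cons]; omega)
        rw [this, hac, List.take_append_of_le_length hn]
      · intro hXu
        have h1 : X (a ++ [u]).length = y + dsp (a ++ [u]) :=
          cyl_pos hXu (b := []) (by simp)
        have h2 : X (a ++ [v]).length = y + dsp (a ++ [v]) :=
          cyl_pos hXl (b := c) (by rw [hac]; simp)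
        have h3 : (a ++ [u]).length = (a ++ [v]).length := by simp
        rw [h3, h2] at h1
        have h4 : vec v = vec u := by simpa only [dsp, List.map_append, List.map_cons, List.map_nil, List.sum_append, List.sum_cons, List.sum_nil,     add_zero, add_right_inj] using h1
        exact hv (vec_injective h4)
    calc ν (⋃ l ∈ KSR G y P (m + 1), cyl y l)
        ≤ ν (⋃ a ∈ KSR G y P m, (cyl y a \ cyl y (a ++ [u]))) := measure_mono hsub
      _ ≤ ∑' a : KSR G y P m, ν (cyl y a \ cyl y (a ++ [u])) :=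
          measure_biUnion_le ν (Set.to_countable _) _
      _ ≤ ∑' a : KSR G y P m, (1 - p) * ν (cyl y a) := by
          refine ENNReal.tsum_le_tsum fun a => ?_
          have hsub' : cyl y ((a : List (Dir d)) ++ [u]) ⊆ cyl y a := by
            intro X hX n hn
            have := hX n (by simp; omega)
            rw [this, List.take_append_of_le_length hn]
          rw [measure_sdiff hsub' (measurableSet_cyl _ _).nullMeasurableSet
            (measure_ne_top _ _), ENNReal.sub_mul (fun _ _ => measure_ne_top _ _), one_mul]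
          exact tsub_le_tsub_left (hν a a.2.1) _
      _ = (1 - p) * ∑' a : KSR G y P m, ν (cyl y a) := ENNReal.tsum_mul_left
      _ = (1 - p) * ν (⋃ l ∈ KSR G y P m, cyl y l) := by
          rw [measure_biUnion (Set.to_countable _)]
          · intro a ha b hb hab
            exact cyl_disjoint (KSR_free G y P m) ha hb hab
          · intro a _
            exact measurableSet_cyl _ _
  have hpow : ∀ m, ν (⋃ l ∈ KSR G y P m, cyl y l) ≤ (1 - p) ^ m := by
    intro m
    induction m with
    | zero => rw [pow_zero]; exact prob_le_one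
    | succ m ih =>
      refine (hstep m).trans ?_
      rw [pow_succ']
      exact mul_le_mul_right ih _
  have hlt : 1 - p < 1 := ENNReal.sub_lt_self ENNReal.one_ne_top one_ne_zero hp
  have htend := ENNReal.tendsto_pow_atTop_nhds_zero_of_lt_one hlt
  refine le_antisymm (ge_of_tendsto' htend fun m => ?_) zero_le
  exact (measure_mono (Set.iInter_subset _ m)).trans (hpow m)

lemma kal_measR (G : Set (Site d)) (y : Site d) (P : List (Dir d) → Prop) :
    MeasurableSet (⋂ m, ⋃ l ∈ KSR G y P m, cyl y l) :=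
  MeasurableSet.iInter fun _ => MeasurableSet.biUnion (Set.to_countable _)
    fun _ _ => measurableSet_cyl _ _

/-- Paths with infinitely many special times are covered. -/
lemma kal_coverR {G : Set (Site d)} {y : Site d} {P : List (Dir d) → Prop}
    {X : ℕ → Site d} (hg : X ∈ Good y) (hs : ∀ n, X n ∈ G)
    (hf : ∀ N, ∃ n, N ≤ n ∧ ∃ l : List (Dir d), l.length = n ∧ X ∈ cyl y l ∧ P l) :
    X ∈ ⋂ m, ⋃ l ∈ KSR G y P m, cyl y l := by
  classical
  have hL : ∀ n, ∃ l : List (Dir d), l.length = n ∧ X ∈ cyl y l := by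
    intro n
    obtain ⟨l, hl, hXl⟩ := hg n
    exact ⟨l, mem_lists.1 hl, hXl⟩
  choose L hlen hcyl using hL
  have htake : ∀ {i n : ℕ}, i ≤ n → (L n).take i = L i := by
    intro i n hin
    obtain ⟨c, hc⟩ := cyl_inter (hcyl i) (hcyl n) (by rw [hlen, hlen]; exact hin)
    rw [hc, List.take_append_of_le_length (by rw [hlen]), List.take_of_length_le (by rw [hlen])]
  have hinf : {n | P (L n)}.Infinite := by
    rw [Set.infinite_iff_exists_gt]
    intro N
    obtain ⟨n, hn, l, hl, hXl, hPl⟩ := hf (N + 1)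
    refine ⟨n, ?_, by omega⟩
    have : l = L n := by
      obtain ⟨c, hc⟩ := cyl_inter (hcyl n) hXl (by rw [hlen, hl])
      have : c = [] := by
        have := congrArg List.length hc
        simp [hlen, hl] at this
        exact this
      rw [hc, this, List.append_nil]
    rw [Set.mem_ofPred_eq, ← this]
    exact hPl
  rw [Set.mem_iInter]
  intro m
  simp only [Set.mem_iUnion]
  set n := Nat.nth (fun n => P (L n)) m with hn
  refine ⟨L n, ⟨?_, ?_, ?_⟩, hcyl n⟩
  · exact Nat.nth_mem_of_infinite hinf m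
  · have h1 : Nat.count (fun n => P (L n)) n = m := Nat.count_nth_of_infinite hinf m
    rw [Nat.count_eq_card_filter_range] at h1
    rw [kcnt, hlen, ← h1]
    congr 1
    apply Finset.filter_congr
    intro i hi
    rw [Finset.mem_range] at hi
    rw [htake hi.le]
  · intro a b hab
    rw [← cyl_pos (hcyl n) hab]
    exact hs _

lemma meas_at (n : ℕ) (Q : Site d → Prop) : Measurable fun X : ℕ → Site d => Q (X n) :=
  (measurable_of_countable Q).comp (measurable_pi_apply n)

lemma meas_at2 (m n : ℕ) (Q : Site d → Site d → Prop) :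
    Measurable fun X : ℕ → Site d => Q (X m) (X n) := by
  have h : Measurable fun X : ℕ → Site d => (X m, X n) :=
    (measurable_pi_apply m).prodMk (measurable_pi_apply n)
  exact (measurable_of_countable fun p : Site d × Site d => Q p.1 p.2).comp h

/-- Unbounded heights. -/
def Un (h : Site d →+ ℝ) : Set (ℕ → Site d) := {X | ∀ k : ℕ, ∃ n, (k : ℝ) ≤ h (X n)}

lemma measurableSet_Un (h : Site d →+ ℝ) : MeasurableSet (Un h) :=
  measurableSet_setOfPred.2 (Measurable.forall fun k => Measurable.exists fun n =>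
    meas_at n fun z => (k : ℝ) ≤ h z)

/-- A bounded path whose range is infinite above some height. -/
lemma slab_det {h : Site d →+ ℝ} {w : Site d} (hw : 0 < h w) {X : ℕ → Site d} {k a : ℝ}
    (hk : ∀ n, h (X n) ≤ k) (ha : (Set.range X ∩ {z | a ≤ h z}).Infinite) :
    ∃ (r : ℚ) (F : Finset (Site d)), (∀ n, X n ∈ {z | h z ≤ r} ∪ (F : Set (Site d))) ∧
      ∀ N, ∃ n, N ≤ n ∧ X n + w ∉ {z | h z ≤ r} ∪ (F : Set (Site d)) ∧ ∀ i < n, X i ≠ X n := by
  classical
  set S : Set ℝ := {s | (Set.range X ∩ {z | s < h z}).Finite} with hS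
  have hmono : ∀ {s t : ℝ}, s ∈ S → s ≤ t → t ∈ S := fun hs hst =>
    Set.Finite.subset hs fun z hz => ⟨hz.1, lt_of_le_of_lt hst hz.2⟩
  have hne : S.Nonempty := by
    refine ⟨k, Set.Finite.subset Set.finite_empty ?_⟩
    rintro _ ⟨⟨n, rfl⟩, hz⟩
    exact absurd (hk n) (not_le.2 hz)
  have hbd : BddBelow S := by
    refine ⟨a, fun s hs => ?_⟩
    by_contra hlt
    exact ha (Set.Finite.subset hs fun z hz => ⟨hz.1, lt_of_lt_of_le (not_le.1 hlt) hz.2⟩)
  obtain ⟨r, hr1, hr2⟩ := exists_rat_btwn (show sInf S < sInf S + h w by linarith)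
  obtain ⟨s, hs, hlt⟩ := exists_lt_of_csInf_lt hne hr1
  have hr : (Set.range X ∩ {z | (r : ℝ) < h z}).Finite := hmono hs hlt.le
  have hI : (Set.range X ∩ {z | (r : ℝ) - h w < h z}).Infinite := fun hc => by
    have := csInf_le hbd (show (r : ℝ) - h w ∈ S from hc)
    linarith
  refine ⟨r, hr.toFinset, fun n => ?_, fun N => ?_⟩
  · rcases le_or_gt (h (X n)) r with h1 | h1
    · exact Or.inl h1
    · exact Or.inr (by simpa using h1)
  · obtain ⟨z, ⟨⟨m, rfl⟩, hz1⟩, hz2⟩ := hI.exists_notMem_finset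
      (hr.toFinset.image (· - w) ∪ (Finset.range N).image X)
    have hex : ∃ n, X n = X m := ⟨m, rfl⟩
    have hsp := Nat.find_spec hex
    rw [Finset.mem_union, not_or] at hz2
    refine ⟨Nat.find hex, ?_, ?_, fun i hi => ?_⟩
    · by_contra hc
      exact hz2.2 (Finset.mem_image.2 ⟨_, Finset.mem_range.2 (not_le.1 hc), hsp⟩)
    · rw [hsp]
      rintro (h1 | h1)
      · have h2 : h (X m + w) ≤ r := h1
        have h3 : (r : ℝ) - h w < h (X m) := hz1
        rw [map_add] at h2
        linarith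
      · exact hz2.1 (Finset.mem_image.2 ⟨_, h1, add_sub_cancel_right _ _⟩)
    · rw [hsp]
      exact Nat.find_min hex hi

variable (μ : Measure (Row d)) [IsProbabilityMeasure μ]

/-- First passage weights are bounded below when the walk escapes upwards without going below its
starting height with positive probability. -/
theorem upR_le_fu (L : Site d →+ ℝ) (a : ℝ) : annealed μ 0 (UpR L) ≤ fu μ L a := by
  classical
  have hcover : UpR L ∩ Good 0 ⊆ ⋃ l : Fp L a, cyl 0 l.1 := by
    rintro X ⟨⟨hst, hes⟩, hg⟩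
    have hk : ∃ n, a ≤ L (X n) := by
      obtain ⟨M, hM⟩ := (tendsto_atTop_atTop.1 hes) a
      exact ⟨M, hM M le_rfl⟩
    have h0 : X 0 = 0 := by
      obtain ⟨l, _, hXl⟩ := hg 0
      have := hXl 0 (Nat.zero_le _)
      simpa using this
    obtain ⟨l, hl, hXl⟩ := hg (Nat.find hk)
    rw [mem_lists] at hl
    have hend : X l.length = dsp l := by
      have h1 := cyl_pos hXl (a := l) (b := []) (by simp)
      rwa [zero_add] at h1
    refine Set.mem_iUnion.2 ⟨⟨l, fun x hx => ?_, ?_⟩, hXl⟩
    · obtain ⟨b, c, hbc, hc, rfl⟩ := mem_exits.1 hx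
      have h1 := cyl_pos hXl hbc
      have h2 : b.length < Nat.find hk := by
        rw [← hl, hbc, List.length_append]
        have := List.length_pos_iff.2 hc
        omega
      have h3 := Nat.find_min hk h2
      rw [← h1]
      refine ⟨?_, not_le.1 h3⟩
      have h4 := hst b.length
      rwa [h0, map_zero] at h4
    · rw [← hend, hl]
      exact Nat.find_spec hk
  calc annealed μ 0 (UpR L) ≤ annealed μ 0 (UpR L ∩ Good 0) := annealed_inter_good μ 0 _
    _ ≤ annealed μ 0 (⋃ l : Fp L a, cyl 0 l.1) := annealed_mono μ 0 hcover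
    _ ≤ ∑' l : Fp L a, annealed μ 0 (cyl 0 l.1) :=
        annealed_iUnion_le μ 0 fun l => measurableSet_cyl 0 l.1
    _ = fu μ L a := by
        rw [fu]
        exact tsum_congr fun l => annealed_cyl' μ 0 l.1

lemma ae_good (x : Site d) : ∀ᵐ X ∂annM μ x, X ∈ Good x := by
  change annM μ x (Good x)ᶜ = 0
  rw [annM_apply μ x (measurableSet_good x).compl, annealed]
  simp [quenched_good]

lemma ae_not {A : Set (ℕ → Site d)} (hA : MeasurableSet A) (h0 : annealed μ 0 A = 0) :
    ∀ᵐ X ∂annM μ 0, X ∉ A := by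
  rw [← annM_apply μ 0 hA] at h0
  exact measure_eq_zero_iff_ae_notMem.1 h0

/-- A null event does not happen for the path after any time. -/
lemma ae_tail {A : Set (ℕ → Site d)} (hA : MeasurableSet A) (hT : TInv A)
    (h0 : annealed μ 0 A = 0) : ∀ᵐ X ∂annM μ 0, ∀ t, tl t X ∉ A := by
  have hz : ∀ l : List (Dir d), ∀ᵐ X ∂annM μ 0, X ∉ cyl 0 l ∩ tl l.length ⁻¹' A := by
    intro l
    refine ae_not μ ((measurableSet_cyl 0 l).inter (measurable_tl l.length hA))
      (le_antisymm ?_ zero_le)
    calc annealed μ 0 (cyl 0 l ∩ tl l.length ⁻¹' A) ≤ annealed μ (dsp l) A := by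
          refine lintegral_mono fun ω => ?_
          beta_reduce
          rw [quenched_markov ω 0 l hA, zero_add]
          exact mul_le_of_le_one_left zero_le (qw_le_one ω 0 l)
      _ = 0 := by rw [annealed_tinv μ (dsp l) hA hT, h0]
  filter_upwards [ae_good μ 0, ae_all_iff.2 hz] with X hg hX t ht
  obtain ⟨l, hl, hXl⟩ := hg t
  rw [mem_lists] at hl
  exact hX l ⟨hXl, by rw [Set.mem_preimage, hl]; exact ht⟩

/-- The walk leaves a set if it visits infinitely many new sites from which a given step leads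
out of the set. -/
lemma ae_new (G : Set (Site d)) {u : Dir d} (hu : wt μ [u] ≠ 0) :
    ∀ᵐ X ∂annM μ 0, (∀ n, X n ∈ G) →
      ¬ ∀ N, ∃ n, N ≤ n ∧ X n + vec u ∉ G ∧ ∀ i < n, X i ≠ X n := by
  set Pb : List (Dir d) → Prop :=
    fun l => 0 + dsp l + vec u ∉ G ∧ 0 + dsp l ∉ exits 0 l with hPb
  have hb : annM μ 0 (⋂ m, ⋃ l ∈ KSR G 0 Pb m, cyl 0 l) = 0 := by
    refine kal_nullR (annM μ 0) (u := u) (p := wt μ [u]) (fun l hl => hl.1) hu ?_
    intro l hl
    rw [annM_apply μ 0 (measurableSet_cyl _ _), annM_apply μ 0 (measurableSet_cyl _ _),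
      annealed_cyl', annealed_cyl', wt_append, mul_comm]
    rw [exits_cons, exits_nil, Finset.disjoint_right]
    intro x hx
    rw [Finset.mem_insert, or_iff_left (Finset.notMem_empty _)] at hx
    rw [hx]
    intro hmem
    exact hl.2 (by rwa [zero_add])
  filter_upwards [ae_good μ 0, measure_eq_zero_iff_ae_notMem.1 hb] with X hg hX hG h1
  refine hX (kal_coverR hg hG fun N => ?_)
  obtain ⟨n, hn, hns, hnew⟩ := h1 N
  obtain ⟨l, hl, hXl⟩ := hg n
  rw [mem_lists] at hl
  have hend : X n = 0 + dsp l := by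
    rw [← hl]; exact cyl_pos hXl (b := []) (by simp)
  refine ⟨n, hn, l, hl, hXl, ?_, ?_⟩
  · rw [← hend]; exact hns
  · intro hmem
    obtain ⟨a, b, hab, hb, hya⟩ := mem_exits.1 hmem
    have h2 := cyl_pos hXl hab
    refine hnew a.length ?_ ?_
    · rw [← hl, hab]
      have : 0 < b.length := List.length_pos_of_ne_nil hb
      simp [this]
    · rw [h2, ← hya, hend]

/-- A bounded walk visits finitely many sites above any height. -/
lemma ae_slab {h : Site d →+ ℝ} {u : Dir d} (hu : wt μ [u] ≠ 0) (hh : 0 < h (vec u)) :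
    ∀ᵐ X ∂annM μ 0, ∀ k a : ℝ, (∀ n, h (X n) ≤ k) → (Set.range X ∩ {z | a ≤ h z}).Finite := by
  have h1 : ∀ᵐ X ∂annM μ 0, ∀ p : ℚ × Finset (Site d),
      (∀ n, X n ∈ {z | h z ≤ p.1} ∪ (p.2 : Set (Site d))) →
      ¬ ∀ N, ∃ n, N ≤ n ∧ X n + vec u ∉ {z | h z ≤ p.1} ∪ (p.2 : Set (Site d)) ∧
        ∀ i < n, X i ≠ X n := ae_all_iff.2 fun p => ae_new μ _ hu
  filter_upwards [h1] with X hX k a hk
  by_contra hc
  obtain ⟨r, F, h2, h3⟩ := slab_det hh hk hc
  exact hX (r, F) h2 h3

/-- The ladder argument. -/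
lemma ladder_null (h : Site d →+ ℝ) {A G : Set (ℕ → Site d)} (hA : MeasurableSet A)
    (hT : TInv A) (hsub : A ⊆ StayR h) (hp : annealed μ 0 A ≠ 0) (hG : MeasurableSet G)
    (hU : G ⊆ Un h) (he : ∀ᶠ k : ℕ in atTop, ∀ l ∈ FPR h k, ∀ X ∈ G, X ∈ cyl 0 l →
      tl l.length X ∉ A) : annealed μ 0 G = 0 := by
  have hp' : (annealed μ 0 A).toReal ≠ 0 := by
    rw [← annM_apply μ 0 hA] at hp ⊢
    exact (ENNReal.toReal_ne_zero).2 ⟨hp, measure_ne_top _ _⟩
  refine null_of_tendstoR μ h hG (fun X hX k => hU hX k) hp' ?_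
  have h1 := (fp_limitR μ h hA hT hsub hG).neg
  rw [neg_zero] at h1
  refine h1.congr' ?_
  filter_upwards [he] with k hk
  have e : RAR h A k ∩ G = ∅ := by
    ext X
    simp only [Set.mem_inter_iff, Set.mem_empty_iff_false, iff_false]
    rintro ⟨hX, hX2⟩
    simp only [RAR, Set.mem_iUnion] at hX
    obtain ⟨l, hl, h2, h3⟩ := hX
    exact hk l hl X hX2 h2 h3
  rw [e]
  simp only [measure_empty, ENNReal.toReal_zero, zero_sub, neg_neg]

/-- If the walk stays above its starting height with positive probability, then unbounded heights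
imply escape. -/
lemma ae_esc_of_stay (h : Site d →+ ℝ) (hp : annealed μ 0 (StayR h) ≠ 0) :
    ∀ᵐ X ∂annM μ 0, X ∈ Un h → X ∈ EscR h := by
  have h1 : ∀ K : ℕ, ∀ᵐ X ∂annM μ 0, X ∉ Un h ∩ {X | ∀ N, ∃ n, N ≤ n ∧ h (X n) < K} := by
    intro K
    have hm : MeasurableSet (Un h ∩ {X | ∀ N, ∃ n, N ≤ n ∧ h (X n) < K}) :=
      (measurableSet_Un h).inter (measurableSet_setOfPred.2 (Measurable.forall fun N =>
        Measurable.exists fun n => meas_at n fun z => N ≤ n ∧ h z < K))
    refine ae_not μ hm (ladder_null μ h (measurableSet_stayR h) (tinv_stayR h) subset_rfl hp hm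
      Set.inter_subset_left ?_)
    filter_upwards [eventually_ge_atTop K] with k hk l hl X hX hc hst
    obtain ⟨n, hn, h2⟩ := hX.2 l.length
    have h3 := hst (n - l.length)
    have h4 : X l.length = 0 + dsp l := cyl_pos hc (b := []) (by simp)
    have h5 : (K : ℝ) ≤ k := by exact_mod_cast hk
    simp only [tl, zero_add, Nat.sub_add_cancel hn] at h3 h4
    rw [h4] at h3
    linarith [hl.2]
  filter_upwards [ae_all_iff.2 h1] with X hX hU
  refine tendsto_atTop_atTop.2 fun b => ?_
  obtain ⟨K, hK⟩ := exists_nat_ge b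
  by_contra hc
  push Not at hc
  refine hX K ⟨hU, fun N => ?_⟩
  obtain ⟨n, hn, h2⟩ := hc N
  exact ⟨n, hn, h2.trans_le hK⟩

/-- The walk stays for ever in a slab above its starting height. -/
def Trap (h : Site d →+ ℝ) : Set (ℕ → Site d) :=
  StayR h ∩ {X | ∃ k : ℕ, ∀ n, h (X n) ≤ h (X 0) + k}

lemma measurableSet_trap (h : Site d →+ ℝ) : MeasurableSet (Trap h) :=
  (measurableSet_stayR h).inter (measurableSet_setOfPred.2 (Measurable.exists fun k =>
    Measurable.forall fun n => meas_at2 n 0 fun y z => h y ≤ h z + (k : ℕ)))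

lemma tinv_trap (h : Site d →+ ℝ) : TInv (Trap h) := by
  refine tinv_inter (tinv_stayR h) fun z X => ?_
  simp only [Set.mem_ofPred_eq, tr, map_add, add_right_comm _ (h z), add_le_add_iff_right]

lemma esc_sub_Un (h : Site d →+ ℝ) : EscR h ⊆ Un h := fun X hX k => by
  obtain ⟨M, hM⟩ := tendsto_atTop_atTop.1 hX k
  exact ⟨M, hM M le_rfl⟩

/-- There are no traps if the walk can escape. -/
lemma trap_null (h : Site d →+ ℝ) (hpos : annealed μ 0 (EscR h) ≠ 0) :
    annealed μ 0 (Trap h) = 0 := by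
  by_contra hp
  refine hpos (ladder_null μ h (measurableSet_trap h) (tinv_trap h) Set.inter_subset_left hp
    (measurableSet_escR h) (esc_sub_Un h) (Eventually.of_forall fun k l _ X hX _ hst => ?_))
  obtain ⟨K, hK⟩ := hst.2
  obtain ⟨M, hM⟩ := tendsto_atTop_atTop.1 ((sinv_tl (sinv_escR h) l.length X).2 hX)
    (h (tl l.length X 0) + K + 1)
  linarith [hM M le_rfl, hK M]

/-- The sign-union law. -/
theorem sign_union {h : Site d →+ ℝ} {u : Dir d} (hu : wt μ [u] ≠ 0) (hh : 0 < h (vec u))
    (hpos : annealed μ 0 (EscR h) ≠ 0) : ∀ᵐ X ∂annM μ 0, X ∈ EscR h ∪ EscR (-h) := by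
  have h1 : ∀ᵐ X ∂annM μ 0, X ∉ Un h \ EscR h :=
    ae_not μ ((measurableSet_Un h).diff (measurableSet_escR h)) (esc_of_unboundedR μ h hpos)
  have h2 := ae_tail μ (measurableSet_trap h) (tinv_trap h) (trap_null μ h hpos)
  have h3 : ∀ᵐ X ∂annM μ 0, (∃ t, tl t X ∈ StayR (-h)) → X ∈ Un (-h) → X ∈ EscR (-h) := by
    by_cases hp : annealed μ 0 (StayR (-h)) = 0
    · filter_upwards [ae_tail μ (measurableSet_stayR (-h)) (tinv_stayR (-h)) hp] with X hX ⟨t, ht⟩
      exact absurd ht (hX t)
    · filter_upwards [ae_esc_of_stay μ (-h) hp] with X hX _ using hX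
  filter_upwards [h1, h2, h3, ae_slab μ hu hh] with X a1 a2 a3 a4
  by_cases hU : X ∈ Un h
  · exact Or.inl (by_contra fun hc => a1 ⟨hU, hc⟩)
  · right
    simp only [Un, Set.mem_ofPred_eq, not_forall, not_exists, not_le] at hU
    obtain ⟨k, hk⟩ := hU
    obtain ⟨_, ⟨⟨t, rfl⟩, ht0⟩, ht⟩ := Set.exists_max_image _ h
      (a4 k (h (X 0)) fun n => (hk n).le) ⟨X 0, ⟨0, rfl⟩, le_refl (h (X 0))⟩
    refine a3 ⟨t, fun n => ?_⟩ ?_
    · simp only [tl, zero_add, AddMonoidHom.neg_apply, neg_le_neg_iff]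
      rcases le_total (h (X 0)) (h (X (n + t))) with h4 | h4
      · exact ht _ ⟨⟨_, rfl⟩, h4⟩
      · exact h4.trans ht0
    · by_contra hc
      simp only [Un, Set.mem_ofPred_eq, not_forall, not_exists, not_le,
        AddMonoidHom.neg_apply] at hc
      obtain ⟨j, hj⟩ := hc
      have h5 : ∀ n, X n ∈ Set.range X ∩ {z | -(j : ℝ) ≤ h z} := fun n =>
        ⟨⟨n, rfl⟩, show -(j : ℝ) ≤ h (X n) by linarith [hj n]⟩
      obtain ⟨_, ⟨⟨s, rfl⟩, hs0⟩, hs⟩ := Set.exists_min_image _ h
        (a4 k (-j) fun n => (hk n).le) ⟨X 0, h5 0⟩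
      refine a2 s ⟨fun n => ?_, k + j, fun n => ?_⟩
      · simp only [tl, zero_add]
        exact hs _ (h5 _)
      · simp only [tl, zero_add]
        push_cast
        linarith [hk (n + s), hj s]

end Vale.Agent.N147X.Z
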