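import Vale.Agent.N147X.Brid
import Vale.Agent.N147X.Sign

/-!
# Steps on a line
-/

open MeasureTheory Filter Topology
open scoped ENNReal

namespace Vale.Agent.N147X.Z

variable {d : ℕ} [Steps d] (μ : Measure (Row d)) [IsProbabilityMeasure μ] {L : Site d →+ ℝ}

/-- Displacements of bridges of positive weight. -/
def Lam (L : Site d →+ ℝ) : Set (Site d) := {w | ∃ γ ∈ Br L, wt μ γ ≠ 0 ∧ dsp γ = w}

lemma Lam_add {x y : Site d} (hx : x ∈ Lam μ L) (hy : y ∈ Lam μ L) : x + y ∈ Lam μ L := by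
  obtain ⟨a, ha, h1, rfl⟩ := hx
  obtain ⟨b, hb, h2, rfl⟩ := hy
  refine ⟨a ++ b, Br_append ha hb, ?_, dsp_append a b⟩
  rw [wt_append_Br μ ha (Br_up hb)]
  exact mul_ne_zero h1 h2

lemma Lam_nsmul {x : Site d} (hx : x ∈ Lam μ L) (n : ℕ) : n • x ∈ Lam μ L := by
  induction n with
  | zero => exact ⟨[], mem_Br_nil, by rw [wt_nil]; exact one_ne_zero, by simp⟩
  | succ n ih => rw [succ_nsmul]; exact Lam_add μ ih hx

/-- The group generated by these displacements. -/
def Gam (L : Site d →+ ℝ) (v : Dir d) : Set (Site d) := {w | ∃ m : ℕ, w + m • vec v ∈ Lam μ L}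

lemma Gam_add {v : Dir d} {x y : Site d} (hx : x ∈ Gam μ L v) (hy : y ∈ Gam μ L v) :
    x + y ∈ Gam μ L v := by
  obtain ⟨m, hm⟩ := hx
  obtain ⟨n, hn⟩ := hy
  refine ⟨m + n, ?_⟩
  convert Lam_add μ hm hn using 1
  rw [add_nsmul]
  abel

variable (hμ : Eff μ) {v : Dir d} (hv : L (vec v) = 1)
include hμ hv

lemma Lam_top (k : ℕ) : k • vec v ∈ Lam μ L :=
  ⟨_, replicate_Br hv k, wt_replicate μ hμ hv k, dsp_replicate k v⟩

lemma Gam_zsmul (j : ℤ) : j • vec v ∈ Gam μ L v := by
  refine ⟨j.natAbs, ?_⟩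
  convert Lam_top μ hμ hv (j + j.natAbs).toNat using 1
  rw [← natCast_zsmul, ← natCast_zsmul, ← add_smul, Int.toNat_of_nonneg (by omega)]

variable (hcol : ∀ (u : Dir d) (i : Fin d), (vec u i : ℝ) = L (vec u) * vec v i)
include hcol

lemma Gam_step (u : Dir d) : vec u ∈ Gam μ L v ∧ -vec u ∈ Gam μ L v := by
  by_cases hu : ∃ j : ℤ, vec u = j • vec v
  · obtain ⟨j, hj⟩ := hu
    rw [hj, ← neg_smul]
    exact ⟨Gam_zsmul μ hμ hv _, Gam_zsmul μ hμ hv _⟩
  · push Not at hu
    obtain ⟨k, b, hb, hw, hd⟩ := exists_bridge μ hμ hv hu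
    have h1 : vec u + k • vec v ∈ Lam μ L := ⟨b, hb, hw, hd⟩
    refine ⟨⟨k, h1⟩, ?_⟩
    have h2 : 0 ≤ L (vec u + k • vec v) := hd ▸ Br_nonneg hb
    have h3 : ∀ i, ((vec u + k • vec v) i : ℝ) = L (vec u + k • vec v) * vec v i := by
      intro i
      rw [map_add, map_nsmul, hv, Pi.add_apply, Pi.smul_apply, Int.cast_add, hcol u i]
      simp only [nsmul_eq_mul, Int.cast_mul, Int.cast_natCast]
      ring
    set w := vec u + k • vec v with hw'
    obtain ⟨i, hi⟩ : ∃ i, vec v i ≠ 0 := by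
      by_contra hc
      push Not at hc
      rw [show vec v = 0 from funext hc, map_zero] at hv
      exact zero_ne_one hv
    obtain ⟨n, hn⟩ : ∃ n, (vec v i).natAbs = n + 1 := ⟨(vec v i).natAbs - 1, by omega⟩
    have h4 : (n + 1) • w = (w i).natAbs • vec v := by
      funext j
      apply Int.cast_injective (α := ℝ)
      rw [← hn]
      rw [Pi.smul_apply, Pi.smul_apply, nsmul_eq_mul, nsmul_eq_mul, Int.natCast_natAbs,
        Int.natCast_natAbs, Int.cast_mul, Int.cast_mul, Int.cast_abs, Int.cast_abs,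
        h3 i, h3 j, abs_mul, abs_of_nonneg h2]
      ring
    refine ⟨(w i).natAbs, ?_⟩
    convert Lam_add μ (Lam_top μ hμ hv k) (Lam_nsmul μ h1 n) using 1
    rw [← h4, succ_nsmul, hw']
    abel

lemma Gam_dsp (l : List (Dir d)) : dsp l ∈ Gam μ L v ∧ -dsp l ∈ Gam μ L v := by
  induction l with
  | nil =>
    have := Gam_zsmul μ hμ hv 0
    rw [zero_smul] at this
    simpa using this
  | cons u l ih =>
    rw [dsp_cons, neg_add]
    exact ⟨Gam_add μ (Gam_step μ hμ hv hcol u).1 ih.1, Gam_add μ (Gam_step μ hμ hv hcol u).2 ih.2⟩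

omit [IsProbabilityMeasure μ] hμ hv in
lemma col_dsp (l : List (Dir d)) (i : Fin d) : (dsp l i : ℝ) = L (dsp l) * vec v i := by
  induction l with
  | nil => simp
  | cons u l ih => rw [dsp_cons, map_add, Pi.add_apply, Int.cast_add, ih, hcol, add_mul]

omit hcol in
/-- Finitely many displacements are realised with a uniform lower bound. -/
lemma uniform_bridge (F : Finset (Site d)) : ∃ (K : ℕ) (η : ℝ≥0∞), η ≠ 0 ∧ ∀ w ∈ F,
    w ∈ Gam μ L v → ∃ γ ∈ Br L, η ≤ wt μ γ ∧ dsp γ = w + K • vec v := by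
  classical
  have h1 : ∀ᶠ K : ℕ in atTop, ∀ w ∈ F, w ∈ Gam μ L v → w + K • vec v ∈ Lam μ L := by
    refine (eventually_all_finset F).2 fun w _ => ?_
    by_cases hw : w ∈ Gam μ L v
    · obtain ⟨m, hm⟩ := hw
      filter_upwards [eventually_ge_atTop m] with K hK _
      obtain ⟨j, rfl⟩ := Nat.exists_eq_add_of_le hK
      rw [add_nsmul, ← add_assoc]
      exact Lam_add μ hm (Lam_top μ hμ hv j)
    · exact Eventually.of_forall fun K h => absurd h hw
  obtain ⟨K, hK⟩ := h1.exists
  choose! γ h2 h3 h4 using hK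
  refine ⟨K, (F.filter (· ∈ Gam μ L v)).inf fun w => wt μ (γ w), ?_, fun w hw hw' =>
    ⟨γ w, h2 w hw hw', Finset.inf_le (f := fun w => wt μ (γ w))
      (Finset.mem_filter.2 ⟨hw, hw'⟩), h4 w hw hw'⟩⟩
  refine ((Finset.lt_inf_iff ENNReal.zero_lt_top).2 fun w hw => ?_).ne'
  rw [Finset.mem_filter] at hw
  exact pos_iff_ne_zero.2 (h3 w hw.1 hw.2)

omit hμ hv hcol

omit [IsProbabilityMeasure μ] in
lemma Fp_over {h : Site d →+ ℝ} {R : ℕ} (hR : ∀ u : Dir d, |h (vec u)| ≤ R) {a : ℝ} (ha : 0 ≤ a)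
    {l : List (Dir d)} (hl : l ∈ Fp h a) : h (dsp l) ≤ a + R := by
  rcases List.eq_nil_or_concat' l with rfl | ⟨l', u, rfl⟩
  · simp only [dsp_nil, map_zero]
    positivity
  · have h2 := (hl.1 _ (mem_exits.2 ⟨l', [u], rfl, by simp, (zero_add _).symm⟩)).2
    have h3 := (abs_le.1 (hR u)).2
    rw [dsp_append, map_add, dsp_cons, dsp_nil, add_zero]
    linarith

lemma exists_seq_forall_le_of_tendsto {f : ℕ → ℝ} (hf : Tendsto f atTop atTop) :
    ∃ b, ∀ n, b ≤ f n := by
  obtain ⟨M, hM⟩ := tendsto_atTop_atTop.1 hf (f 0)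
  obtain ⟨t, _, ht⟩ := Finset.exists_min_image (Finset.range (M + 1)) f ⟨0, by simp⟩
  refine ⟨f t, fun n => ?_⟩
  rcases Nat.lt_or_ge n (M + 1) with hn | hn
  · exact ht n (Finset.mem_range.2 hn)
  · exact (ht 0 (by simp)).trans (hM n (by omega))

/-- A walk that has climbed very high does not escape downwards. -/
lemma small_return (h : Site d →+ ℝ) {ε : ℝ≥0∞} (hε : ε ≠ 0) : ∀ᶠ M : ℕ in atTop, ∀ x : Site d,
    ∑' α : Fp h M, ∫⁻ ω, qw ω x α.1 * quenched ω (x + dsp α.1) (EscR (-h)) ∂envLaw μ ≤ ε := by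
  set C : ℕ → Set (ℕ → Site d) := fun M => EscR (-h) ∩ {X | ∃ n, M + h (X 0) ≤ h (X n)} with hC
  have hm : ∀ M, MeasurableSet (C M) := fun M => (measurableSet_escR _).inter
    (measurableSet_setOfPred.2 (Measurable.exists fun n => meas_at2 0 n fun y z => M + h y ≤ h z))
  have hT : ∀ M, TInv (C M) := fun M => tinv_inter (tinv_escR _) fun z X => by
    simp only [Set.mem_ofPred_eq, tr, map_add, ← add_assoc, add_le_add_iff_right]
  have hanti : Antitone C := fun M N hMN X hX => ⟨hX.1, by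
    obtain ⟨n, hn⟩ := hX.2
    have : (M : ℝ) ≤ N := by exact_mod_cast hMN
    exact ⟨n, by linarith⟩⟩
  have he : ⋂ M, C M = ∅ := by
    refine Set.eq_empty_of_forall_notMem fun X hX => ?_
    rw [Set.mem_iInter] at hX
    obtain ⟨b, hb⟩ := exists_seq_forall_le_of_tendsto (hX 0).1
    obtain ⟨M, hM⟩ := exists_nat_gt (-b - h (X 0))
    obtain ⟨n, hn⟩ := (hX M).2
    have := hb n
    simp only [AddMonoidHom.neg_apply] at this
    linarith
  have ht := tendsto_measure_iInter_atTop (μ := annM μ 0) (fun M => (hm M).nullMeasurableSet)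
    hanti ⟨0, measure_ne_top _ _⟩
  rw [he, measure_empty] at ht
  filter_upwards [ht.eventually (ge_mem_nhds (pos_iff_ne_zero.2 hε))] with M hM x
  refine le_trans ?_ hM
  have hB := measurableSet_escR (-h)
  have hm2 : ∀ α : Fp h M, MeasurableSet (cyl x α.1 ∩ tl α.1.length ⁻¹' EscR (-h)) := fun α =>
    (measurableSet_cyl _ _).inter (measurable_tl _ hB)
  calc _ = ∑' α : Fp h M, annM μ x (cyl x α.1 ∩ tl α.1.length ⁻¹' EscR (-h)) := by
        refine tsum_congr fun α => ?_
        rw [annM_apply μ x (hm2 α)]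
        exact lintegral_congr fun ω => (quenched_markov ω x α.1 hB).symm
    _ = annM μ x (⋃ α : Fp h M, cyl x α.1 ∩ tl α.1.length ⁻¹' EscR (-h)) := by
        refine (measure_iUnion (fun a b hab => ?_) hm2).symm
        exact (cyl_disjoint (Fp_free h M) a.2 b.2 fun e => hab (Subtype.ext e)).mono
          Set.inter_subset_left Set.inter_subset_left
    _ ≤ annM μ x (C M) := by
        refine measure_mono (Set.iUnion_subset fun α X hX => ⟨(sinv_tl (sinv_escR _) _ X).1 hX.2,
          α.1.length, ?_⟩)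
        have h1 : X α.1.length = x + dsp α.1 := cyl_pos hX.1 (b := []) (by simp)
        have h2 : X 0 = x := by simpa using hX.1 0 (Nat.zero_le _)
        rw [h1, h2, map_add]
        linarith [α.2.2]
    _ = annM μ 0 (C M) := by
        rw [annM_apply μ x (hm M), annM_apply μ 0 (hm M), annealed_tinv μ x (hm M) (hT M)]

lemma fu_pos {h : Site d →+ ℝ} (hp : annealed μ 0 (EscR h) ≠ 0) :
    ∃ q : ℝ≥0∞, q ≠ 0 ∧ ∀ a, q ≤ fu μ h a := by
  refine ⟨annealed μ 0 (UpR h), ?_, fun a => upR_le_fu μ h a⟩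
  have h1 := upR_pos μ h (B := Set.univ) MeasurableSet.univ (fun _ _ => Iff.rfl)
    (fun _ => Iff.rfl) (by rwa [Set.inter_univ])
  rwa [Set.inter_univ] at h1

/-- Escape in two opposite directions is impossible if the steps are on a line. -/
theorem rank_one (hμ : Eff μ) (hv : L (vec v) = 1)
    (hcol : ∀ (u : Dir d) (i : Fin d), (vec u i : ℝ) = L (vec u) * vec v i)
    (hp : annealed μ 0 (EscR L) ≠ 0) (hn : annealed μ 0 (EscR (-L)) ≠ 0) : False := by
  obtain ⟨q, hq0, hq⟩ := fu_pos μ hp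
  obtain ⟨p, hp0, hp'⟩ := fu_pos μ hn
  obtain ⟨R, hR⟩ := exists_boundR L
  have hR' : ∀ u : Dir d, |(-L) (vec u)| ≤ R := fun u => by
    rw [AddMonoidHom.neg_apply, abs_neg]; exact hR u
  obtain ⟨K, η, hη, hK⟩ := uniform_bridge μ hμ hv (bx d (2 * R * bd d))
  have hE := measurableSet_escR L
  have hE' := measurableSet_escR (-L)
  have hone : ∀ᵐ ω ∂envLaw μ, ∀ y, 1 ≤ quenched ω y (EscR L) + quenched ω y (EscR (-L)) := by
    refine ae_all_iff.2 fun y => ?_
    have hm := (hE.union hE').compl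
    have h1 : annealed μ y (EscR L ∪ EscR (-L))ᶜ = 0 := by
      rw [annealed_tinv μ y hm fun z X => not_congr (or_congr (tinv_escR L z X)
        (tinv_escR (-L) z X)), ← annM_apply μ 0 hm]
      exact sign_union μ (hμ v) (by rw [hv]; exact one_pos) hp
    filter_upwards [(lintegral_eq_zero_iff (measurable_quenched_apply y hm)).1 h1] with ω hω
    rw [← (prob_compl_eq_zero_iff (hE.union hE')).1 hω]
    exact measure_union_le _ _
  have hfin : ∀ (h : Site d →+ ℝ) {r : ℝ≥0∞}, (∀ a, r ≤ fu μ h a) → r ≠ ⊤ := fun h r hr =>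
    ne_top_of_le_ne_top ENNReal.one_ne_top ((hr 0).trans (tsum_wt_le_one μ (Fp_free h 0)))
  set δ : ℝ≥0∞ := q * min η 1 * p with hδ
  have hδ0 : δ ≠ 0 := mul_ne_zero (mul_ne_zero hq0 (lt_min (pos_iff_ne_zero.2 hη) one_pos).ne') hp0
  have hδt : δ ≠ ⊤ := ENNReal.mul_ne_top (ENNReal.mul_ne_top (hfin L hq)
    (ne_top_of_le_ne_top ENNReal.one_ne_top (min_le_right _ _))) (hfin _ hp')
  have hε : δ / 2 / 2 ≠ 0 := (ENNReal.half_pos (ENNReal.half_pos hδ0).ne').ne'
  obtain ⟨M, hM1, hM2⟩ := ((small_return μ L hε).and (small_return μ (-L) hε)).exists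
  rw [neg_neg] at hM2
  set z : Site d := (M + M + K) • vec v with hz
  have key : ∀ (α : Fp L M) (β : Fp (-L) M), wt μ α.1 * min η 1 * wt μ β.1 ≤
      ∫⁻ ω, qw ω 0 α.1 * quenched ω (0 + dsp α.1) (EscR (-L)) * qw ω z β.1 +
        qw ω 0 α.1 * (qw ω z β.1 * quenched ω (z + dsp β.1) (EscR L)) ∂envLaw μ := by
    rintro ⟨α, hα⟩ ⟨β, hβ⟩
    have a1 := hα.2
    have a2 := Fp_over hR (Nat.cast_nonneg M) hα
    have b1 := hβ.2
    have b2 := Fp_over hR' (Nat.cast_nonneg M) hβ
    rw [AddMonoidHom.neg_apply] at b1 b2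
    obtain ⟨γ, hγ, hw, hd⟩ := hK (((M + M : ℕ) : ℤ) • vec v + (dsp β + -dsp α)) (by
      rw [tl_mem_bx]
      intro i
      rw [← abs_le]
      apply (Int.cast_le (R := ℝ)).1
      have h1 : |(vec v i : ℝ)| ≤ bd d := by exact_mod_cast abs_vec_le_bd v i
      have h2 : ((((M + M : ℕ) : ℤ) • vec v + (dsp β + -dsp α)) i : ℝ) =
          (M + M + L (dsp β) - L (dsp α)) * vec v i := by
        simp only [Pi.add_apply, Pi.smul_apply, Pi.neg_apply, smul_eq_mul]
        push_cast
        rw [col_dsp hcol β, col_dsp hcol α]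
        ring
      rw [Int.cast_abs, h2, abs_mul]
      push_cast
      exact mul_le_mul (abs_le.2 ⟨by linarith, by linarith⟩) h1 (abs_nonneg _) (by positivity))
      (Gam_add μ (Gam_zsmul μ hμ hv _)
        (Gam_add μ (Gam_dsp μ hμ hv hcol β).1 (Gam_dsp μ hμ hv hcol α).2))
    have hy : 0 + dsp α + dsp γ = z + dsp β := by
      rw [hd, hz, natCast_zsmul, add_nsmul _ (M + M)]
      abel
    have hdis : Disjoint (exits 0 (α ++ γ)) (exits z β) := by
      rw [Finset.disjoint_left]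
      intro x h1 h2
      have h3 := (Br_append (Fp_subset_Br hα) hγ x h1).2
      have h4 := (hβ.1 _ (mem_exits_shift.1 h2)).2
      rw [dsp_append, ← zero_add (dsp α), hy, map_add] at h3
      rw [AddMonoidHom.neg_apply, map_sub] at h4
      linarith
    calc wt μ α * min η 1 * wt μ β ≤ wt μ α * wt μ γ * wt μ β := by
          gcongr
          exact (min_le_left _ _).trans hw
      _ = ∫⁻ ω, qw ω 0 (α ++ γ) * qw ω z β ∂envLaw μ := by
          rw [lintegral_mul_of_disjoint μ 0 z _ _ hdis,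
            wt_append_Br μ (Fp_subset_Br hα) (Br_up hγ)]
      _ ≤ _ := by
          refine lintegral_mono_ae ?_
          filter_upwards [hone] with ω hω
          have h1 : qw ω (0 + dsp α) γ * quenched ω (z + dsp β) (EscR (-L)) ≤
              quenched ω (0 + dsp α) (EscR (-L)) := by
            rw [← hy, ← quenched_markov ω _ γ hE']
            exact measure_mono fun X hX => (sinv_tl (sinv_escR _) _ X).1 hX.2
          have h2 : qw ω (0 + dsp α) γ ≤
              quenched ω (0 + dsp α) (EscR (-L)) + quenched ω (z + dsp β) (EscR L) := by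
            calc qw ω (0 + dsp α) γ = qw ω (0 + dsp α) γ * 1 := (mul_one _).symm
              _ ≤ qw ω (0 + dsp α) γ * (quenched ω (z + dsp β) (EscR L) +
                  quenched ω (z + dsp β) (EscR (-L))) := by gcongr; exact hω _
              _ ≤ _ := by
                rw [mul_add, add_comm]
                exact add_le_add h1 (mul_le_of_le_one_left zero_le (qw_le_one _ _ _))
          rw [qw_append]
          calc _ ≤ qw ω 0 α * (quenched ω (0 + dsp α) (EscR (-L)) +
                quenched ω (z + dsp β) (EscR L)) * qw ω z β := by gcongr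
            _ = _ := by ring
  have m1 : ∀ α : List (Dir d), Measurable fun ω : Env d =>
      qw ω 0 α * quenched ω (0 + dsp α) (EscR (-L)) := fun α =>
    (measurable_qw _ _).mul (measurable_quenched_apply _ hE')
  have m2 : ∀ β : List (Dir d), Measurable fun ω : Env d =>
      qw ω z β * quenched ω (z + dsp β) (EscR L) := fun β =>
    (measurable_qw _ _).mul (measurable_quenched_apply _ hE)
  have m3 : ∀ α β : List (Dir d), Measurable fun ω : Env d =>
      qw ω 0 α * quenched ω (0 + dsp α) (EscR (-L)) * qw ω z β := fun α β =>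
    (m1 _).mul (measurable_qw _ _)
  have m4 : ∀ α β : List (Dir d), Measurable fun ω : Env d =>
      qw ω 0 α * (qw ω z β * quenched ω (z + dsp β) (EscR L)) := fun α β =>
    (measurable_qw _ _).mul (m2 _)
  have hfinal : δ ≤ δ / 2 / 2 + δ / 2 / 2 := by
    calc δ ≤ fu μ L M * min η 1 * fu μ (-L) M := by
          rw [hδ]
          gcongr
          · exact hq _
          · exact hp' _
      _ = ∑' α : Fp L M, ∑' β : Fp (-L) M, wt μ α.1 * min η 1 * wt μ β.1 := by
          simp only [fu, ENNReal.tsum_mul_left, ENNReal.tsum_mul_right]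
      _ ≤ ∑' α : Fp L M, ∑' β : Fp (-L) M,
          (∫⁻ ω, qw ω 0 α.1 * quenched ω (0 + dsp α.1) (EscR (-L)) * qw ω z β.1 ∂envLaw μ +
          ∫⁻ ω, qw ω 0 α.1 * (qw ω z β.1 * quenched ω (z + dsp β.1) (EscR L)) ∂envLaw μ) := by
          refine ENNReal.tsum_le_tsum fun α => ENNReal.tsum_le_tsum fun β => ?_
          rw [← lintegral_add_left (m3 _ _)]
          exact key α β
      _ = ∑' α : Fp L M, ∑' β : Fp (-L) M,
          ∫⁻ ω, qw ω 0 α.1 * quenched ω (0 + dsp α.1) (EscR (-L)) * qw ω z β.1 ∂envLaw μ +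
          ∑' β : Fp (-L) M, ∑' α : Fp L M,
          ∫⁻ ω, qw ω 0 α.1 * (qw ω z β.1 * quenched ω (z + dsp β.1) (EscR L)) ∂envLaw μ := by
          rw [ENNReal.tsum_comm (α := Fp (-L) M), ← ENNReal.tsum_add]
          exact tsum_congr fun α => ENNReal.tsum_add
      _ ≤ _ := by
          refine add_le_add (le_trans (ENNReal.tsum_le_tsum fun α => ?_) (hM1 0))
            (le_trans (ENNReal.tsum_le_tsum fun β => ?_) (hM2 z))
          · rw [← lintegral_tsum fun β : Fp (-L) M => (m3 α β).aemeasurable]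
            refine lintegral_mono fun ω => ?_
            simp only [ENNReal.tsum_mul_left]
            exact mul_le_of_le_one_right zero_le (tsum_qw_le_one (Fp_free _ _) ω z)
          · rw [← lintegral_tsum fun α : Fp L M => (m4 α β).aemeasurable]
            refine lintegral_mono fun ω => ?_
            simp only [ENNReal.tsum_mul_right]
            exact mul_le_of_le_one_left zero_le (tsum_qw_le_one (Fp_free _ _) ω 0)
  rw [ENNReal.add_halves] at hfinal
  exact absurd hfinal (not_le.2 (ENNReal.half_lt_self hδ0 hδt))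

end Vale.Agent.N147X.Z
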