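import Vale.Agent.N147X.B4
import Vale.Agent.N147X.Line

/-!
# The zero-one law for steps of positive mean probability
-/

open MeasureTheory Filter Topology
open scoped ENNReal

namespace Vale.Agent.N147X.Z

variable {d : ℕ} [Steps d] (μ : Measure (Row d)) [IsProbabilityMeasure μ]

lemma exists_up {h : Site d →+ ℝ} (hp : annealed μ 0 (EscR h) ≠ 0) :
    ∃ u : Dir d, 0 < h (vec u) := by
  by_contra hc
  push Not at hc
  have h1 : ∀ l : List (Dir d), h (dsp l) ≤ 0 := by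
    intro l
    induction l with
    | nil => simp
    | cons u l ih => rw [dsp_cons, map_add]; linarith [hc u]
  refine hp ?_
  rw [← annM_apply μ 0 (measurableSet_escR h), measure_eq_zero_iff_ae_notMem]
  filter_upwards [ae_good μ 0] with X hg hX
  obtain ⟨M, hM⟩ := tendsto_atTop_atTop.1 hX 1
  obtain ⟨l, hl, hXl⟩ := hg M
  have h2 : X l.length = 0 + dsp l := cyl_pos hXl (b := []) (by simp)
  have h3 := hM M le_rfl
  rw [← mem_lists.1 hl, h2, zero_add] at h3
  linarith [h1 l]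

omit μ in
lemma exists_lvl {h : Site d →+ ℝ} (hu : ∃ u : Dir d, 0 < h (vec u)) :
    ∃ (c : ℝ) (L : Site d →+ ℝ), 0 < c ∧ (∀ x, L x = c * h x) ∧ Lvl L := by
  obtain ⟨u, hu⟩ := hu
  obtain ⟨v, -, hv⟩ := Finset.exists_max_image Finset.univ (fun u : Dir d => h (vec u))
    ⟨u, Finset.mem_univ u⟩
  have h0 : 0 < h (vec v) := hu.trans_le (hv u (Finset.mem_univ u))
  refine ⟨(h (vec v))⁻¹, (AddMonoidHom.mulLeft (h (vec v))⁻¹).comp h, inv_pos.2 h0,
    fun _ => rfl, fun w => ?_, v, inv_mul_cancel₀ h0.ne'⟩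
  exact inv_mul_le_one_of_le₀ (hv w (Finset.mem_univ w)) h0.le

omit μ [Steps d] in
lemma esc_scale {h L : Site d →+ ℝ} {c : ℝ} (hc : 0 < c) (hL : ∀ x, L x = c * h x) :
    EscR L = EscR h := by
  ext X
  simp only [EscR, Set.mem_ofPred_eq, hL]
  exact tendsto_const_mul_atTop_of_pos hc

theorem not_both (hμ : Eff μ) {h : Site d →+ ℝ} (hp : annealed μ 0 (EscR h) ≠ 0)
    (hn : annealed μ 0 (EscR (-h)) ≠ 0) : False := by
  obtain ⟨c, L, hc, hL, h1⟩ := exists_lvl (exists_up μ hp)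
  rw [← esc_scale hc hL] at hp
  rw [← esc_scale (L := -L) hc fun x => by simp [hL]] at hn
  obtain ⟨c', L', hc', hL', h2⟩ := exists_lvl (exists_up μ hn)
  by_cases h3 : NonCol L'
  · obtain ⟨q, hq0, hq⟩ := fu_pos μ hp
    obtain ⟨p, hp0, hp'⟩ := fu_pos μ hn
    exact core μ hμ ⟨c', L', hc', hL', h2, h3⟩ h1 hq0 hq hp0 hp'
  · obtain ⟨v, hv⟩ := h2.top
    refine rank_one μ hμ hv (fun u i => by_contra fun h4 => h3 ⟨v, hv, u, i, h4⟩) ?_ ?_
    · rwa [esc_scale hc' hL']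
    · rwa [esc_scale (L := -L') (h := L) hc' fun x => by simp [hL']]

theorem zero_oneR (hμ : Eff μ) (h : Site d →+ ℝ) :
    annealed μ 0 (EscR h) = 0 ∨ annealed μ 0 (EscR h) = 1 := by
  refine or_iff_not_imp_left.2 fun hp => ?_
  obtain ⟨u, hu⟩ := exists_up μ hp
  have hn : annealed μ 0 (EscR (-h)) = 0 := by_contra fun hn => not_both μ hμ hp hn
  rw [← annM_apply μ 0 (measurableSet_escR h), ← prob_compl_eq_zero_iff (measurableSet_escR h)]
  change ∀ᵐ X ∂annM μ 0, X ∈ EscR h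
  filter_upwards [sign_union μ (hμ u) hu hp, ae_not μ (measurableSet_escR (-h)) hn] with X h1 h2
  exact h1.resolve_right h2

end Vale.Agent.N147X.Z
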