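import Vale.Agent.N147X.Defs
import Vale.Agent.N147X.Fin
import Mathlib.Probability.Process.FiniteDimensionalLaws

/-!
# P147: the quenched law, the annealed law, reduction to the steps of positive mean probability
-/

open MeasureTheory ProbabilityTheory Filter Set
open scoped ENNReal

namespace Vale.Agent.N147X.W

open Vale.Agent.N147X (Steps Dir vec quenched stepLaw pc)

variable {d : ℕ} {U : Finset (Site d)}

theorem measurable_row (e : U) : Measurable fun p : Row U => p.1 e :=
  (measurable_pi_apply e).comp measurable_subtype_coe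

theorem measurableSet_at (n : ℕ) (z : Site d) : MeasurableSet {X : Paths d | X n = z} :=
  measurableSet_eq_fun (measurable_pi_apply n) measurable_const

theorem sum_row (p : Row U) : ∑ e, ENNReal.ofReal (p.1 e) = 1 := by
  rw [← ENNReal.ofReal_sum_of_nonneg fun e _ => p.2.1 e, p.2.2, ENNReal.ofReal_one]

theorem pc_succ (n : ℕ) (g : Paths d) :
    pc (n + 1) g = pc n g ∩ {X | X (n + 1) = g (n + 1)} := by
  ext X
  refine ⟨fun h => ⟨fun i hi => h i (by omega), h _ le_rfl⟩, fun h i hi => ?_⟩
  rcases Nat.lt_or_ge n i with h1 | h1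
  · obtain rfl : i = n + 1 := by omega
    exact h.2
  · exact h.1 i h1

theorem pc_zero (g : Paths d) : pc 0 g = {X | X 0 = g 0} := by
  ext X
  simp [pc]

/-- only steps of `U` are made -/
theorem rest_zero {Ω : Type*} [MeasurableSpace Ω] (ν : Measure Ω) [IsFiniteMeasure ν]
    {f : Ω → Site d} (hf : Measurable f) {y z : Site d}
    (h : ∑ e : U, ν {a | f a = y + e} = ν univ) (hz : ∀ e : U, z ≠ y + e) :
    ν {a | f a = z} = 0 := by
  have hm : ∀ e : U, MeasurableSet {a | f a = y + e} := fun e =>
    hf (MeasurableSet.singleton _)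
  have h1 : ν (⋃ e : U, {a | f a = y + e}) = ν univ := by
    rw [measure_iUnion (fun e e' hne => ?_) hm, tsum_fintype, h]
    refine disjoint_left.2 fun a h2 h3 => hne (Subtype.ext ?_)
    exact add_left_cancel ((show f a = y + e from h2).symm.trans h3)
  have h2 : ν (⋃ e : U, {a | f a = y + e})ᶜ = 0 := by
    rw [measure_compl (MeasurableSet.iUnion hm) (measure_ne_top _ _), h1, tsub_self]
  refine measure_mono_null (fun a ha => ?_) h2
  intro h3
  obtain ⟨e, he⟩ := mem_iUnion.1 h3
  exact hz e ((show f a = z from ha).symm.trans he)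

instance (μ : Measure (Row U)) [IsProbabilityMeasure μ] : IsProbabilityMeasure (envLaw μ) := by
  unfold envLaw
  infer_instance

/-- the inner product with `l` -/
noncomputable def ip (l : Fin d → ℝ) : Site d →+ ℝ where
  toFun x := ∑ i, (x i : ℝ) * l i
  map_zero' := by simp
  map_add' x y := by simp only [Pi.add_apply, Int.cast_add, add_mul, Finset.sum_add_distrib]

section

variable [Steps d]

/-- a finite measure on paths is determined by the finite histories -/
theorem ext_pc {P P' : Measure (Paths d)} [IsFiniteMeasure P]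
    (h : ∀ n g, P (pc n g) = P' (pc n g)) : P = P' := by
  have h1 := isProjectiveMeasureFamily_map_restrict (P := P) (X := fun n (X : Paths d) => X n)
    fun n => (measurable_pi_apply n).aemeasurable
  refine IsProjectiveLimit.unique (P := fun I => P.map fun X : Paths d => I.restrict fun n => X n)
    (fun _ => rfl) ((isProjectiveLimit_nat_iff h1 P').2 fun n => ?_)
  refine Measure.ext_of_singleton fun t => ?_
  have h2 : t = fun i : Finset.Iic n =>
      (fun i : ℕ => if hi : i ≤ n then t ⟨i, Finset.mem_Iic.2 hi⟩ else 0) i := by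
    funext i
    simp only [dif_pos (Finset.mem_Iic.1 i.2)]
  have h3 := Vale.Agent.N147X.frestrictLe_preimage n
    fun i : ℕ => if hi : i ≤ n then t ⟨i, Finset.mem_Iic.2 hi⟩ else 0
  rw [← h2] at h3
  have h4 : Measurable (Preorder.frestrictLe (π := fun _ : ℕ => Site d) n) :=
    Preorder.measurable_frestrictLe n
  refine (Measure.map_apply h4 (MeasurableSet.singleton t)).trans
    (Eq.trans ?_ (Measure.map_apply h4 (MeasurableSet.singleton t)).symm)
  rw [h3, h]

variable (ι : Dir d → U) (p0 : Vale.Agent.N147X.Row d)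

open Classical in
/-- restriction of a row to a family of steps -/
noncomputable def toRow (p : Row U) : Vale.Agent.N147X.Row d :=
  if h : ∑ u, p.1 (ι u) = 1 then ⟨fun u => p.1 (ι u), fun _ => p.2.1 _, h⟩ else p0

theorem measurable_toRow : Measurable (toRow ι p0) := by
  have h1 : MeasurableSet {p : Row U | ∑ u, p.1 (ι u) = 1} :=
    measurableSet_eq_fun (Finset.measurable_sum _ fun u _ => measurable_row _) measurable_const
  have h2 : Measurable fun p : Row U => (toRow ι p0 p).1 := by
    have : (fun p : Row U => (toRow ι p0 p).1) = fun p : Row U => by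
        classical exact if ∑ u, p.1 (ι u) = 1 then fun u => p.1 (ι u) else p0.1 := by
      funext p
      unfold toRow
      split_ifs <;> rfl
    rw [this]
    exact Measurable.ite h1 (measurable_pi_lambda _ fun u => measurable_row _) measurable_const
  exact h2.subtype_mk

/-- restriction of an environment -/
noncomputable def toEnv (ω : Env U) : Vale.Agent.N147X.Env d := fun z => toRow ι p0 (ω z)

theorem measurable_toEnv : Measurable (toEnv ι p0) :=
  measurable_pi_lambda _ fun z => (measurable_toRow ι p0).comp (measurable_pi_apply z)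

/-- the quenched law -/
noncomputable def Q (x : Site d) (ω : Env U) : Measure (Paths d) := quenched (toEnv ι p0 ω) x

instance (x : Site d) (ω : Env U) : IsProbabilityMeasure (Q ι p0 x ω) := by
  unfold Q
  infer_instance

theorem measurable_Q (x : Site d) : Measurable (Q ι p0 x) :=
  (Vale.Agent.N147X.measurable_quenched x).comp (measurable_toEnv ι p0)

theorem step_not (ω : Vale.Agent.N147X.Env d) {y z : Site d} (h : ∀ u : Dir d, z ≠ y + vec u) :
    stepLaw ω y {z} = 0 := by
  simp only [stepLaw, Measure.coe_finsetSum, Finset.sum_apply, Measure.coe_smul, Pi.smul_apply,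
    smul_eq_mul]
  refine Finset.sum_eq_zero fun u _ => ?_
  rw [Measure.dirac_apply' _ (MeasurableSet.singleton _), Set.indicator_of_notMem, mul_zero]
  exact fun h1 => h u (mem_singleton_iff.1 h1).symm

/-- the one step formula for the quenched law -/
theorem Q_step (x : Site d) (ω : Env U) (n : ℕ) (g : Paths d) (z : Site d) :
    Q ι p0 x ω (pc n g ∩ {X | X (n + 1) = z}) = Q ι p0 x ω (pc n g) * stepLaw (toEnv ι p0 ω) (g n) {z} := by
  have h1 : pc n (Function.update g (n + 1) z) = pc n g := by
    ext X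
    refine forall_congr' fun i => forall_congr' fun hi => ?_
    rw [Function.update_of_ne (by omega)]
  have h2 := Vale.Agent.N147X.quenched_pc_succ (toEnv ι p0 ω) x n (Function.update g (n + 1) z)
  rw [pc_succ, h1, Function.update_self, Function.update_of_ne (by omega)] at h2
  exact h2

theorem annealed_eq (μ : Measure (Row U)) [IsProbabilityMeasure μ] (x : Site d)
    {B : Set (Paths d)} (hB : MeasurableSet B) :
    ∫⁻ ω, Q ι p0 x ω B ∂envLaw μ = Vale.Agent.N147X.annealed (μ.map (toRow ι p0)) x B := by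
  have h1 : Vale.Agent.N147X.envLaw (μ.map (toRow ι p0)) = (envLaw μ).map (toEnv ι p0) :=
    (Measure.infinitePi_map_pi (fun _ : Site d => μ) fun _ => measurable_toRow ι p0).symm
  rw [Vale.Agent.N147X.annealed, h1,
    lintegral_map (Vale.Agent.N147X.measurable_quenched_apply x hB) (measurable_toEnv ι p0)]
  rfl

variable {ι} (hι : ∀ u, (ι u : Site d) = vec u)
include hι

theorem toRow_val {p : Row U} (hp : ∀ e, e ∉ range ι → p.1 e = 0) (u : Dir d) :
    (toRow ι p0 p).1 u = p.1 (ι u) := by
  have hi : Function.Injective ι := fun a b h =>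
    Vale.Agent.N147X.vec_injective (by rw [← hι, ← hι, h])
  have h1 : ∑ u, p.1 (ι u) = 1 :=
    (Fintype.sum_of_injective ι hi _ _ hp fun _ => rfl).trans p.2.2
  rw [toRow, dif_pos h1]

theorem step_of {ω : Env U} {y : Site d} (hω : ∀ e, e ∉ range ι → (ω y).1 e = 0) (e : U) :
    stepLaw (toEnv ι p0 ω) y {y + e} = ENNReal.ofReal ((ω y).1 e) := by
  by_cases h : e ∈ range ι
  · obtain ⟨u, rfl⟩ := h
    rw [hι, Vale.Agent.N147X.stepLaw_vec, ← toRow_val p0 hι hω]
    rfl
  · rw [hω e h, ENNReal.ofReal_zero]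
    exact step_not _ fun u hu => h ⟨u, Subtype.ext ((hι u).trans (add_left_cancel hu).symm)⟩

variable {ω : Env U} (hω : ∀ y e, e ∉ range ι → (ω y).1 e = 0)
include hω

theorem isQuenched_Q (x : Site d) : IsQuenched ω x (Q ι p0 x ω) := by
  refine ⟨inferInstance, Vale.Agent.N147X.quenched_start_self _ _, fun n y e h => ?_⟩
  have h1 : Q ι p0 x ω (pc n y) ≠ 0 := h
  refine (cond_apply (Vale.Agent.N147X.measurableSet_pc n y) _ _).trans ?_
  rw [Q_step, step_of p0 hι (hω _), ← mul_assoc, ENNReal.inv_mul_cancel h1 (measure_ne_top _ _), one_mul]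

theorem IsQuenched.eq_Q {x : Site d} {P : Measure (Paths d)} (h : IsQuenched ω x P) :
    P = Q ι p0 x ω := by
  obtain ⟨h0, h1, h2⟩ := h
  have hs : ∀ (n : ℕ) (y : Paths d) (e : U), P (pc n y ∩ {X | X (n + 1) = y n + e}) =
      P (pc n y) * ENNReal.ofReal ((ω (y n)).1 e) := by
    intro n y e
    by_cases h3 : P (pc n y) = 0
    · rw [h3, zero_mul]
      exact measure_mono_null inter_subset_left h3
    · rw [← cond_mul_eq_inter (Vale.Agent.N147X.measurableSet_pc n y), mul_comm]
      exact congrArg (P (pc n y) * ·) (h2 n y e h3)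
  refine ext_pc fun n g => ?_
  induction n with
  | zero =>
    rw [pc_zero]
    refine Eq.trans ?_ (Vale.Agent.N147X.quenched_start (toEnv ι p0 ω) x (g 0)).symm
    by_cases h3 : x = g 0
    · rw [← h3, h1, indicator_of_mem (mem_singleton x)]
      rfl
    · rw [indicator_of_notMem (fun h4 => h3 (mem_singleton_iff.1 h4))]
      have h4 : P {X | X 0 = x}ᶜ = 0 :=
        (prob_compl_eq_zero_iff (measurableSet_at 0 x)).2 h1
      exact measure_mono_null (fun X hX h5 => h3 ((show X 0 = x from h5).symm.trans hX)) h4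
  | succ n ih =>
    rw [pc_succ, Q_step, ← ih]
    by_cases h3 : ∃ e : U, g (n + 1) = g n + e
    · obtain ⟨e, he⟩ := h3
      rw [he, hs, step_of p0 hι (hω _)]
    · have h4 : ∀ e : U, g (n + 1) ≠ g n + e := fun e he => h3 ⟨e, he⟩
      have hm := measurableSet_at (d := d) (n + 1)
      rw [step_not _ fun u => hι u ▸ h4 (ι u), mul_zero, inter_comm, ← Measure.restrict_apply (hm _)]
      refine rest_zero _ (f := fun X : Paths d => X (n + 1)) (measurable_pi_apply (n + 1)) ?_ h4
      simp only [Measure.restrict_apply (hm _), Measure.restrict_apply_univ, inter_comm _ (pc n g),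
        hs]
      rw [← Finset.mul_sum, sum_row, mul_one]

end

/-- all the steps -/
@[reducible] def full (U : Finset (Site d)) : Steps d :=
  ⟨U, inferInstance, inferInstance, Subtype.val, Subtype.val_injective⟩

theorem existsUnique_quenched (ω : Env U) (x : Site d) : ∃! P, IsQuenched ω x P := by
  let _ := full U
  let p0 : Vale.Agent.N147X.Row d := ⟨(ω 0).1, fun _ => (ω 0).2.1 _, (ω 0).2.2⟩
  exact ⟨Q (U := U) id p0 x ω, isQuenched_Q p0 (fun _ => rfl) (fun _ e h => absurd ⟨e, rfl⟩ h) x,
    fun _ h => h.eq_Q p0 (fun _ => rfl) fun _ e h => absurd ⟨e, rfl⟩ h⟩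

variable (μ : Measure (Row U)) [IsProbabilityMeasure μ]

theorem meas_quenched {x : Site d} {P : Env U → Measure (Paths d)}
    (hP : ∀ ω, IsQuenched ω x (P ω)) : Measurable P ∧ IsProbabilityMeasure (annealed μ P) := by
  let _ := full U
  obtain ⟨p⟩ := nonempty_of_isProbabilityMeasure μ
  let p0 : Vale.Agent.N147X.Row d := ⟨p.1, fun _ => p.2.1 _, p.2.2⟩
  obtain rfl : P = Q (U := U) id p0 x := funext fun ω =>
    (hP ω).eq_Q p0 (fun _ => rfl) fun _ e h => absurd ⟨e, rfl⟩ h
  refine ⟨measurable_Q _ _ x, ⟨?_⟩⟩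
  rw [annealed, Measure.bind_apply MeasurableSet.univ (measurable_Q _ _ x).aemeasurable]
  simp

open Classical in
/-- the steps of positive mean probability -/
@[reducible] noncomputable def eff : Steps d :=
  ⟨{e : U // ∫⁻ p, ENNReal.ofReal (p.1 e) ∂μ ≠ 0}, inferInstance, inferInstance,
    fun e => e.1.1, Subtype.val_injective.comp Subtype.val_injective⟩

theorem zero_one (l : Fin d → ℝ) : ∃ p : ℝ≥0∞, (p = 0 ∨ p = 1) ∧
    ∀ (x : Site d) (P : Env U → Measure (Paths d)), (∀ ω, IsQuenched ω x (P ω)) →
      annealed μ P (Escape l) = p ∧ ∀ᵐ ω ∂envLaw μ, P ω (Escape l) = p := by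
  let _ := eff μ
  let ι : Dir d → U := Subtype.val
  have hι : ∀ u, (ι u : Site d) = vec u := fun _ => rfl
  have h1 : ∀ᵐ p ∂μ, ∀ e, e ∉ range ι → p.1 e = 0 := by
    refine ae_all_iff.2 fun e => ?_
    by_cases he : ∫⁻ p, ENNReal.ofReal (p.1 e) ∂μ = 0
    · filter_upwards [(lintegral_eq_zero_iff (measurable_row e).ennreal_ofReal).1 he] with p hp _
      exact le_antisymm (ENNReal.ofReal_eq_zero.1 hp) (p.2.1 e)
    · exact Eventually.of_forall fun p h => absurd ⟨⟨e, he⟩, rfl⟩ h
  obtain ⟨p1, hp1⟩ := h1.exists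
  let p0 : Vale.Agent.N147X.Row d := ⟨fun u => p1.1 (ι u), fun _ => p1.2.1 _,
    (Fintype.sum_of_injective ι Subtype.val_injective _ _ hp1 fun _ => rfl).trans p1.2.2⟩
  have hm := measurable_toRow ι p0
  have : IsProbabilityMeasure (μ.map (toRow ι p0)) :=
    Measure.isProbabilityMeasure_map hm.aemeasurable
  have hev : ∀ (u : Dir d), Measurable fun p : Vale.Agent.N147X.Row d => ENNReal.ofReal (p.1 u) :=
    fun u => ((measurable_pi_apply u).comp measurable_subtype_coe).ennreal_ofReal
  have hμ : Vale.Agent.N147X.Eff (μ.map (toRow ι p0)) := by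
    intro u
    have h2 : Vale.Agent.N147X.wt (μ.map (toRow ι p0)) [u] =
        ∫⁻ p, ENNReal.ofReal (p.1 u) ∂(μ.map (toRow ι p0)) := by
      rw [← (measurePreserving_eval_infinitePi
        (fun _ : Site d => μ.map (toRow ι p0)) 0).lintegral_comp (hev u)]
      simp only [Vale.Agent.N147X.wt, Vale.Agent.N147X.qw_cons, Vale.Agent.N147X.qw_nil, mul_one]
      rfl
    rw [h2, lintegral_map (hev u) hm, lintegral_congr_ae (g := fun p => ENNReal.ofReal (p.1 (ι u)))
      (h1.mono fun p hp => by simp only [toRow_val p0 hι hp])]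
    exact u.2
  have hae : ∀ᵐ ω ∂envLaw μ, ∀ y e, e ∉ range ι → (ω y).1 e = 0 := ae_all_iff.2 fun y =>
    (measurePreserving_eval_infinitePi (fun _ : Site d => μ) y).quasiMeasurePreserving.ae h1
  have hB : MeasurableSet (Escape l) := Z.measurableSet_escR (ip l)
  have h01 := Z.zero_oneR _ hμ (ip l)
  refine ⟨_, h01, fun x P hP => ?_⟩
  have h3 : P =ᵐ[envLaw μ] Q ι p0 x := hae.mono fun ω hω => (hP ω).eq_Q p0 hι hω
  have h4 : ∫⁻ ω, Q ι p0 x ω (Escape l) ∂envLaw μ =
      Vale.Agent.N147X.annealed (μ.map (toRow ι p0)) 0 (Z.EscR (ip l)) :=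
    (annealed_eq ι p0 μ x hB).trans (Z.annealed_tinv _ x hB (Z.tinv_escR (ip l)))
  have h5 : Measurable fun ω => Q ι p0 x ω (Escape l) :=
    (Measure.measurable_coe hB).comp (measurable_Q ι p0 x)
  refine ⟨?_, ?_⟩
  · rw [annealed, Measure.bind_congr_right h3,
      Measure.bind_apply hB (measurable_Q ι p0 x).aemeasurable, h4]
  · rcases h01 with h | h
    · rw [h] at h4 ⊢
      filter_upwards [h3, (lintegral_eq_zero_iff h5).1 h4] with ω a1 a2
      rw [a1]
      exact a2
    · rw [h] at h4 ⊢
      have h6 := ae_eq_of_ae_le_of_lintegral_le (g := fun _ => 1)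
        (Eventually.of_forall fun ω => prob_le_one) (h4.trans_ne ENNReal.one_ne_top)
        aemeasurable_const (by simp [h4])
      filter_upwards [h3, h6] with ω a1 a2
      rw [a1]
      exact a2

end Vale.Agent.N147X.W
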